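import Vale.Agent.P050.R4.H345.Adm

/-!
# P050, series-parallel graphs: polygons glued along edges, with gadgets on the edges
-/

namespace Vale.Agent.P050.SP

/-- the series composition of the list `x :: L` -/
def chn : SP → List SP → SP
  | x, [] => x
  | x, y :: L => .ser x (chn y L)

theorem Same.chn_split (x : SP) (L1 : List SP) (y : SP) (L2 : List SP) :
    Same (chn x (L1 ++ y :: L2)) (.ser (chn x L1) (chn y L2)) := by
  induction L1 generalizing x with
  | nil => exact .refl _
  | cons z L1 ih =>
    refine .trans (.ser (.refl x) (ih z)) ?_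
    exact (Same.assoc x (chn z L1) (chn y L2)).symm

theorem len_chn {l : ℕ} {x : SP} {L : List SP} (hx : len x = l) (hL : ∀ y ∈ L, len y = l) :
    len (chn x L) = (L.length + 1) * l := by
  induction L generalizing x with
  | nil => simp [chn, hx]
  | cons y L ih =>
    simp only [chn, len]
    rw [ih (hL y (by simp)) (fun z hz => hL z (by simp [hz])), hx]
    simp only [List.length_cons]
    ring

theorem adm_chn {l : ℕ} {x : SP} {L : List SP} (hx : Adm x (some l) ∧ len x = l)
    (hL : ∀ y ∈ L, Adm y (some l) ∧ len y = l) :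
    Adm (chn x L) (some (len (chn x L))) := by
  induction L generalizing x with
  | nil => simp only [chn]; rw [hx.2]; exact hx.1
  | cons y L ih =>
    simp only [chn, len]
    refine .chain ?_ ?_
    · rw [hx.2]; exact hx.1
    · exact ih (hL y (by simp)) (fun z hz => hL z (by simp [hz]))

/-- A chain of at least two centred parts of the same length `l` is centred and may be put at
distance `l`. -/
theorem adm_poly {l : ℕ} {x : SP} {L : List SP}
    (hx : Adm x (some l) ∧ Adm x none ∧ len x = l)
    (hL : ∀ y ∈ L, Adm y (some l) ∧ Adm y none ∧ len y = l) (h0 : L ≠ []) :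
    Adm (chn x L) (some l) ∧ Adm (chn x L) none := by
  have key : ∀ L1 : List SP, (∀ y ∈ L1, Adm y (some l) ∧ Adm y none ∧ len y = l) →
      Adm (chn x L1) (some (len (chn x L1))) ∧ len (chn x L1) = (L1.length + 1) * l :=
    fun L1 h1 => ⟨adm_chn ⟨hx.1, hx.2.2⟩ fun y hy => ⟨(h1 y hy).1, (h1 y hy).2.2⟩,
      len_chn hx.2.2 fun y hy => (h1 y hy).2.2⟩
  rcases Nat.even_or_odd' L.length with ⟨j, hj | hj⟩
  · -- an odd number `2 j + 1` of parts
    obtain ⟨i, rfl⟩ : ∃ i, j = i + 1 := by
      cases j with
      | zero => exact absurd (List.length_eq_zero_iff.1 (by simpa using hj)) h0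
      | succ i => exact ⟨i, rfl⟩
    -- `L = L1 ++ y :: z :: L3`, both `L1` and `L3` have length `i`
    obtain ⟨L1, y, z, L3, rfl, h1, h3⟩ : ∃ (L1 : List SP) (y z : SP) (L3 : List SP),
        L = L1 ++ y :: z :: L3 ∧ L1.length = i ∧ L3.length = i := by
      have e1 : L = L.take i ++ L.drop i := (List.take_append_drop i L).symm
      have e2 : (L.drop i).length = i + 2 := by rw [List.length_drop]; omega
      match hd : L.drop i, e2 with
      | y :: z :: L3, e2 =>
        refine ⟨L.take i, y, z, L3, by rw [← hd]; exact e1, ?_, ?_⟩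
        · rw [List.length_take]; omega
        · simpa using e2
    have hL1 : ∀ w ∈ L1, Adm w (some l) ∧ Adm w none ∧ len w = l := fun w hw => hL w (by simp [hw])
    have hy := hL y (by simp)
    have hz := hL z (by simp)
    have hL3 : ∀ w ∈ L3, Adm w (some l) ∧ Adm w none ∧ len w = l := fun w hw => hL w (by simp [hw])
    have c1 := key L1 hL1
    have c3 : Adm (chn z L3) (some (len (chn z L3))) ∧ len (chn z L3) = (L3.length + 1) * l :=
      ⟨adm_chn ⟨hz.1, hz.2.2⟩ fun y hy => ⟨(hL3 y hy).1, (hL3 y hy).2.2⟩,
        len_chn hz.2.2 fun y hy => (hL3 y hy).2.2⟩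
    have s1 : Same (.ser (.ser (chn x L1) y) (chn z L3)) (chn x (L1 ++ y :: z :: L3)) :=
      .trans (.assoc _ _ _) (Same.chn_split x L1 y (z :: L3)).symm
    refine ⟨.same s1 (.longR ?_ c3.1), .same s1 (.csand c1.1 hy.2.1 c3.1 ?_)⟩
    · have e : l + len (chn z L3) = len (chn x L1) + len y := by
        rw [c3.2, c1.2, hy.2.2, h1, h3]; ring
      rw [e]
      refine .chain c1.1 ?_
      rw [hy.2.2]; exact hy.1
    · rw [c1.2, c3.2, h1, h3]
  · -- an even number `2 j + 2` of parts; `L = L1 ++ y :: L2`, both of length `j`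
    obtain ⟨L1, y, L2, rfl, h1, h2⟩ : ∃ (L1 : List SP) (y : SP) (L2 : List SP),
        L = L1 ++ y :: L2 ∧ L1.length = j ∧ L2.length = j := by
      have e1 : L = L.take j ++ L.drop j := (List.take_append_drop j L).symm
      have e2 : (L.drop j).length = j + 1 := by rw [List.length_drop]; omega
      match hd : L.drop j, e2 with
      | y :: L3, e2 =>
        refine ⟨L.take j, y, L3, by rw [← hd]; exact e1, ?_, ?_⟩
        · rw [List.length_take]; omega
        · simpa using e2
    have hL1 : ∀ w ∈ L1, Adm w (some l) ∧ Adm w none ∧ len w = l := fun w hw => hL w (by simp [hw])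
    have hy := hL y (by simp)
    have hL2 : ∀ w ∈ L2, Adm w (some l) ∧ Adm w none ∧ len w = l := fun w hw => hL w (by simp [hw])
    have c1 := key L1 hL1
    have c2 : Adm (chn y L2) (some (len (chn y L2))) ∧ len (chn y L2) = (L2.length + 1) * l :=
      ⟨adm_chn ⟨hy.1, hy.2.2⟩ fun y hy => ⟨(hL2 y hy).1, (hL2 y hy).2.2⟩,
        len_chn hy.2.2 fun y hy => (hL2 y hy).2.2⟩
    have s1 := (Same.chn_split x L1 y L2).symm
    refine ⟨?_, .same s1 (.cmid c1.1 c2.1 (by rw [c1.2, c2.2, h1, h2]))⟩
    cases L2 with
    | nil =>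
      have hk : len (chn x L1) = olen none + l + olen none := by
        simp only [List.length_nil] at h2
        rw [c1.2, h1, ← h2]; simp [olen]
      have M := Adm.mirror (ka := none) (s1 := none) (s2 := some y) (kb := none)
        (k := chn x L1) (d := l) (by simp) (by simp) c1.1 (by rintro _ ⟨⟩; exact hy.2.1)
        (by simp) hk
      exact .same s1 M
    | cons z L3 =>
      have hz := hL2 z (by simp)
      have hL3 : ∀ w ∈ L3, Adm w (some l) ∧ Adm w none ∧ len w = l :=
        fun w hw => hL2 w (by simp [hw])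
      have c3 : Adm (chn z L3) (some (len (chn z L3))) ∧
          len (chn z L3) = (L3.length + 1) * l :=
        ⟨adm_chn ⟨hz.1, hz.2.2⟩ fun y hy => ⟨(hL3 y hy).1, (hL3 y hy).2.2⟩,
          len_chn hz.2.2 fun y hy => (hL3 y hy).2.2⟩
      have hk : len (chn x L1) = olen none + l + olen (some (chn z L3)) := by
        simp only [List.length_cons] at h2
        simp only [olen]
        rw [c1.2, c3.2, h1, ← h2]; ring
      have M := Adm.mirror (ka := none) (s1 := none) (s2 := some y) (kb := some (chn z L3))
        (k := chn x L1) (d := l) (by simp) (by simp) c1.1 (by rintro _ ⟨⟩; exact hy.2.1)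
        (by rintro _ ⟨⟩; exact c3.1) hk
      refine .same (.trans (.assoc _ _ _) ?_) M
      exact (Same.chn_split x L1 y (z :: L3)).symm

/-- the path with `n + 1` edges -/
def pth (n : ℕ) : SP := chn .edge (List.replicate n .edge)

theorem len_pth (n : ℕ) : len (pth n) = n + 1 := by
  unfold pth
  rw [len_chn (l := 1) rfl (fun y hy => by rw [List.eq_of_mem_replicate hy]; rfl)]
  simp

theorem bal_chn {x : SP} {L : List SP} (hx : Balanced x) (hL : ∀ y ∈ L, Balanced y) :
    Balanced (chn x L) := by
  induction L generalizing x with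
  | nil => exact hx
  | cons y L ih =>
    exact .ser hx (ih (hL y (by simp)) (fun z hz => hL z (by simp [hz])))

theorem bal_pth (n : ℕ) : Balanced (pth n) :=
  bal_chn .edge fun y hy => by rw [List.eq_of_mem_replicate hy]; exact .edge

/-- a path of even length is centred -/
theorem cen_pth (j : ℕ) : Adm (pth (2 * j + 1)) none := by
  have e : List.replicate (2 * j + 1) SP.edge =
      List.replicate j SP.edge ++ SP.edge :: List.replicate j SP.edge := by
    rw [show 2 * j + 1 = j + (j + 1) by ring, List.replicate_add]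
    rfl
  have s : Same (.ser (pth j) (pth j)) (pth (2 * j + 1)) := by
    unfold pth
    rw [e]
    exact (Same.chn_split _ _ _ _).symm
  exact .same s (.cmid (.bal (bal_pth j) le_rfl rfl) (.bal (bal_pth j) le_rfl rfl) rfl)

/-- The even theta graph with path lengths `2 n + 2` and `2 (n + m) + 2`, `m` in `L`. -/
def theta (n : ℕ) : List ℕ → SP
  | [] => pth (2 * n + 1)
  | m :: L => .par (pth (2 * (n + m) + 1)) (theta n L)

theorem adm_theta (n : ℕ) (L : List ℕ) : Adm (theta n L) (some (2 * n + 2)) ∧
    Adm (theta n L) none ∧ len (theta n L) = 2 * n + 2 := by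
  induction L with
  | nil =>
    refine ⟨.bal (bal_pth _) ?_ ?_, cen_pth n, len_pth _⟩
    · simp only [theta, len_pth]; omega
    · simp only [theta, len_pth]
  | cons m L ih =>
    refine ⟨.par (.bal (bal_pth _) ?_ ?_) ih.1, .cpar (cen_pth _) ih.2.1, ?_⟩
    · rw [len_pth]; omega
    · rw [len_pth]; omega
    · simp only [theta, len, len_pth, ih.2.2]; omega

/-- Polygons glued along edges: starting from gadgets of length `l` one puts, again and again,
a chain of at least two members parallel to a member (that is, a polygon with at least three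
sides is glued along a side), or a load parallel to a member. -/
inductive Uni (l : ℕ) : SP → Prop
  | base {e : SP} : Adm e (some l) → Adm e none → len e = l → Uni l e
  | load {e f : SP} : Uni l e → Adm f (some l) → Adm f none → Uni l (.par e f)
  | poly {e x : SP} {L : List SP} : Uni l e → Uni l x → (∀ y ∈ L, Uni l y) → L ≠ [] →
      Uni l (.par e (chn x L))

theorem Uni.adm {l : ℕ} {e : SP} (h : Uni l e) :
    Adm e (some l) ∧ Adm e none ∧ len e = l := by
  induction h with
  | base h1 h2 h3 => exact ⟨h1, h2, h3⟩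
  | load _ h1 h2 ih =>
    refine ⟨.par ih.1 h1, .cpar ih.2.1 h2, ?_⟩
    have := h1.fits.2.1
    simp only [len, ih.2.2]
    omega
  | @poly e x L _ _ _ h0 i1 i2 i3 =>
    have P := adm_poly i2 i3 h0
    have := P.1.fits.2.1
    refine ⟨.par i1.1 P.1, .cpar i1.2.1 P.2, ?_⟩
    simp only [len, i1.2.2]
    omega

theorem Uni.theta (n : ℕ) (L : List ℕ) : Uni (2 * n + 2) (theta n L) :=
  .base (adm_theta n L).1 (adm_theta n L).2.1 (adm_theta n L).2.2

end Vale.Agent.P050.SP
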