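import Vale.Agent.P050.R4.H153.FrSem

/-!
# P050, frames: smaller records
-/

namespace Vale.Agent.P050.SP

open Finset Matrix Vale.Agent.P050.Ears Vale.Agent.P050.Lev

variable {S : Type} [Fintype S] [DecidableEq S] {A : Matrix S S ℝ} {μ : S → ℝ} {c : S → Bool}
variable {V : Type}

theorem TOK.of_le {side : V → Bool} {E E' : Multiset (V × ℕ × V)} (h : TOK side E)
    (hE : E' ≤ E) : TOK side E' := fun p hp => h p (Multiset.mem_of_le hE hp)

theorem TDer.tok {side : V → Bool} {r r' : Set V × Multiset (V × ℕ × V)} (t : TDer r r')
    (h : TOK side r.2) : TOK side r'.2 := by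
  induction t with
  | refl r => exact h
  | trans _ _ ih1 ih2 => exact ih2 (ih1 h)
  | @flip U u v d E =>
    intro p hp
    rcases Multiset.mem_cons.1 hp with rfl | hp
    · have h1 : side v = sh (side u) d := h (u, d, v) (Multiset.mem_cons_self _ _)
      change side u = sh (side v) d
      rw [h1, sh_sh]
    · exact h p (Multiset.mem_cons_of_mem hp)
  | prune _ _ => exact fun p hp => h p (Multiset.mem_cons_of_mem hp)
  | @smooth U u v w d d' E _ _ _ =>
    intro p hp
    rcases Multiset.mem_cons.1 hp with rfl | hp
    · have h1 : side v = sh (side u) d := h (u, d, v) (Multiset.mem_cons_self _ _)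
      have h2 : side w = sh (side v) d' :=
        h (v, d', w) (Multiset.mem_cons_of_mem (Multiset.mem_cons_self _ _))
      change side w = sh (side u) (d + d')
      rw [h2, h1, sh_add]
    · exact h p (Multiset.mem_cons_of_mem (Multiset.mem_cons_of_mem hp))

section

variable [Fintype V] [DecidableEq V] {side : V → Bool} {P : (V → S) → ℝ}

theorem mus_eq_zero {z : V → S} {v : V} (hv : c (z v) ≠ side v) : mus side μ c z = 0 :=
  Finset.prod_eq_zero (mem_univ v) (if_neg hv)

/-- one vertex is resampled -/
theorem resample_one (h : Rev A μ c) (side : V → Bool) (v : V) (Φ : (V → S) → ℝ) :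
    ∑ z, mus side μ c z * Φ z = ∑ z, mus side μ c z *
      ∑ x, (if c x = side v then μ x else 0) * Φ (Function.update z v x) := by
  have hg : Function.Injective fun _ : Unit => v := fun _ _ _ => rfl
  rw [resample h side hg Φ]
  refine Finset.sum_congr rfl fun z _ => ?_
  congr 1
  rw [← (Equiv.funUnique Unit S).symm.sum_comp]
  refine Finset.sum_congr rfl fun x _ => ?_
  have h1 : Function.extend (fun _ : Unit => v) ((Equiv.funUnique Unit S).symm x) z =
      Function.update z v x := by
    funext w
    by_cases hw : w = v
    · subst hw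
      rw [Function.update_self]
      exact hg.extend_apply _ z ()
    · rw [Function.update_of_ne hw, Function.extend_apply' _ _ _ fun ⟨_, e⟩ => hw e.symm]
  rw [h1]
  congr 1
  unfold mus
  rw [Fintype.prod_unique]
  rfl

/-- the mass of the last vertex of a step -/
theorem sum_last (h : Rev A μ c) {s : Bool} {x : S} (d : ℕ) (hs : s = sh (c x) d) :
    ∑ y, (if c y = s then μ y else 0) * kap A μ d x y = 1 := by
  rw [← h.pow_row d x]
  refine Finset.sum_congr rfl fun y _ => ?_
  rw [h.pow_eq d x y]
  by_cases hy : c y = s
  · rw [if_pos hy, mul_comm]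
  · have h1 : (A ^ d) x y = 0 := h.pow_alt d x y fun e => hy (e.trans hs.symm)
    have h2 : kap A μ d x y = 0 := by rw [kap, h1, zero_div]
    rw [if_neg hy, h2, zero_mul, zero_mul]

theorem sum_mid (h : Rev A μ c) {s : Bool} {x y : S} (d d' : ℕ) (hs : s = sh (c x) d) :
    ∑ w, (if c w = s then μ w else 0) * (kap A μ d x w * kap A μ d' w y) =
      kap A μ (d + d') x y := by
  rw [h.kap_add]
  refine Finset.sum_congr rfl fun w _ => ?_
  by_cases hw : c w = s
  · rw [if_pos hw]; ring
  · have h1 : (A ^ d) x w = 0 := h.pow_alt d x w fun e => hw (e.trans hs.symm)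
    have h2 : kap A μ d x w = 0 := by rw [kap, h1, zero_div]
    rw [if_neg hw, h2]; ring

theorem kapE_update {E : Multiset (V × ℕ × V)} {v : V} (hE : ∀ p ∈ E, p.1 ≠ v ∧ p.2.2 ≠ v)
    (z : V → S) (x : S) : kapE A μ E (Function.update z v x) = kapE A μ E z :=
  kapE_congr fun p hp =>
    ⟨Function.update_of_ne (hE p hp).1 _ _, Function.update_of_ne (hE p hp).2 _ _⟩

theorem MargT.flip (h : Rev A μ c) {U : Set V} {u v : V} {d : ℕ} {E : Multiset (V × ℕ × V)}
    (hm : MargT A μ c side P (U, (u, d, v) ::ₘ E)) :
    MargT A μ c side P (U, (v, d, u) ::ₘ E) := by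
  intro F hF
  rw [hm F hF]
  refine Finset.sum_congr rfl fun z _ => ?_
  simp only [kapE_cons]
  rw [h.kap_symm]

theorem MargT.prune (h : Rev A μ c) {U : Set V} {u v : V} {d : ℕ} {E : Multiset (V × ℕ × V)}
    (huv : u ≠ v) (hE : ∀ p ∈ E, p.1 ≠ v ∧ p.2.2 ≠ v) (hs : side v = sh (side u) d)
    (hm : MargT A μ c side P (U, (u, d, v) ::ₘ E)) : MargT A μ c side P (U \ {v}, E) := by
  intro F hF
  rw [hm F fun z z' hz => hF z z' fun w hw => hz w hw.1]
  have h1 : ∀ z : V → S, mus side μ c z * kapE A μ ((u, d, v) ::ₘ E) z * F z =
      mus side μ c z * (kap A μ d (z u) (z v) * (kapE A μ E z * F z)) := by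
    intro z
    rw [kapE_cons]; ring
  simp only [h1]
  rw [resample_one h side v]
  refine Finset.sum_congr rfl fun z _ => ?_
  by_cases hu : c (z u) = side u
  · have h2 : ∀ x, (if c x = side v then μ x else 0) *
        (kap A μ d (Function.update z v x u) (Function.update z v x v) *
          (kapE A μ E (Function.update z v x) * F (Function.update z v x))) =
        (if c x = side v then μ x else 0) * kap A μ d (z u) x * (kapE A μ E z * F z) := by
      intro x
      rw [Function.update_of_ne huv, Function.update_self, kapE_update hE,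
        hF (Function.update z v x) z fun w hw => Function.update_of_ne hw.2 _ _]
      ring
    simp only [h2]
    rw [← Finset.sum_mul, sum_last h d (by rw [hs, hu]), one_mul, mul_assoc]
  · rw [mus_eq_zero hu, zero_mul, zero_mul, zero_mul]

theorem MargT.smooth (h : Rev A μ c) {U : Set V} {u v w : V} {d d' : ℕ}
    {E : Multiset (V × ℕ × V)} (huv : u ≠ v) (hwv : w ≠ v)
    (hE : ∀ p ∈ E, p.1 ≠ v ∧ p.2.2 ≠ v) (hs : side v = sh (side u) d)
    (hm : MargT A μ c side P (U, (u, d, v) ::ₘ (v, d', w) ::ₘ E)) :
    MargT A μ c side P (U \ {v}, (u, d + d', w) ::ₘ E) := by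
  intro F hF
  rw [hm F fun z z' hz => hF z z' fun w hw => hz w hw.1]
  have h1 : ∀ z : V → S,
      mus side μ c z * kapE A μ ((u, d, v) ::ₘ (v, d', w) ::ₘ E) z * F z =
      mus side μ c z * (kap A μ d (z u) (z v) * (kap A μ d' (z v) (z w) *
        (kapE A μ E z * F z))) := by
    intro z
    rw [kapE_cons, kapE_cons]; ring
  simp only [h1]
  rw [resample_one h side v]
  refine Finset.sum_congr rfl fun z _ => ?_
  by_cases hu : c (z u) = side u
  · have h2 : ∀ x, (if c x = side v then μ x else 0) *
        (kap A μ d (Function.update z v x u) (Function.update z v x v) *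
          (kap A μ d' (Function.update z v x v) (Function.update z v x w) *
            (kapE A μ E (Function.update z v x) * F (Function.update z v x)))) =
        (if c x = side v then μ x else 0) * (kap A μ d (z u) x * kap A μ d' x (z w)) *
          (kapE A μ E z * F z) := by
      intro x
      rw [Function.update_of_ne huv, Function.update_self, Function.update_of_ne hwv,
        kapE_update hE, hF (Function.update z v x) z fun w hw => Function.update_of_ne hw.2 _ _]
      ring
    simp only [h2]
    rw [← Finset.sum_mul, sum_mid h d d' (by rw [hs, hu]), kapE_cons]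
    ring
  · rw [mus_eq_zero hu, zero_mul, zero_mul, zero_mul]

/-- the law of a record gives the law of the records contained in it -/
theorem TDer.margT (h : Rev A μ c) {r r' : Set V × Multiset (V × ℕ × V)} (t : TDer r r')
    (hr : TOK side r.2) (hm : MargT A μ c side P r) : MargT A μ c side P r' := by
  induction t with
  | refl r => exact hm
  | trans t1 _ ih1 ih2 => exact ih2 (t1.tok hr) (ih1 hr hm)
  | flip => exact hm.flip h
  | prune huv hE => exact hm.prune h huv hE (hr _ (Multiset.mem_cons_self _ _))
  | smooth huv hwv hE => exact hm.smooth h huv hwv hE (hr _ (Multiset.mem_cons_self _ _))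

/-- a record with two vertices -/
theorem MargT.two (h : Rev A μ c) {u v : V} {d : ℕ} (huv : u ≠ v)
    (hs : side v = sh (side u) d) (hm : MargT A μ c side P ({u, v}, {(u, d, v)})) :
    MargD A μ c P u v d (side u) := by
  intro F
  rw [hm (fun z => F (z u) (z v)) fun z z' hz => by
    rw [hz u (Set.mem_insert _ _), hz v (Set.mem_insert_of_mem _ rfl)]]
  have hg : Function.Injective fun b : Bool => if b then v else u := by
    intro a b hab
    rcases a with _ | _ <;> rcases b with _ | _ <;> simp_all
  have h1 : ∀ z : V → S, mus side μ c z * kapE A μ {(u, d, v)} z * F (z u) (z v) =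
      mus side μ c z * (kap A μ d (z u) (z v) * F (z u) (z v)) := by
    intro z
    have h2 : kapE A μ {(u, d, v)} z = kap A μ d (z u) (z v) := by
      rw [← Multiset.cons_zero, kapE_cons, kapE_zero, mul_one]
    rw [h2]; ring
  simp only [h1]
  rw [resample h side hg]
  have h2 : ∀ (z : V → S) (y : Bool → S),
      (Function.extend (fun b : Bool => if b then v else u) y z) u = y false ∧
      (Function.extend (fun b : Bool => if b then v else u) y z) v = y true := by
    intro z y
    exact ⟨hg.extend_apply y z false, hg.extend_apply y z true⟩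
  simp only [(h2 _ _).1, (h2 _ _).2]
  rw [← Finset.sum_mul, mus_sum h, one_mul,
    ← (Equiv.boolArrowEquivProd S).symm.sum_comp, Fintype.sum_prod_type]
  refine Finset.sum_congr rfl fun x _ => Finset.sum_congr rfl fun y _ => ?_
  have h3 : mus (fun n : Bool => side (if n then v else u)) μ c
      ((Equiv.boolArrowEquivProd S).symm (x, y)) =
      (if c x = side u then μ x else 0) * (if c y = side v then μ y else 0) := by
    unfold mus
    rw [Fintype.prod_bool, mul_comm]
    rfl
  rw [h3]
  change (if c x = side u then μ x else 0) * (if c y = side v then μ y else 0) *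
    (kap A μ d x y * F x y) = pd A μ c d (side u) x y * F x y
  unfold pd
  by_cases hx : c x = side u
  · rw [if_pos hx, if_pos hx, h.pow_eq d x y]
    by_cases hy : c y = side v
    · rw [if_pos hy]; ring
    · have h4 : (A ^ d) x y = 0 := h.pow_alt d x y fun e => hy (by rw [e, hs, ← hx]; rfl)
      have h5 : kap A μ d x y = 0 := by rw [kap, h4, zero_div]
      rw [if_neg hy, h5]; ring
  · rw [if_neg hx, if_neg hx, zero_mul, zero_mul, zero_mul]

end

end Vale.Agent.P050.SP
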