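import Vale.Agent.P050.R4.H345.AptDef

/-!
# P050, series-parallel graphs: replacing edges, polygons glued along edges
-/

namespace Vale.Agent.P050.SP

/-- `Rep c e g`: `g` arises from `e` by replacing every edge by a tight part of length `c`
(different parts are allowed). -/
inductive Rep (c : ℕ) : SP → SP → Prop
  | edge {g : SP} : Apt g (.dist c) → len g = c → Rep c .edge g
  | ser {a a' b b' : SP} : Rep c a a' → Rep c b b' → Rep c (.ser a b) (.ser a' b')
  | par {a a' b b' : SP} : Rep c a a' → Rep c b b' → Rep c (.par a b) (.par a' b')
  | hang {a a' b b' : SP} : Rep c a a' → Rep c b b' → Rep c (.hang a b) (.hang a' b')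
  | hangR {a a' b b' : SP} : Rep c a a' → Rep c b b' → Rep c (.hangR a b) (.hangR a' b')

/-- the series composition of the list `x :: L` -/
def chn : SP → List SP → SP
  | x, [] => x
  | x, y :: L => .ser x (chn y L)

/-- Polygons glued along edges: starting from centred parts of length `l` one puts, again and
again, a chain of at least two members parallel to a member (that is, a polygon with at least
three sides is glued along a side), or a centred part parallel to a member. -/
inductive Glue (l : ℕ) : SP → Prop
  | base {e : SP} : Apt e (.dist l) → Apt e .cen → len e = l → Glue l e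
  | load {e f : SP} : Glue l e → Apt f (.dist l) → Apt f .cen → Glue l (.par e f)
  | poly {e x : SP} {L : List SP} : Glue l e → Glue l x → (∀ y ∈ L, Glue l y) → L ≠ [] →
      Glue l (.par e (chn x L))

end Vale.Agent.P050.SP
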