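import Vale.Agent.P050.R4.H345.Apt
import Vale.Agent.P050.R4.H345.AptCorDef

/-!
# P050, series-parallel graphs: replacing edges, polygons glued along edges
-/

namespace Vale.Agent.P050.SP

/-! ### Replacing the edges -/

theorem Rep.len_eq {c : ℕ} {e g : SP} (h : Rep c e g) : len g = c * len e := by
  induction h with
  | edge _ hl => rw [hl]; simp [len]
  | ser _ _ h1 h2 => simp only [len, h1, h2]; ring
  | par _ _ h1 h2 =>
    simp only [len, h1, h2]
    rcases Nat.le_total (len ‹_›) (len ‹_›) with _ | _ <;> exact (Nat.mul_min_mul_left _ _ _).symm ▸ rfl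
  | hang _ _ h1 _ => simp only [len, h1]
  | hangR _ _ h1 _ => simp only [len, h1]

/-- the index multiplied by `c` -/
def Iy.mul (c : ℕ) : Iy → Iy
  | .dist d => .dist (c * d)
  | .cen => .cen
  | .bent p q => .bent (c * p) (c * q)
  | .side p q n => .side (c * p) (c * q) (c * n)
  | .load p q n => .load (c * p) (c * q) (c * n)

/-- edges may be replaced before or after regrouping -/
theorem Rep.same {c : ℕ} {e e' : SP} (h : Same e e') :
    (∀ g', Rep c e' g' → ∃ g, Rep c e g ∧ Same g g') ∧
      (∀ g, Rep c e g → ∃ g', Rep c e' g' ∧ Same g g') := by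
  induction h with
  | refl a => exact ⟨fun g h => ⟨g, h, .refl _⟩, fun g h => ⟨g, h, .refl _⟩⟩
  | symm _ ih =>
    refine ⟨fun g hg => ?_, fun g hg => ?_⟩
    · obtain ⟨g', h1, h2⟩ := ih.2 g hg
      exact ⟨g', h1, h2.symm⟩
    · obtain ⟨g', h1, h2⟩ := ih.1 g hg
      exact ⟨g', h1, h2.symm⟩
  | trans _ _ i1 i2 =>
    refine ⟨fun g hg => ?_, fun g hg => ?_⟩
    · obtain ⟨g', h1, h2⟩ := i2.1 g hg
      obtain ⟨g'', h3, h4⟩ := i1.1 g' h1
      exact ⟨g'', h3, h4.trans h2⟩
    · obtain ⟨g', h1, h2⟩ := i1.2 g hg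
      obtain ⟨g'', h3, h4⟩ := i2.2 g' h1
      exact ⟨g'', h3, h2.trans h4⟩
  | ser _ _ i1 i2 =>
    refine ⟨fun g hg => ?_, fun g hg => ?_⟩
    · cases hg with
      | ser u v =>
        obtain ⟨x, h1, h2⟩ := i1.1 _ u
        obtain ⟨y, h3, h4⟩ := i2.1 _ v
        exact ⟨_, .ser h1 h3, .ser h2 h4⟩
    · cases hg with
      | ser u v =>
        obtain ⟨x, h1, h2⟩ := i1.2 _ u
        obtain ⟨y, h3, h4⟩ := i2.2 _ v
        exact ⟨_, .ser h1 h3, .ser h2 h4⟩
  | par _ _ i1 i2 =>
    refine ⟨fun g hg => ?_, fun g hg => ?_⟩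
    · cases hg with
      | par u v =>
        obtain ⟨x, h1, h2⟩ := i1.1 _ u
        obtain ⟨y, h3, h4⟩ := i2.1 _ v
        exact ⟨_, .par h1 h3, .par h2 h4⟩
    · cases hg with
      | par u v =>
        obtain ⟨x, h1, h2⟩ := i1.2 _ u
        obtain ⟨y, h3, h4⟩ := i2.2 _ v
        exact ⟨_, .par h1 h3, .par h2 h4⟩
  | hang _ _ i1 i2 =>
    refine ⟨fun g hg => ?_, fun g hg => ?_⟩
    · cases hg with
      | hang u v =>
        obtain ⟨x, h1, h2⟩ := i1.1 _ u
        obtain ⟨y, h3, h4⟩ := i2.1 _ v
        exact ⟨_, .hang h1 h3, .hang h2 h4⟩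
    · cases hg with
      | hang u v =>
        obtain ⟨x, h1, h2⟩ := i1.2 _ u
        obtain ⟨y, h3, h4⟩ := i2.2 _ v
        exact ⟨_, .hang h1 h3, .hang h2 h4⟩
  | hangR _ _ i1 i2 =>
    refine ⟨fun g hg => ?_, fun g hg => ?_⟩
    · cases hg with
      | hangR u v =>
        obtain ⟨x, h1, h2⟩ := i1.1 _ u
        obtain ⟨y, h3, h4⟩ := i2.1 _ v
        exact ⟨_, .hangR h1 h3, .hangR h2 h4⟩
    · cases hg with
      | hangR u v =>
        obtain ⟨x, h1, h2⟩ := i1.2 _ u
        obtain ⟨y, h3, h4⟩ := i2.2 _ v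
        exact ⟨_, .hangR h1 h3, .hangR h2 h4⟩
  | assoc =>
    refine ⟨fun g hg => ?_, fun g hg => ?_⟩
    · cases hg with
      | ser u v => cases v with
        | ser v w => exact ⟨_, .ser (.ser u v) w, .assoc _ _ _⟩
    · cases hg with
      | ser u w => cases u with
        | ser u v => exact ⟨_, .ser u (.ser v w), .assoc _ _ _⟩
  | pcomm =>
    refine ⟨fun g hg => ?_, fun g hg => ?_⟩ <;>
    · cases hg with
      | par u v => exact ⟨_, .par v u, .pcomm _ _⟩
  | passoc =>
    refine ⟨fun g hg => ?_, fun g hg => ?_⟩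
    · cases hg with
      | par u v => cases v with
        | par v w => exact ⟨_, .par (.par u v) w, .passoc _ _ _⟩
    · cases hg with
      | par u w => cases u with
        | par u v => exact ⟨_, .par u (.par v w), .passoc _ _ _⟩
  | hser =>
    refine ⟨fun g hg => ?_, fun g hg => ?_⟩
    · cases hg with
      | ser u v => cases u with
        | hang u w => exact ⟨_, .hang (.ser u v) w, .hser _ _ _⟩
    · cases hg with
      | hang u w => cases u with
        | ser u v => exact ⟨_, .ser (.hang u w) v, .hser _ _ _⟩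
  | hserR =>
    refine ⟨fun g hg => ?_, fun g hg => ?_⟩
    · cases hg with
      | ser u v => cases v with
        | hangR v w => exact ⟨_, .hangR (.ser u v) w, .hserR _ _ _⟩
    · cases hg with
      | hangR u w => cases u with
        | ser u v => exact ⟨_, .ser u (.hangR v w), .hserR _ _ _⟩
  | hmid =>
    refine ⟨fun g hg => ?_, fun g hg => ?_⟩
    · cases hg with
      | ser u v => cases v with
        | hang v w => exact ⟨_, .ser (.hangR u w) v, .hmid _ _ _⟩
    · cases hg with
      | ser u v => cases u with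
        | hangR u w => exact ⟨_, .ser u (.hang v w), .hmid _ _ _⟩
  | hpar =>
    refine ⟨fun g hg => ?_, fun g hg => ?_⟩
    · cases hg with
      | par u v => cases u with
        | hang u w => exact ⟨_, .hang (.par u v) w, .hpar _ _ _⟩
    · cases hg with
      | hang u w => cases u with
        | par u v => exact ⟨_, .par (.hang u w) v, .hpar _ _ _⟩
  | hparR =>
    refine ⟨fun g hg => ?_, fun g hg => ?_⟩
    · cases hg with
      | par u v => cases u with
        | hangR u w => exact ⟨_, .hangR (.par u v) w, .hparR _ _ _⟩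
    · cases hg with
      | hangR u w => cases u with
        | par u v => exact ⟨_, .par (.hangR u w) v, .hparR _ _ _⟩

theorem Rep.oser {c : ℕ} {o : Option SP} {e g : SP} (h : Rep c (oser o e) g) :
    ∃ (o' : Option SP) (e' : SP), g = SP.oser o' e' ∧ Rep c e e' ∧ olen o' = c * olen o ∧
      ∀ a', o' = some a' → ∃ a, o = some a ∧ Rep c a a' := by
  cases o with
  | none => exact ⟨none, g, rfl, h, by simp [olen], by simp⟩
  | some a =>
    cases h with
    | ser u v =>
      exact ⟨some _, _, rfl, v, u.len_eq, fun a' ha' => ⟨a, rfl, by cases ha'; exact u⟩⟩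

theorem Rep.sero {c : ℕ} {o : Option SP} {e g : SP} (h : Rep c (sero e o) g) :
    ∃ (o' : Option SP) (e' : SP), g = SP.sero e' o' ∧ Rep c e e' ∧ olen o' = c * olen o ∧
      ∀ a', o' = some a' → ∃ a, o = some a ∧ Rep c a a' := by
  cases o with
  | none => exact ⟨none, g, rfl, h, by simp [olen], by simp⟩
  | some a =>
    cases h with
    | ser u v =>
      exact ⟨some _, _, rfl, u, v.len_eq, fun a' ha' => ⟨a, rfl, by cases ha'; exact v⟩⟩

/-- The class is closed under replacing the edges by tight parts of one length. -/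
theorem Apt.sub {c : ℕ} {e : SP} {i : Iy} (h : Apt e i) :
    ∀ g, Rep c e g → Apt g (i.mul c) := by
  induction h with
  | edge =>
    intro g hg
    cases hg with
    | edge h1 h2 => simpa [Iy.mul] using h1
  | par _ _ h1 h2 =>
    intro g hg
    cases hg with
    | par u v => exact .par (h1 _ u) (h2 _ v)
  | @longR a b d _ _ h1 h2 =>
    intro g hg
    cases hg with
    | ser u v =>
      refine .longR ?_ ?_
      · rw [v.len_eq, ← mul_add]; exact h1 _ u
      · rw [v.len_eq]; exact h2 _ v
  | @longL a b d _ _ h1 h2 =>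
    intro g hg
    cases hg with
    | ser u v =>
      refine .longL ?_ ?_
      · rw [u.len_eq]; exact h1 _ u
      · rw [u.len_eq, ← mul_add]; exact h2 _ v
  | @polyR a b p q d _ _ hd h1 h2 =>
    intro g hg
    cases hg with
    | ser u v =>
      have e1 := h2 _ v
      simp only [Iy.mul] at e1 ⊢
      refine .polyR (by rw [u.len_eq]; exact h1 _ u) (p := c * p) (q := c * q) ?_ ?_
      · rw [u.len_eq, ← mul_add]; exact e1
      · rw [u.len_eq, ← mul_add, ← mul_add, hd]
  | @polyL a b p q d _ _ hd h1 h2 =>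
    intro g hg
    cases hg with
    | ser u v =>
      have e1 := h1 _ u
      simp only [Iy.mul] at e1 ⊢
      refine .polyL (p := c * p) (q := c * q) ?_ (by rw [v.len_eq]; exact h2 _ v) ?_
      · rw [v.len_eq, ← mul_add]; exact e1
      · rw [v.len_eq, ← mul_add, ← mul_add, hd]
  | @foldR e p q d _ hd h1 =>
    intro g hg
    refine .foldR (h1 g hg) ?_
    rw [hd]; ring
  | @foldL e p q d _ hd h1 =>
    intro g hg
    refine .foldL (h1 g hg) ?_
    rw [hd]; ring
  | @mirror ka s1 s2 kb k d _ _ _ _ _ hl h1 h2 h3 h4 h5 =>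
    intro g hg
    obtain ⟨ka', g1, rfl, hg1, la, ha⟩ := hg.oser
    obtain ⟨s1', g2, rfl, hg2, _, hs1⟩ := hg1.oser
    obtain ⟨kb', g3, rfl, hg3, lb, hb⟩ := hg2.sero
    obtain ⟨s2', k', rfl, hk, _, hs2⟩ := hg3.sero
    refine .mirror ?_ ?_ ?_ ?_ ?_ ?_
    · intro a' ha'
      obtain ⟨a, rfl, hs⟩ := ha a' ha'
      rw [hs.len_eq]
      exact h1 a rfl a' hs
    · intro a' ha'
      obtain ⟨a, rfl, hs⟩ := hs1 a' ha'
      exact h2 a rfl a' hs
    · rw [hk.len_eq]; exact h3 k' hk
    · intro a' ha'
      obtain ⟨a, rfl, hs⟩ := hs2 a' ha'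
      exact h4 a rfl a' hs
    · intro a' ha'
      obtain ⟨a, rfl, hs⟩ := hb a' ha'
      rw [hs.len_eq]
      exact h5 a rfl a' hs
    · rw [hk.len_eq, la, lb, hl]; ring
  | cmid _ _ hl h1 h2 =>
    intro g hg
    cases hg with
    | ser u v =>
      exact .cmid (by rw [u.len_eq]; exact h1 _ u) (by rw [v.len_eq]; exact h2 _ v)
        (by rw [u.len_eq, v.len_eq, hl])
  | csand _ _ _ hl h1 h2 h3 =>
    intro g hg
    cases hg with
    | ser u w => cases u with
      | ser u v =>
        exact .csand (by rw [u.len_eq]; exact h1 _ u) (h2 _ v) (by rw [w.len_eq]; exact h3 _ w)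
          (by rw [u.len_eq, w.len_eq, hl])
  | cpar _ _ h1 h2 =>
    intro g hg
    cases hg with
    | par u v => exact .cpar (h1 _ u) (h2 _ v)
  | bentL _ h1 =>
    intro g hg
    have e := hg.len_eq
    simp only [Iy.mul, mul_zero]
    rw [← e]
    exact .bentL (by rw [e]; exact h1 g hg)
  | bentR _ h1 =>
    intro g hg
    have e := hg.len_eq
    simp only [Iy.mul, mul_zero]
    rw [← e]
    exact .bentR (by rw [e]; exact h1 g hg)
  | bpar _ _ h1 h2 =>
    intro g hg
    cases hg with
    | par u v => exact .bpar (h1 _ u) (h2 _ v)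
  | bserR _ _ h1 h2 =>
    intro g hg
    cases hg with
    | ser u v =>
      simp only [Iy.mul, mul_add]
      rw [← u.len_eq]
      exact .bserR (by rw [u.len_eq]; exact h1 _ u) (h2 _ v)
  | bserL _ _ h1 h2 =>
    intro g hg
    cases hg with
    | ser u v =>
      simp only [Iy.mul, mul_add]
      rw [← v.len_eq]
      exact .bserL (h1 _ u) (by rw [v.len_eq]; exact h2 _ v)
  | side _ h1 => exact fun g hg => .side (h1 g hg)
  | spar _ _ h1 h2 =>
    intro g hg
    cases hg with
    | par u v => exact .spar (h1 _ u) (h2 _ v)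
  | sserR _ _ h1 h2 =>
    intro g hg
    cases hg with
    | ser u v =>
      simp only [Iy.mul, mul_add]
      rw [← u.len_eq]
      exact .sserR (by rw [u.len_eq]; exact h1 _ u) (h2 _ v)
  | sserL _ _ h1 h2 =>
    intro g hg
    cases hg with
    | ser u v =>
      simp only [Iy.mul, mul_add]
      rw [← v.len_eq]
      exact .sserL (h1 _ u) (by rw [v.len_eq]; exact h2 _ v)
  | load _ h1 => exact fun g hg => .load (h1 g hg)
  | lpar _ _ h1 h2 =>
    intro g hg
    cases hg with
    | par u v => exact .lpar (h1 _ u) (h2 _ v)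
  | @opp e p q k d _ hT hle h1 =>
    intro g hg
    have e1 := h1 g hg
    simp only [Iy.mul, mul_add] at e1 ⊢
    refine .opp e1 ?_ ?_
    · rw [← mul_add, ← mul_add, hT]
    · rw [← mul_add, ← mul_add]; exact Nat.mul_le_mul_left c hle
  | @wideR a b p q n hn _ _ hle h1 h2 =>
    intro g hg
    cases hg with
    | ser u v =>
      have e1 := h1 _ u
      simp only [Iy.mul] at e1 ⊢
      refine .wideR ?_ (by rw [v.len_eq, ← mul_add]; exact e1)
        (by rw [v.len_eq]; exact h2 _ v) ?_
      · rw [Nat.mul_mod, hn, mul_zero, Nat.zero_mod]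
      · rw [v.len_eq, ← mul_add, ← mul_add]; exact Nat.mul_le_mul_left c hle
  | @wideL a b p q n hn _ _ hle h1 h2 =>
    intro g hg
    cases hg with
    | ser u v =>
      have e1 := h2 _ v
      simp only [Iy.mul] at e1 ⊢
      refine .wideL ?_ (by rw [u.len_eq]; exact h1 _ u)
        (by rw [u.len_eq, ← mul_add]; exact e1) ?_
      · rw [Nat.mul_mod, hn, mul_zero, Nat.zero_mod]
      · rw [u.len_eq, ← mul_add, ← mul_add]; exact Nat.mul_le_mul_left c hle
  | hang _ _ h1 h2 =>
    intro g hg
    cases hg with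
    | hang u v => exact .hang (h1 _ u) (by rw [v.len_eq]; exact h2 _ v)
  | hangR _ _ h1 h2 =>
    intro g hg
    cases hg with
    | hangR u v => exact .hangR (h1 _ u) (by rw [v.len_eq]; exact h2 _ v)
  | same hs _ h1 =>
    intro g hg
    obtain ⟨g0, h2, h3⟩ := (Rep.same hs).1 g hg
    exact .same h3 (h1 g0 h2)

theorem Apt.sub_tight {c : ℕ} {e g : SP} (h : Apt e (.dist (len e))) (hg : Rep c e g) :
    Apt g (.dist (len g)) := by
  rw [hg.len_eq]
  exact h.sub g hg

/-! ### Polygons glued along edges -/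

theorem Apt.bal {e : SP} {d : ℕ} (hb : Balanced e) (hd : d ≤ len e) (hp : d % 2 = len e % 2) :
    Apt e (.dist d) :=
  .fold (hb.apt.2 ((len e + d) / 2) ((len e - d) / 2) (by omega)) (.inl (by omega))

theorem Same.chn_split (x : SP) (L1 : List SP) (y : SP) (L2 : List SP) :
    Same (chn x (L1 ++ y :: L2)) (.ser (chn x L1) (chn y L2)) := by
  induction L1 generalizing x with
  | nil => exact .refl _
  | cons z L1 ih =>
    refine .trans (.ser (.refl x) (ih z)) ?_
    exact (Same.assoc x (chn z L1) (chn y L2)).symm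

theorem len_chn {l : ℕ} {x : SP} {L : List SP} (hx : len x = l) (hL : ∀ y ∈ L, len y = l) :
    len (chn x L) = (L.length + 1) * l := by
  induction L generalizing x with
  | nil => simp [chn, hx]
  | cons y L ih =>
    simp only [chn, len]
    rw [ih (hL y (by simp)) (fun z hz => hL z (by simp [hz])), hx]
    simp only [List.length_cons]
    ring

theorem apt_chn {l : ℕ} {x : SP} {L : List SP} (hx : Apt x (.dist l) ∧ len x = l)
    (hL : ∀ y ∈ L, Apt y (.dist l) ∧ len y = l) :
    Apt (chn x L) (.dist (len (chn x L))) := by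
  induction L generalizing x with
  | nil => simp only [chn]; rw [hx.2]; exact hx.1
  | cons y L ih =>
    simp only [chn, len]
    refine .chain ?_ ?_
    · rw [hx.2]; exact hx.1
    · exact ih (hL y (by simp)) (fun z hz => hL z (by simp [hz]))

/-- A chain of at least two centred parts of the same length `l` is centred and may be put at
distance `l`. -/
theorem apt_poly {l : ℕ} {x : SP} {L : List SP}
    (hx : Apt x (.dist l) ∧ Apt x .cen ∧ len x = l)
    (hL : ∀ y ∈ L, Apt y (.dist l) ∧ Apt y .cen ∧ len y = l) (h0 : L ≠ []) :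
    Apt (chn x L) (.dist l) ∧ Apt (chn x L) .cen := by
  have key : ∀ L1 : List SP, (∀ y ∈ L1, Apt y (.dist l) ∧ Apt y .cen ∧ len y = l) →
      Apt (chn x L1) (.dist (len (chn x L1))) ∧ len (chn x L1) = (L1.length + 1) * l :=
    fun L1 h1 => ⟨apt_chn ⟨hx.1, hx.2.2⟩ fun y hy => ⟨(h1 y hy).1, (h1 y hy).2.2⟩,
      len_chn hx.2.2 fun y hy => (h1 y hy).2.2⟩
  rcases Nat.even_or_odd' L.length with ⟨j, hj | hj⟩
  · -- an odd number `2 j + 1` of parts
    obtain ⟨i, rfl⟩ : ∃ i, j = i + 1 := by
      cases j with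
      | zero => exact absurd (List.length_eq_zero_iff.1 (by simpa using hj)) h0
      | succ i => exact ⟨i, rfl⟩
    -- `L = L1 ++ y :: z :: L3`, both `L1` and `L3` have length `i`
    obtain ⟨L1, y, z, L3, rfl, h1, h3⟩ : ∃ (L1 : List SP) (y z : SP) (L3 : List SP),
        L = L1 ++ y :: z :: L3 ∧ L1.length = i ∧ L3.length = i := by
      have e1 : L = L.take i ++ L.drop i := (List.take_append_drop i L).symm
      have e2 : (L.drop i).length = i + 2 := by rw [List.length_drop]; omega
      match hd : L.drop i, e2 with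
      | y :: z :: L3, e2 =>
        refine ⟨L.take i, y, z, L3, by rw [← hd]; exact e1, ?_, ?_⟩
        · rw [List.length_take]; omega
        · simpa using e2
    have hL1 : ∀ w ∈ L1, Apt w (.dist l) ∧ Apt w .cen ∧ len w = l := fun w hw => hL w (by simp [hw])
    have hy := hL y (by simp)
    have hz := hL z (by simp)
    have hL3 : ∀ w ∈ L3, Apt w (.dist l) ∧ Apt w .cen ∧ len w = l := fun w hw => hL w (by simp [hw])
    have c1 := key L1 hL1
    have c3 : Apt (chn z L3) (.dist (len (chn z L3))) ∧ len (chn z L3) = (L3.length + 1) * l :=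
      ⟨apt_chn ⟨hz.1, hz.2.2⟩ fun y hy => ⟨(hL3 y hy).1, (hL3 y hy).2.2⟩,
        len_chn hz.2.2 fun y hy => (hL3 y hy).2.2⟩
    have s1 : Same (.ser (.ser (chn x L1) y) (chn z L3)) (chn x (L1 ++ y :: z :: L3)) :=
      .trans (.assoc _ _ _) (Same.chn_split x L1 y (z :: L3)).symm
    refine ⟨.same s1 (.longR ?_ c3.1), .same s1 (.csand c1.1 hy.2.1 c3.1 ?_)⟩
    · have e : l + len (chn z L3) = len (chn x L1) + len y := by
        rw [c3.2, c1.2, hy.2.2, h1, h3]; ring
      rw [e]
      refine .chain c1.1 ?_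
      rw [hy.2.2]; exact hy.1
    · rw [c1.2, c3.2, h1, h3]
  · -- an even number `2 j + 2` of parts; `L = L1 ++ y :: L2`, both of length `j`
    obtain ⟨L1, y, L2, rfl, h1, h2⟩ : ∃ (L1 : List SP) (y : SP) (L2 : List SP),
        L = L1 ++ y :: L2 ∧ L1.length = j ∧ L2.length = j := by
      have e1 : L = L.take j ++ L.drop j := (List.take_append_drop j L).symm
      have e2 : (L.drop j).length = j + 1 := by rw [List.length_drop]; omega
      match hd : L.drop j, e2 with
      | y :: L3, e2 =>
        refine ⟨L.take j, y, L3, by rw [← hd]; exact e1, ?_, ?_⟩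
        · rw [List.length_take]; omega
        · simpa using e2
    have hL1 : ∀ w ∈ L1, Apt w (.dist l) ∧ Apt w .cen ∧ len w = l := fun w hw => hL w (by simp [hw])
    have hy := hL y (by simp)
    have hL2 : ∀ w ∈ L2, Apt w (.dist l) ∧ Apt w .cen ∧ len w = l := fun w hw => hL w (by simp [hw])
    have c1 := key L1 hL1
    have c2 : Apt (chn y L2) (.dist (len (chn y L2))) ∧ len (chn y L2) = (L2.length + 1) * l :=
      ⟨apt_chn ⟨hy.1, hy.2.2⟩ fun y hy => ⟨(hL2 y hy).1, (hL2 y hy).2.2⟩,
        len_chn hy.2.2 fun y hy => (hL2 y hy).2.2⟩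
    have s1 := (Same.chn_split x L1 y L2).symm
    refine ⟨?_, .same s1 (.cmid c1.1 c2.1 (by rw [c1.2, c2.2, h1, h2]))⟩
    cases L2 with
    | nil =>
      have hk : len (chn x L1) = olen none + l + olen none := by
        simp only [List.length_nil] at h2
        rw [c1.2, h1, ← h2]; simp [olen]
      have M := Apt.mirror (ka := none) (s1 := none) (s2 := some y) (kb := none)
        (k := chn x L1) (d := l) (by simp) (by simp) c1.1 (by rintro _ ⟨⟩; exact hy.2.1)
        (by simp) hk
      exact .same s1 M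
    | cons z L3 =>
      have hz := hL2 z (by simp)
      have hL3 : ∀ w ∈ L3, Apt w (.dist l) ∧ Apt w .cen ∧ len w = l :=
        fun w hw => hL2 w (by simp [hw])
      have c3 : Apt (chn z L3) (.dist (len (chn z L3))) ∧
          len (chn z L3) = (L3.length + 1) * l :=
        ⟨apt_chn ⟨hz.1, hz.2.2⟩ fun y hy => ⟨(hL3 y hy).1, (hL3 y hy).2.2⟩,
          len_chn hz.2.2 fun y hy => (hL3 y hy).2.2⟩
      have hk : len (chn x L1) = olen none + l + olen (some (chn z L3)) := by
        simp only [List.length_cons] at h2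
        simp only [olen]
        rw [c1.2, c3.2, h1, ← h2]; ring
      have M := Apt.mirror (ka := none) (s1 := none) (s2 := some y) (kb := some (chn z L3))
        (k := chn x L1) (d := l) (by simp) (by simp) c1.1 (by rintro _ ⟨⟩; exact hy.2.1)
        (by rintro _ ⟨⟩; exact c3.1) hk
      refine .same (.trans (.assoc _ _ _) ?_) M
      exact (Same.chn_split x L1 y (z :: L3)).symm

/-- the path with `n + 1` edges -/
def apath (n : ℕ) : SP := chn .edge (List.replicate n .edge)

theorem len_apath (n : ℕ) : len (apath n) = n + 1 := by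
  unfold apath
  rw [len_chn (l := 1) rfl (fun y hy => by rw [List.eq_of_mem_replicate hy]; rfl)]
  simp

theorem bal_chn {x : SP} {L : List SP} (hx : Balanced x) (hL : ∀ y ∈ L, Balanced y) :
    Balanced (chn x L) := by
  induction L generalizing x with
  | nil => exact hx
  | cons y L ih =>
    exact .ser hx (ih (hL y (by simp)) (fun z hz => hL z (by simp [hz])))

theorem bal_apath (n : ℕ) : Balanced (apath n) :=
  bal_chn .edge fun y hy => by rw [List.eq_of_mem_replicate hy]; exact .edge

/-- a path of even length is centred -/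
theorem cen_apath (j : ℕ) : Apt (apath (2 * j + 1)) .cen := by
  have e : List.replicate (2 * j + 1) SP.edge =
      List.replicate j SP.edge ++ SP.edge :: List.replicate j SP.edge := by
    rw [show 2 * j + 1 = j + (j + 1) by ring, List.replicate_add]
    rfl
  have s : Same (.ser (apath j) (apath j)) (apath (2 * j + 1)) := by
    unfold apath
    rw [e]
    exact (Same.chn_split _ _ _ _).symm
  exact .same s (.cmid (.bal (bal_apath j) le_rfl rfl) (.bal (bal_apath j) le_rfl rfl) rfl)

/-- The even theta graph with path lengths `2 n + 2` and `2 (n + m) + 2`, `m` in `L`. -/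
def atheta (n : ℕ) : List ℕ → SP
  | [] => apath (2 * n + 1)
  | m :: L => .par (apath (2 * (n + m) + 1)) (atheta n L)

theorem apt_theta (n : ℕ) (L : List ℕ) : Apt (atheta n L) (.dist (2 * n + 2)) ∧
    Apt (atheta n L) .cen ∧ len (atheta n L) = 2 * n + 2 := by
  induction L with
  | nil =>
    refine ⟨.bal (bal_apath _) ?_ ?_, cen_apath n, len_apath _⟩
    · simp only [atheta, len_apath]; omega
    · simp only [atheta, len_apath]
  | cons m L ih =>
    refine ⟨.par (.bal (bal_apath _) ?_ ?_) ih.1, .cpar (cen_apath _) ih.2.1, ?_⟩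
    · rw [len_apath]; omega
    · rw [len_apath]; omega
    · simp only [atheta, len, len_apath, ih.2.2]; omega

theorem Glue.apt {l : ℕ} {e : SP} (h : Glue l e) :
    Apt e (.dist l) ∧ Apt e .cen ∧ len e = l := by
  induction h with
  | base h1 h2 h3 => exact ⟨h1, h2, h3⟩
  | load _ h1 h2 ih =>
    refine ⟨.par ih.1 h1, .cpar ih.2.1 h2, ?_⟩
    have := h1.fits.2.1
    simp only [len, ih.2.2]
    omega
  | @poly e x L _ _ _ h0 i1 i2 i3 =>
    have P := apt_poly i2 i3 h0
    have := P.1.fits.2.1
    refine ⟨.par i1.1 P.1, .cpar i1.2.1 P.2, ?_⟩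
    simp only [len, i1.2.2]
    omega

theorem Glue.atheta (n : ℕ) (L : List ℕ) : Glue (2 * n + 2) (atheta n L) :=
  .base (apt_theta n L).1 (apt_theta n L).2.1 (apt_theta n L).2.2


end Vale.Agent.P050.SP
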