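import Vale.Agent.P050.R4.H153.MfOk

/-!
# P050, frames: interchange of the two sides
-/

namespace Vale.Agent.P050.SP

open Finset Matrix Vale.Agent.P050.Ears Vale.Agent.P050.Lev

section

variable {S : Type} [Fintype S] [DecidableEq S] {A : Matrix S S ℝ} {μ : S → ℝ} {c : S → Bool}

theorem rev_flip (h : Rev A μ c) : Rev A μ fun x => !c x where
  nonneg := h.nonneg
  rev := h.rev
  row := h.row
  pos := h.pos
  mass b := by
    rw [← h.mass !b]
    refine Finset.sum_congr rfl fun u _ => ?_
    cases hc : c u <;> cases b <;> simp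
  alt u v huv := h.alt u v (Bool.not_inj huv)

theorem mus_flip {V : Type} [Fintype V] (side : V → Bool) (z : V → S) :
    mus (fun v => !side v) μ c z = mus side μ (fun x => !c x) z := by
  unfold mus
  refine Finset.prod_congr rfl fun v _ => ?_
  cases h1 : c (z v) <;> cases h2 : side v <;> simp [h1, h2]

end

theorem sh_not (b : Bool) (d : ℕ) : sh (!b) d = !sh b d := by
  unfold sh
  cases b <;> simp

variable {V : Type} {L : Multiset (V × ℕ × V)} {M : Multiset (V × SP × V)}
variable {R : Set (Set V × Multiset (V × ℕ × V))} {B : Set (Blk V)}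
variable {iF : Fintype V} {iD : DecidableEq V} {side : V → Bool}

theorem TOK.flip {E : Multiset (V × ℕ × V)} (h : TOK side E) : TOK (fun v => !side v) E :=
  fun p hp => by
    change (!side p.2.2) = sh (!side p.1) p.2.1
    rw [sh_not, h p hp]

theorem prt_flip (h : ∀ q ∈ M, side q.2.2 = sh (side q.1) (len q.2.1) ∧ bip q.2.1) :
    ∀ q ∈ M, (fun v => !side v) q.2.2 = sh ((fun v => !side v) q.1) (len q.2.1) ∧ bip q.2.1 :=
  fun q hq => by
    refine ⟨?_, (h q hq).2⟩
    change (!side q.2.2) = sh (!side q.1) (len q.2.1)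
    rw [sh_not, (h q hq).1]

/-- the two sides may be interchanged -/
theorem MOK.flip (hT : MOK L M R B iF iD side) : MOK L M R B iF iD fun v => !side v := by
  refine ⟨hT.virt.flip, prt_flip hT.prt, fun r hr => (hT.rok r hr).flip,
    fun b hb => ⟨(hT.bok b hb).1.flip, prt_flip (hT.bok b hb).2⟩, fun S _ _ A μ c h => ?_⟩
  obtain ⟨P, hP, hR, hB⟩ := hT.law S A μ (fun x => !c x) (rev_flip h)
  have hm : ∀ z : V → S, mus (fun v => !side v) μ c z = mus side μ (fun x => !c x) z :=
    fun z => mus_flip side z
  refine ⟨P, ⟨hP.nonneg, hP.sum, fun z hz => ?_, ?_⟩, fun r hr F hF => ?_, fun b hb => ?_⟩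
  · rw [hm]
    exact hP.supp z hz
  · simp only [hm]
    exact hP.ent
  · simp only [hm]
    exact hR r hr F hF
  · obtain ⟨f, f0, fd, fm, fs, fb⟩ := hB b hb
    refine ⟨f, f0, fd, fun F hF => ?_, fun z hz => ?_, ?_⟩
    · simp only [hm]
      exact fm F hF
    · rw [hm] at hz
      exact fs z hz
    · simp only [hm]
      exact fb

/-- the sides of the vertices of a tree are determined up to an interchange -/
theorem side_conn {U : Set V} {E : Multiset (V × ℕ × V)} {side side' : V → Bool}
    (h1 : TOK side E) (h2 : TOK side' E)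
    (hc : ∀ u ∈ U, ∀ v ∈ U, Relation.EqvGen (fun a b => ∃ d, (a, d, b) ∈ E) u v) :
    (∀ u ∈ U, side u = side' u) ∨ ∀ u ∈ U, side u = !side' u := by
  have key : ∀ u v, Relation.EqvGen (fun a b => ∃ d, (a, d, b) ∈ E) u v →
      xor (side u) (side' u) = xor (side v) (side' v) := by
    intro u v huv
    induction huv with
    | rel a b h =>
      obtain ⟨d, hd⟩ := h
      have e1 : side b = sh (side a) d := h1 _ hd
      have e2 : side' b = sh (side' a) d := h2 _ hd
      rw [e1, e2]
      unfold sh
      cases side a <;> cases side' a <;> simp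
    | refl a => rfl
    | symm a b _ ih => exact ih.symm
    | trans a b c _ _ ih1 ih2 => exact ih1.trans ih2
  by_cases h : ∃ u ∈ U, side u = side' u
  · obtain ⟨u, hu, he⟩ := h
    refine Or.inl fun v hv => ?_
    have h3 := key u v (hc u hu v hv)
    rw [he] at h3
    revert h3
    cases side' u <;> cases side v <;> cases side' v <;> simp
  · push Not at h
    refine Or.inr fun v hv => ?_
    have h3 := h v hv
    revert h3
    cases side v <;> cases side' v <;> simp

end Vale.Agent.P050.SP
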