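import Vale.Agent.P050.R4.H345.MirB
import Vale.Agent.P050.R4.H859.CopyMok

/-!
# P050, mirrored frames: mirror images of earlier frames
-/

namespace Vale.Agent.P050.SP

open Finset Matrix Vale.Agent.P050.Ears Vale.Agent.P050.Lev Vale.Agent.P050.Mirror

variable {V : Type} {L E' : Multiset (V × ℕ × V)} {M Q : Multiset (V × SP × V)}
variable {R : Set (Set V × Multiset (V × ℕ × V))}
variable {B : Set (Blk V)} {iF : Fintype V} {iD : DecidableEq V} {side : V → Bool} {U : Set V}

/-- An earlier frame is mirrored, except the edges `E'` of a forest on the kept vertices, and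
centred parts are put between vertices and their copies. -/
theorem MOK.mirB {N : Type} {g : N → V} {ρ : V → V ⊕ N} {Z : Multiset (N × SP)}
    {iN : Fintype N} {iE : DecidableEq N} (hT : MOK L M R B iF iD side)
    (hb : (U, E', Q) ∈ B) (hE : ∀ p ∈ E', p.1 ∈ U ∧ p.2.2 ∈ U)
    (hQ : ∀ q ∈ Q, q.1 ∈ U ∧ q.2.2 ∈ U) (hE' : ∀ p ∈ E', ∀ n, g n ≠ p.1 ∧ g n ≠ p.2.2)
    (hF : Forest E') (hgU : ∀ n, g n ∈ U ∧ ({g n}, 0) ∈ R)
    (hg : ∀ n, ρ (g n) = .inr n) (hρ : ∀ v, (∀ n, g n ≠ v) → ρ v = .inl v)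
    (hZ : ∀ q ∈ Z, bip q.2 ∧ len q.2 % 2 = 0 ∧ ∀ (S : Type) [Fintype S] [DecidableEq S]
      (A : Matrix S S ℝ) (μ : S → ℝ) (c : S → Bool), Rev A μ c → MirS μ c (K A μ q.2)) :
    MOK (L.map (emap .inl)) (M.map (pmap .inl) + Q.map (pmap ρ) +
      Z.map fun q => (.inl (g q.1), q.2, .inr q.1)) (oldT N R) (oldB N B)
      inferInstance inferInstance (Sum.elim side fun n => side (g n)) := by
  obtain ⟨tb, pb⟩ := hT.bok _ hb
  refine ⟨TOK.old hT.virt, ?_, ?_, bok_old hT.bok, fun S _ _ A μ c h => ?_⟩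
  · intro p hp
    rcases Multiset.mem_add.1 hp with hp | hp
    · rcases Multiset.mem_add.1 hp with hp | hp
      · exact prt_old hT.prt p hp
      · obtain ⟨q, hq, rfl⟩ := Multiset.mem_map.1 hp
        change Sum.elim side _ (ρ q.2.2) = sh (Sum.elim side _ (ρ q.1)) (len q.2.1) ∧ bip q.2.1
        rw [clone_side hg hρ, clone_side hg hρ]
        exact pb q hq
    · obtain ⟨q, hq, rfl⟩ := Multiset.mem_map.1 hp
      obtain ⟨z1, z2, _⟩ := hZ q hq
      refine ⟨?_, z1⟩
      change side (g q.1) = sh (side (g q.1)) (len q.2)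
      unfold sh
      simp [z2]
  · rintro r ⟨r₀, h0, rfl⟩
    exact TOK.old (hT.rok r₀ h0)
  · obtain ⟨P, hP, hR, hB⟩ := hT.law S A μ c h
    have hb' := hB _ hb
    have e1 : (fun z => kapE A μ E' z * partE A μ Q z) =
        fun z => partE A μ Q z * kapE A μ E' z := by
      funext z
      rw [mul_comm]
    change BalW μ c side P U (fun z => kapE A μ E' z * partE A μ Q z) at hb'
    rw [e1] at hb'
    obtain ⟨hne, hl⟩ := LawW.mirB (Z := Z) h hg hρ
      (fun z => mul_nonneg (kapE_nonneg h _ _) (partE_nonneg h _ _)) hP (fun n => (hgU n).1) hb'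
      (fun z => partE_nonneg h _ _) (fun z => kapE_nonneg h _ _) (partE_dep hQ)
      (fun z z' hz => kapE_congr fun p hp =>
        ⟨hz _ (hE p hp).1 fun n => (hE' p hp n).1, hz _ (hE p hp).2 fun n => (hE' p hp n).2⟩)
      (Forest.mass h hF tb).le (fun n => hR _ (hgU n).2)
      (fun q hq => (hZ q hq).2.2 S A μ c h)
    refine ⟨_, ?_, ?_, bal_old h hne hB⟩
    · have e2 : (fun z : V ⊕ N → S => kapE A μ (L.map (emap .inl)) z *
          partE A μ (M.map (pmap .inl) + Q.map (pmap ρ) +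
            Z.map fun q => (.inl (g q.1), q.2, .inr q.1)) z) =
          fun z => (kapE A μ L (fun v => z (.inl v)) * partE A μ M fun v => z (.inl v)) *
            mirBW A μ g ρ (partE A μ Q) Z z := by
        funext z
        rw [partE_add, partE_add, kapE_map, partE_map, partE_map, partE_cenB]
        unfold mirBW
        ring
      rw [e2]
      exact hl
    · rintro r ⟨r₀, h0, rfl⟩
      exact (hR r₀ h0).ext_oldG h hne

end Vale.Agent.P050.SP
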