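import Vale.Agent.P050.R4.H859.Def

/-!
# P050, series-parallel graphs: the class of the theorem
-/

namespace Vale.Agent.P050.SP

/-- `a` (if present) followed by `e` -/
def oser : Option SP → SP → SP
  | none, e => e
  | some a, e => .ser a e

/-- `e` followed by `a` (if present) -/
def sero : SP → Option SP → SP
  | e, none => e
  | e, some a => .ser e a

/-- the length of an optional part -/
def olen : Option SP → ℕ
  | none => 0
  | some a => len a

/-- Expressions of isomorphic graphs: series composition is associative, parallel composition is
associative and commutative, and a gadget hung at a vertex may be moved between the parts that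
contain this vertex. -/
inductive Same : SP → SP → Prop
  | refl (a : SP) : Same a a
  | symm {a b : SP} : Same a b → Same b a
  | trans {a b c : SP} : Same a b → Same b c → Same a c
  | ser {a a' b b' : SP} : Same a a' → Same b b' → Same (.ser a b) (.ser a' b')
  | par {a a' b b' : SP} : Same a a' → Same b b' → Same (.par a b) (.par a' b')
  | hang {a a' b b' : SP} : Same a a' → Same b b' → Same (.hang a b) (.hang a' b')
  | hangR {a a' b b' : SP} : Same a a' → Same b b' → Same (.hangR a b) (.hangR a' b')
  | assoc (a b c : SP) : Same (.ser (.ser a b) c) (.ser a (.ser b c))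
  | pcomm (a b : SP) : Same (.par a b) (.par b a)
  | passoc (a b c : SP) : Same (.par (.par a b) c) (.par a (.par b c))
  | hser (a b c : SP) : Same (.hang (.ser a b) c) (.ser (.hang a c) b)
  | hserR (a b c : SP) : Same (.hangR (.ser a b) c) (.ser a (.hangR b c))
  | hmid (a b c : SP) : Same (.ser (.hangR a c) b) (.ser a (.hang b c))
  | hpar (a b c : SP) : Same (.hang (.par a b) c) (.par (.hang a c) b)
  | hparR (a b c : SP) : Same (.hangR (.par a b) c) (.par (.hangR a c) b)

/-- The class of the theorem. `Adm e (some d)`: the terminals of `e` may be put at distance `d`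
in a larger graph. `Adm e none`: `e` is centred. -/
inductive Adm : SP → Option ℕ → Prop
  | bal {e : SP} {d : ℕ} : Balanced e → d ≤ len e → d % 2 = len e % 2 → Adm e (some d)
  | par {a b : SP} {d : ℕ} : Adm a (some d) → Adm b (some d) → Adm (.par a b) (some d)
  | serR {a b : SP} {d : ℕ} : Adm a (some (len a)) → Balanced b → len a ≤ d + len b →
      d ≤ len a + len b → d % 2 = (len a + len b) % 2 → Adm (.ser a b) (some d)
  | serL {a b : SP} {d : ℕ} : Balanced a → Adm b (some (len b)) → len b ≤ d + len a →
      d ≤ len a + len b → d % 2 = (len a + len b) % 2 → Adm (.ser a b) (some d)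
  | chain {a b : SP} : Adm a (some (len a)) → Adm b (some (len b)) →
      Adm (.ser a b) (some (len a + len b))
  | longR {a b : SP} {d : ℕ} : Adm a (some (d + len b)) → Adm b (some (len b)) →
      Adm (.ser a b) (some d)
  | longL {a b : SP} {d : ℕ} : Adm a (some (len a)) → Adm b (some (d + len a)) →
      Adm (.ser a b) (some d)
  | mirror {ka s1 s2 kb : Option SP} {k : SP} {d : ℕ} :
      (∀ a, ka = some a → Adm a (some (len a))) → (∀ s, s1 = some s → Adm s none) →
      Adm k (some (len k)) → (∀ s, s2 = some s → Adm s none) →
      (∀ a, kb = some a → Adm a (some (len a))) → len k = olen ka + d + olen kb →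
      Adm (oser ka (oser s1 (sero (sero k s2) kb))) (some d)
  | cmid {a b : SP} : Adm a (some (len a)) → Adm b (some (len b)) → len a = len b →
      Adm (.ser a b) none
  | csand {a s b : SP} : Adm a (some (len a)) → Adm s none → Adm b (some (len b)) →
      len a = len b → Adm (.ser (.ser a s) b) none
  | cpar {s t : SP} : Adm s none → Adm t none → Adm (.par s t) none
  | ser2R {a b b' : SP} {d : ℕ} : Adm a (some (len a)) → Balanced b → Balanced b' →
      len b' = d + len a → len a ≤ d + len b → d ≤ len a + len b → len b ≤ d + len a →
      d % 2 = (len a + len b) % 2 → Adm (.ser a (.par b b')) (some d)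
  | ser2L {a a' b : SP} {d : ℕ} : Balanced a → Balanced a' → Adm b (some (len b)) →
      len a' = d + len b → len b ≤ d + len a → d ≤ len a + len b → len a ≤ d + len b →
      d % 2 = (len a + len b) % 2 → Adm (.ser (.par a a') b) (some d)
  | hang {a b : SP} {o : Option ℕ} : Adm a o → Adm b (some (len b)) → Adm (.hang a b) o
  | hangR {a b : SP} {o : Option ℕ} : Adm a o → Adm b (some (len b)) → Adm (.hangR a b) o
  | same {e e' : SP} {o : Option ℕ} : Same e e' → Adm e o → Adm e' o

end Vale.Agent.P050.SP
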