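import Vale.Agent.P050.R4.H345.MirRule
import Vale.Agent.P050.R4.H345.AdmDef
import Vale.Agent.P050.R4.H859.Class
import Vale.Agent.P050.R4.H859.Ser2

/-!
# P050, series-parallel graphs: the class with the mirror rule
-/

namespace Vale.Agent.P050.SP

open Finset Matrix Vale.Agent.P050.Ears Vale.Agent.P050.Mirror

theorem len_oser (o : Option SP) (e : SP) : len (oser o e) = olen o + len e := by
  cases o <;> simp [oser, olen, len]

theorem len_sero (o : Option SP) (e : SP) : len (sero e o) = len e + olen o := by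
  cases o <;> simp [sero, olen, len]

theorem Same.len_eq {a b : SP} (h : Same a b) : len a = len b := by
  induction h with
  | refl => rfl
  | symm _ h => exact h.symm
  | trans _ _ h1 h2 => exact h1.trans h2
  | ser _ _ h1 h2 => simp only [len, h1, h2]
  | par _ _ h1 h2 => simp only [len, h1, h2]
  | hang _ _ h1 _ => exact h1
  | hangR _ _ h1 _ => exact h1
  | assoc => simp only [len]; omega
  | pcomm => simp only [len]; omega
  | passoc => simp only [len]; omega
  | hser => rfl
  | hserR => rfl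
  | hmid => rfl
  | hpar => rfl
  | hparR => rfl

theorem Same.bip_iff {a b : SP} (h : Same a b) : bip a ↔ bip b := by
  induction h with
  | refl => exact Iff.rfl
  | symm _ h => exact h.symm
  | trans _ _ h1 h2 => exact h1.trans h2
  | ser _ _ h1 h2 => simp only [bip, h1, h2]
  | par h3 h4 h1 h2 => simp only [bip, h1, h2, h3.len_eq, h4.len_eq]
  | hang _ _ h1 h2 => simp only [bip, h1, h2]
  | hangR _ _ h1 h2 => simp only [bip, h1, h2]
  | assoc => simp only [bip]; tauto
  | pcomm a b => simp only [bip]; exact ⟨fun ⟨p, q, r⟩ => ⟨q, p, r.symm⟩,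
      fun ⟨p, q, r⟩ => ⟨q, p, r.symm⟩⟩
  | passoc a b c =>
    simp only [bip, len]
    constructor
    · rintro ⟨⟨p, q, r⟩, s, t⟩
      exact ⟨p, ⟨q, s, by omega⟩, by omega⟩
    · rintro ⟨p, ⟨q, s, t⟩, r⟩
      exact ⟨⟨p, q, by omega⟩, s, by omega⟩
  | hser => simp only [bip]; tauto
  | hserR => simp only [bip]; tauto
  | hmid => simp only [bip]; tauto
  | hpar => simp only [bip, len]; tauto
  | hparR => simp only [bip, len]; tauto

/-- the possible distances -/
def Fits (e : SP) : Option ℕ → Prop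
  | some d => d ≤ len e ∧ d % 2 = len e % 2
  | none => len e % 2 = 0

theorem bip_oser {o : Option SP} {e : SP} (h1 : ∀ a, o = some a → bip a) (h2 : bip e) :
    bip (oser o e) := by
  cases o with
  | none => exact h2
  | some a => exact ⟨h1 a rfl, h2⟩

theorem bip_sero {o : Option SP} {e : SP} (h1 : ∀ a, o = some a → bip a) (h2 : bip e) :
    bip (sero e o) := by
  cases o with
  | none => exact h2
  | some a => exact ⟨h2, h1 a rfl⟩

theorem olen_even {o : Option SP} (h1 : ∀ a, o = some a → len a % 2 = 0) : olen o % 2 = 0 := by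
  cases o with
  | none => rfl
  | some a => exact h1 a rfl

theorem Adm.fits {e : SP} {o : Option ℕ} (h : Adm e o) : bip e ∧ Fits e o := by
  induction h with
  | bal hb h1 h2 => exact ⟨hb.bip, h1, h2⟩
  | par _ _ h1 h2 =>
    obtain ⟨b1, l1, p1⟩ := h1
    obtain ⟨b2, l2, p2⟩ := h2
    refine ⟨⟨b1, b2, by omega⟩, ?_⟩
    simp only [Fits, len]
    omega
  | serR _ hb _ h2 h3 h1 => exact ⟨⟨h1.1, hb.bip⟩, h2, h3⟩
  | serL ha _ _ h2 h3 h1 => exact ⟨⟨ha.bip, h1.1⟩, h2, h3⟩
  | chain _ _ h1 h2 => exact ⟨⟨h1.1, h2.1⟩, le_refl _, rfl⟩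
  | longR _ _ h1 h2 =>
    obtain ⟨b1, l1, p1⟩ := h1
    refine ⟨⟨b1, h2.1⟩, ?_⟩
    simp only [Fits, len]
    omega
  | longL _ _ h1 h2 =>
    obtain ⟨b2, l2, p2⟩ := h2
    refine ⟨⟨h1.1, b2⟩, ?_⟩
    simp only [Fits, len]
    omega
  | mirror _ _ _ _ _ hl h1 h2 h3 h4 h5 =>
    refine ⟨bip_oser (fun a ha => (h1 a ha).1) (bip_oser (fun a ha => (h2 a ha).1)
      (bip_sero (fun a ha => (h5 a ha).1) (bip_sero (fun a ha => (h4 a ha).1) h3.1))), ?_⟩
    have e1 := olen_even fun a ha => (h2 a ha).2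
    have e2 := olen_even fun a ha => (h4 a ha).2
    simp only [Fits, len_oser, len_sero]
    omega
  | cmid _ _ hl h1 h2 =>
    refine ⟨⟨h1.1, h2.1⟩, ?_⟩
    simp only [Fits, len]
    omega
  | csand _ _ _ hl h1 h2 h3 =>
    obtain ⟨b2, p2⟩ := h2
    refine ⟨⟨⟨h1.1, b2⟩, h3.1⟩, ?_⟩
    simp only [Fits] at p2
    simp only [Fits, len]
    omega
  | cpar _ _ h1 h2 =>
    obtain ⟨b1, p1⟩ := h1
    obtain ⟨b2, p2⟩ := h2
    simp only [Fits] at p1 p2
    refine ⟨⟨b1, b2, by omega⟩, ?_⟩
    simp only [Fits, len]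
    omega
  | ser2R _ hb hb' h1 h2 h3 h4 h5 h6 =>
    refine ⟨⟨h6.1, hb.bip, hb'.bip, by omega⟩, ?_⟩
    simp only [Fits, len]
    omega
  | ser2L ha ha' _ h1 h2 h3 h4 h5 h6 =>
    refine ⟨⟨⟨ha.bip, ha'.bip, by omega⟩, h6.1⟩, ?_⟩
    simp only [Fits, len]
    omega
  | @hang a b o _ _ h1 h2 =>
    refine ⟨⟨h1.1, h2.1⟩, ?_⟩
    have f := h1.2
    cases o <;> exact f
  | @hangR a b o _ _ h1 h2 =>
    refine ⟨⟨h1.1, h2.1⟩, ?_⟩
    have f := h1.2
    cases o <;> exact f
  | @same e e' o hs _ h1 =>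
    refine ⟨hs.bip_iff.1 h1.1, ?_⟩
    have f := h1.2
    cases o <;> simp only [Fits, hs.len_eq] at f ⊢ <;> exact f

/-- the old class is contained in the new one -/
theorem Good.adm {e : SP} {d : ℕ} (h : Good e d) : Adm e (some d) := by
  induction h with
  | bal hb h1 h2 => exact .bal hb h1 h2
  | par _ _ h1 h2 => exact .par h1 h2
  | serR _ hb h2 h3 h4 h1 => exact .serR h1 hb h2 h3 h4
  | serL ha _ h2 h3 h4 h1 => exact .serL ha h1 h2 h3 h4
  | chain _ _ h1 h2 => exact .chain h1 h2
  | longR _ _ h1 h2 => exact .longR h1 h2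
  | longL _ _ h1 h2 => exact .longL h1 h2
  | hang _ _ h1 h2 => exact .hang h1 h2
  | hangR _ _ h1 h2 => exact .hangR h1 h2

section semantics

variable {S : Type} [Fintype S] [DecidableEq S]
variable {A : Matrix S S ℝ} {μ : S → ℝ} {c : S → Bool} (h : Rev A μ c)

/-- the kernel of an optional part -/
noncomputable def KO (A : Matrix S S ℝ) (μ : S → ℝ) : Option SP → S → S → ℝ
  | none => idk μ
  | some a => K A μ a

omit [DecidableEq S] in
theorem serK_assoc (F G H : S → S → ℝ) :
    serK μ (serK μ F G) H = serK μ F (serK μ G H) := by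
  funext x y
  unfold serK
  simp only [Finset.mul_sum, Finset.sum_mul]
  rw [Finset.sum_comm]
  exact Finset.sum_congr rfl fun p _ => Finset.sum_congr rfl fun q _ => by ring

omit [DecidableEq S] in
theorem Same.K_eq {a b : SP} (hs : Same a b) : K A μ a = K A μ b := by
  induction hs with
  | refl => rfl
  | symm _ h => exact h.symm
  | trans _ _ h1 h2 => exact h1.trans h2
  | @ser a a' b b' _ _ h1 h2 =>
    have e : ∀ a b : SP, K A μ (.ser a b) = serK μ (K A μ a) (K A μ b) := fun a b => rfl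
    rw [e, e, h1, h2]
  | @par a a' b b' _ _ h1 h2 =>
    have e : ∀ a b : SP, K A μ (.par a b) = fun x y => K A μ a x y * K A μ b x y :=
      fun a b => rfl
    rw [e, e, h1, h2]
  | @hang a a' b b' _ _ h1 h2 =>
    have e : ∀ a b : SP, K A μ (.hang a b) = fun x y => K A μ a x y * ∑ w, μ w * K A μ b x w :=
      fun a b => rfl
    rw [e, e, h1, h2]
  | @hangR a a' b b' _ _ h1 h2 =>
    have e : ∀ a b : SP, K A μ (.hangR a b) =
        fun x y => K A μ a x y * ∑ w, μ w * K A μ b y w := fun a b => rfl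
    rw [e, e, h1, h2]
  | assoc a b c => exact serK_assoc _ _ _
  | pcomm a b => funext x y; exact mul_comm _ _
  | passoc a b c => funext x y; exact mul_assoc _ _ _
  | hser a b c =>
    funext x y
    simp only [K]
    rw [Finset.sum_mul]
    exact Finset.sum_congr rfl fun w _ => by ring
  | hserR a b c =>
    funext x y
    simp only [K]
    rw [Finset.sum_mul]
    exact Finset.sum_congr rfl fun w _ => by ring
  | hmid a b c =>
    funext x y
    simp only [K]
    exact Finset.sum_congr rfl fun w _ => by ring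
  | hpar a b c => funext x y; simp only [K]; ring
  | hparR a b c => funext x y; simp only [K]; ring

include h

theorem serK_idk (F : S → S → ℝ) : serK μ (idk μ) F = F := by
  funext x y
  unfold serK idk
  rw [Finset.sum_eq_single x]
  · have := (h.pos x).ne'
    rw [if_pos rfl]
    field_simp
  · intro w _ hw
    rw [if_neg (Ne.symm hw)]
    ring
  · intro hx; exact absurd (mem_univ _) hx

theorem idk_serK (F : S → S → ℝ) : serK μ F (idk μ) = F := by
  funext x y
  unfold serK idk
  rw [Finset.sum_eq_single y]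
  · have := (h.pos y).ne'
    rw [if_pos rfl]
    field_simp
  · intro w _ hw
    rw [if_neg hw]
    ring
  · intro hx; exact absurd (mem_univ _) hx

theorem K_oser (o : Option SP) (e : SP) : K A μ (oser o e) = serK μ (KO A μ o) (K A μ e) := by
  cases o with
  | none => exact (serK_idk h _).symm
  | some a => rfl

theorem K_sero (o : Option SP) (e : SP) : K A μ (sero e o) = serK μ (K A μ e) (KO A μ o) := by
  cases o with
  | none => exact (idk_serK h _).symm
  | some a => rfl

omit h in
theorem kap_zero : kap A μ 0 = idk μ := by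
  funext x y
  unfold kap idk
  rw [pow_zero, Matrix.one_apply]
  split_ifs with hxy
  · rw [hxy]
  · simp

omit [Fintype S] h in
theorem idk_symm : (fun x y => idk μ y x) = idk μ := by
  funext x y
  unfold idk
  by_cases hxy : x = y
  · rw [if_pos hxy, if_pos hxy.symm, hxy]
  · rw [if_neg hxy, if_neg (Ne.symm hxy)]

theorem TK_idk : TK A μ c 0 (idk μ) := by
  refine ⟨fun x y => ?_, fun x y hxy => ?_, fun b => ?_⟩
  · unfold idk
    split_ifs
    · exact (div_pos one_pos (h.pos x)).le
    · exact le_refl _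
  · unfold idk
    rw [pow_zero, Matrix.one_apply] at hxy
    split_ifs with h1
    · exact div_pos one_pos (h.pos x)
    · rw [if_neg h1] at hxy; exact absurd hxy (lt_irrefl _)
  · rw [kap_zero]

omit h in
theorem TK_of {l : ℕ} {F : S → S → ℝ} (nF : ∀ x y, 0 ≤ F x y) (pF : PosK A l F)
    (gF : GoodK A μ c l l F) : TK A μ c l F := by
  refine ⟨nF, pF, fun b => ?_⟩
  have := gF b
  rw [if_pos rfl] at this
  exact this

/-- the kernel is centred -/
def MirS (μ : S → ℝ) (c : S → Bool) (F : S → S → ℝ) : Prop :=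
  Mir μ c F ∧ Mir μ c (fun x y => F y x)

omit h in
theorem MirS.par {F G : S → S → ℝ} (hF : MirS μ c F) (hG : MirS μ c G) :
    MirS μ c (fun x y => F x y * G x y) :=
  ⟨hF.1.mul hG.1, hF.2.mul hG.2⟩

theorem MirS_idk : MirS μ c (idk μ) := ⟨Mir_idk h, by rw [idk_symm]; exact Mir_idk h⟩

theorem MirS.ser {l : ℕ} {a b s : S → S → ℝ} (ha : TK A μ c l a) (hb : TK A μ c l b)
    (hs : MirS μ c s) : MirS μ c (serK μ (serK μ a s) b) := by
  refine ⟨Mir.ser h ha hb hs.1, ?_⟩
  have h1 := Mir.ser h (hb.symm h) (ha.symm h) hs.2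
  have e : serK μ (serK μ (fun x y => b y x) (fun x y => s y x)) (fun x y => a y x) =
      fun x y => serK μ (serK μ a s) b y x := by
    rw [serK_assoc, serK_assoc]
    funext x y
    unfold serK
    simp only [Finset.mul_sum]
    rw [Finset.sum_comm]
    exact Finset.sum_congr rfl fun p _ => Finset.sum_congr rfl fun q _ => by ring
  rw [e] at h1
  exact h1

/-- the mean of the logarithm of a hung part -/
theorem out_mean {l : ℕ} {G : S → S → ℝ} (hG : GoodK A μ c l l G) (pG : PosK A l G)
    (nG : ∀ x y, 0 ≤ G x y) (b : Bool) :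
    0 ≤ ∑ x, (if c x = b then μ x else 0) * Real.log (∑ w, μ w * G x w) := by
  have h1 := hG b
  rw [if_pos rfl, EL_pd h, J_eq h] at h1
  have h2 : ∀ x, (if c x = b then μ x * ∑ y, (A ^ l) x y * Real.log (G x y) else 0) -
      (if c x = b then μ x * Dd A μ l x else 0) ≤
      (if c x = b then μ x else 0) * Real.log (∑ w, μ w * G x w) := by
    intro x
    split_ifs
    · rw [← mul_sub]
      exact mul_le_mul_of_nonneg_left (out_log h pG nG x) (h.pos x).le
    · simp
  have h3 := Finset.sum_le_sum fun x (_ : x ∈ univ) => h2 x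
  rw [Finset.sum_sub_distrib] at h3
  linarith

omit h in
/-- a hung part at the first terminal -/
theorem Mir.hangL {s : S → S → ℝ} {g : S → ℝ} (hs : Mir μ c s) (gp : ∀ x, 0 < g x)
    (hg : ∀ b, 0 ≤ ∑ x, (if c x = b then μ x else 0) * Real.log (g x)) :
    Mir μ c (fun x y => s x y * g x) := by
  refine ⟨fun x y => mul_nonneg (hs.1 x y) (gp x).le, fun x => mul_pos (hs.2.1 x) (gp x), ?_⟩
  intro b Ω _ m v G hm hv hG hGp hMI Θ _ P F hP hPm hF hPF
  have h1 := hs.2.2 b Ω m v G hm hv hG hGp hMI Θ P F hP hPm hF hPF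
  have hmP : ∀ θ ω, 0 < P θ ω → 0 < m ω := fun θ ω h0 => by
    rw [← hPm ω]
    exact Finset.sum_pos' (fun θ _ => hP θ ω) ⟨θ, mem_univ _, h0⟩
  have e1 : ∑ θ, ∑ ω, P θ ω * Real.log (∑ ω', G ω ω' * (s (v ω) (v ω') * g (v ω)) * F θ ω') =
      ∑ θ, ∑ ω, P θ ω * Real.log (∑ ω', G ω ω' * s (v ω) (v ω') * F θ ω') +
      ∑ x, (if c x = b then μ x else 0) * Real.log (g x) := by
    rw [← sum_fibre hv (fun x => Real.log (g x))]
    have e2 : ∑ ω, m ω * Real.log (g (v ω)) = ∑ θ, ∑ ω, P θ ω * Real.log (g (v ω)) := by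
      rw [Finset.sum_comm]
      exact Finset.sum_congr rfl fun ω _ => by rw [← Finset.sum_mul, hPm]
    rw [e2, ← Finset.sum_add_distrib]
    refine Finset.sum_congr rfl fun θ _ => ?_
    rw [← Finset.sum_add_distrib]
    refine Finset.sum_congr rfl fun ω _ => ?_
    rcases (hP θ ω).eq_or_lt with h0 | h0
    · rw [← h0]; ring
    · have hpos : 0 < ∑ ω', G ω ω' * s (v ω) (v ω') * F θ ω' :=
        Finset.sum_pos' (fun ω' _ => mul_nonneg (mul_nonneg (hG _ _) (hs.1 _ _)) (hF _ _))
          ⟨ω, mem_univ _, mul_pos (mul_pos (hGp ω (hmP θ ω h0)) (hs.2.1 _)) (hPF _ _ h0)⟩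
      rw [← mul_add, ← Real.log_mul hpos.ne' (gp _).ne', Finset.sum_mul]
      congr 2
      exact Finset.sum_congr rfl fun ω' _ => by ring
  rw [e1]
  have := hg b
  linarith

omit h in
/-- a hung part at the second terminal -/
theorem Mir.hangR {s : S → S → ℝ} {g : S → ℝ} (hs : Mir μ c s) (gp : ∀ x, 0 < g x)
    (hg : ∀ b, 0 ≤ ∑ x, (if c x = b then μ x else 0) * Real.log (g x)) :
    Mir μ c (fun x y => s x y * g y) := by
  refine ⟨fun x y => mul_nonneg (hs.1 x y) (gp y).le, fun x => mul_pos (hs.2.1 x) (gp x), ?_⟩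
  intro b Ω _ m v G hm hv hG hGp hMI Θ _ P F hP hPm hF hPF
  have h1 := hs.2.2 b Ω m v G hm hv hG hGp hMI Θ P (fun θ ω => F θ ω * g (v ω)) hP hPm
    (fun θ ω => mul_nonneg (hF _ _) (gp _).le) (fun θ ω h0 => mul_pos (hPF _ _ h0) (gp _))
  have e1 : ∑ θ, ∑ ω, P θ ω * (Real.log (F θ ω * g (v ω)) - Real.log (P θ ω) +
      Real.log (∑ ω', P θ ω')) =
      ∑ θ, ∑ ω, P θ ω * (Real.log (F θ ω) - Real.log (P θ ω) + Real.log (∑ ω', P θ ω')) +
      ∑ x, (if c x = b then μ x else 0) * Real.log (g x) := by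
    rw [← sum_fibre hv (fun x => Real.log (g x))]
    have e2 : ∑ ω, m ω * Real.log (g (v ω)) = ∑ θ, ∑ ω, P θ ω * Real.log (g (v ω)) := by
      rw [Finset.sum_comm]
      exact Finset.sum_congr rfl fun ω _ => by rw [← Finset.sum_mul, hPm]
    rw [e2, ← Finset.sum_add_distrib]
    refine Finset.sum_congr rfl fun θ _ => ?_
    rw [← Finset.sum_add_distrib]
    refine Finset.sum_congr rfl fun ω _ => ?_
    rcases (hP θ ω).eq_or_lt with h0 | h0
    · rw [← h0]; ring
    · rw [Real.log_mul (hPF _ _ h0).ne' (gp _).ne']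
      ring
  rw [e1] at h1
  have e3 : ∑ θ, ∑ ω, P θ ω * Real.log (∑ ω', G ω ω' * s (v ω) (v ω') *
      (F θ ω' * g (v ω'))) = ∑ θ, ∑ ω, P θ ω * Real.log (∑ ω', G ω ω' *
      (s (v ω) (v ω') * g (v ω')) * F θ ω') := by
    refine Finset.sum_congr rfl fun θ _ => Finset.sum_congr rfl fun ω _ => ?_
    congr 2
    exact Finset.sum_congr rfl fun ω' _ => by ring
  rw [e3] at h1
  have := hg b
  linarith

theorem MirS.hang {l : ℕ} {s G : S → S → ℝ} (hs : MirS μ c s) (hG : GoodK A μ c l l G)
    (pG : PosK A l G) (nG : ∀ x y, 0 ≤ G x y) :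
    MirS μ c (fun x y => s x y * ∑ w, μ w * G x w) :=
  ⟨Mir.hangL hs.1 (out_pos h pG nG) (out_mean h hG pG nG),
    Mir.hangR hs.2 (out_pos h pG nG) (out_mean h hG pG nG)⟩

theorem MirS.hangR {l : ℕ} {s G : S → S → ℝ} (hs : MirS μ c s) (hG : GoodK A μ c l l G)
    (pG : PosK A l G) (nG : ∀ x y, 0 ≤ G x y) :
    MirS μ c (fun x y => s x y * ∑ w, μ w * G y w) :=
  ⟨Mir.hangR hs.1 (out_pos h pG nG) (out_mean h hG pG nG),
    Mir.hangL hs.2 (out_pos h pG nG) (out_mean h hG pG nG)⟩

/-- the meaning of the class -/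
def Sem (A : Matrix S S ℝ) (μ : S → ℝ) (c : S → Bool) (e : SP) : Option ℕ → Prop
  | some d => GoodK A μ c (len e) d (K A μ e)
  | none => MirS μ c (K A μ e)

theorem Adm.tk {a : SP} (ha : Adm a (some (len a))) (hs : Sem A μ c a (some (len a))) :
    TK A μ c (len a) (K A μ a) :=
  TK_of (K_nonneg h a) (K_pos h a ha.fits.1) hs

theorem Adm.sem {e : SP} {o : Option ℕ} (he : Adm e o) : Sem A μ c e o := by
  induction he with
  | bal hb hd hm => exact (K_bal h hb).good h hd hm
  | @par a b d ha hb h1 h2 =>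
    exact GoodK.par h h1 h2 ((K_pos h a ha.fits.1).mono h ha.fits.2.1 ha.fits.2.2)
      ((K_pos h b hb.fits.1).mono h hb.fits.2.1 hb.fits.2.2)
  | @serR a b d ha hb h1 h2 h3 h4 =>
    exact GoodK.serR h h4 (K_bal h hb) (K_pos h a ha.fits.1) (K_pos h b hb.bip) (K_nonneg h a)
      (K_nonneg h b) h1 h2 h3
  | @serL a b d ha hb h1 h2 h3 h4 =>
    exact GoodK.serL h (K_bal h ha) h4 (K_pos h a ha.bip) (K_pos h b hb.fits.1) (K_nonneg h a)
      (K_nonneg h b) h1 h2 h3
  | @chain a b ha hb h1 h2 =>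
    exact GoodK.chain h h1 h2 (K_pos h a ha.fits.1) (K_pos h b hb.fits.1) (K_nonneg h a)
      (K_nonneg h b)
  | @longR a b d ha hb h1 h2 =>
    have h3 := len_pos b
    have h4 := ha.fits.2.1
    exact GoodK.longR h h1 h2 ((K_pos h a ha.fits.1).mono h ha.fits.2.1 ha.fits.2.2)
      (K_pos h b hb.fits.1) (K_nonneg h a) (K_nonneg h b) (by omega)
  | @longL a b d ha hb h1 h2 =>
    have h3 := len_pos a
    have h4 := hb.fits.2.1
    exact GoodK.longL h h1 h2 (K_pos h a ha.fits.1) ((K_pos h b hb.fits.1).mono h hb.fits.2.1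
      hb.fits.2.2) (K_nonneg h a) (K_nonneg h b) (by omega)
  | @mirror ka s1 s2 kb k d ha hs1 hk hs2 hb hl i1 i2 i3 i4 i5 =>
    by_cases hd : d = len (oser ka (oser s1 (sero (sero k s2) kb)))
    · rw [len_oser, len_oser, len_sero, len_sero] at hd
      have n1 : ka = none := by
        cases ka with
        | none => rfl
        | some a => have := len_pos a; simp only [olen] at hd hl; omega
      have n2 : s1 = none := by
        cases s1 with
        | none => rfl
        | some a => have := len_pos a; simp only [olen] at hd hl; omega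
      have n3 : s2 = none := by
        cases s2 with
        | none => rfl
        | some a => have := len_pos a; simp only [olen] at hd hl; omega
      have n4 : kb = none := by
        cases kb with
        | none => rfl
        | some a => have := len_pos a; simp only [olen] at hd hl; omega
      subst n1; subst n2; subst n3; subst n4
      simp only [oser, sero, olen, zero_add, add_zero] at hl hd ⊢
      rw [← hl]
      exact i3
    · have ta : TK A μ c (olen ka) (KO A μ ka) := by
        cases ka with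
        | none => exact TK_idk h
        | some a => exact Adm.tk h (ha a rfl) (i1 a rfl)
      have tb : TK A μ c (olen kb) (KO A μ kb) := by
        cases kb with
        | none => exact TK_idk h
        | some a => exact Adm.tk h (hb a rfl) (i5 a rfl)
      have m1 : MirS μ c (KO A μ s1) := by
        cases s1 with
        | none => exact MirS_idk h
        | some a => exact i2 a rfl
      have m2 : MirS μ c (KO A μ s2) := by
        cases s2 with
        | none => exact MirS_idk h
        | some a => exact i4 a rfl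
      have tk := Adm.tk h hk i3
      rw [hl] at tk
      have key := mirror_rule h ta tb tk m1.1 m2.2
      have eK : K A μ (oser ka (oser s1 (sero (sero k s2) kb))) =
          serK μ (serK μ (serK μ (serK μ (KO A μ ka) (KO A μ s1)) (K A μ k)) (KO A μ s2))
            (KO A μ kb) := by
        simp only [K_oser h, K_sero h, serK_assoc]
      intro b
      rw [if_neg hd, eK]
      exact key.ineq b
  | @cmid a b ha hb hl h1 h2 =>
    have t2 := Adm.tk h hb h2
    rw [← hl] at t2
    have key := MirS.ser h (Adm.tk h ha h1) t2 (MirS_idk h)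
    rw [idk_serK h] at key
    exact key
  | @csand a s b ha hs hb hl h1 h2 h3 =>
    have t2 := Adm.tk h hb h3
    rw [← hl] at t2
    exact MirS.ser h (Adm.tk h ha h1) t2 h2
  | cpar _ _ h1 h2 => exact MirS.par h1 h2
  | @hang a b o ha hb h1 h2 =>
    cases o with
    | none => exact MirS.hang h h1 h2 (K_pos h b hb.fits.1) (K_nonneg h b)
    | some d =>
      have pa := (K_pos (μ := μ) h a ha.fits.1).mono h ha.fits.2.1 ha.fits.2.2
      have pb := K_pos (μ := μ) h b hb.fits.1
      exact GoodK.hang h h1 h2 pa pb (K_nonneg h b)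
  | @hangR a b o ha hb h1 h2 =>
    cases o with
    | none => exact MirS.hangR h h1 h2 (K_pos h b hb.fits.1) (K_nonneg h b)
    | some d =>
      have pa := (K_pos (μ := μ) h a ha.fits.1).mono h ha.fits.2.1 ha.fits.2.2
      have pb := K_pos (μ := μ) h b hb.fits.1
      exact GoodK.hangR h h1 h2 pa pb (K_nonneg h b)
  | @ser2R a b b' d ha hb hb' h1 h2 h3 h4 h5 h6 =>
    have key := GoodK.serR2 h h6 (K_bal h hb) (h1 ▸ K_bal h hb') (K_pos h a ha.fits.1)
      (K_pos h b hb.bip) (h1 ▸ K_pos h b' hb'.bip) (K_nonneg h a) (K_nonneg h b) (K_nonneg h b')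
      h2 h3 h4 h5
    have el : len (.ser a (.par b b')) = len a + len b := by simp only [len]; omega
    unfold Sem
    rw [el]
    exact key
  | @ser2L a a' b d ha ha' hb h1 h2 h3 h4 h5 h6 =>
    have key := GoodK.serL2 h (K_bal h ha) (h1 ▸ K_bal h ha') h6 (K_pos h a ha.bip)
      (h1 ▸ K_pos h a' ha'.bip) (K_pos h b hb.fits.1) (K_nonneg h a) (K_nonneg h a')
      (K_nonneg h b) h2 h3 h4 h5
    have el : len (.ser (.par a a') b) = len a + len b := by simp only [len]; omega
    unfold Sem
    rw [el]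
    exact key
  | @same e e' o hs _ h1 =>
    cases o with
    | none => unfold Sem at h1 ⊢; rw [← hs.K_eq]; exact h1
    | some d => unfold Sem at h1 ⊢; rw [← hs.K_eq, ← hs.len_eq]; exact h1

/-- the main inequality for the class `Adm` -/
theorem Adm.final {e : SP} (he : Adm e (some (len e))) (b : Bool) :
    1 ≤ ∑ x, if c x = b then ∑ y, μ x * μ y * K A μ e x y else 0 :=
  GoodK.final h (he.sem h) (K_pos h e he.fits.1) (K_nonneg h e) b

end semantics

end Vale.Agent.P050.SP
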