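import Vale.Agent.P050.R4.H345.AdmDef

/-!
# P050, series-parallel graphs: the class with loads at the bends of polygons
-/

namespace Vale.Agent.P050.SP

/-- How a part may be used in a larger graph. `dist d`: its terminals may be put at distance `d`.
`cen`: it is centred. `bent p q`: it may be bent at a point at distance `p` from its first and `q`
from its second terminal. `side p q n`, `load p q n`: in a polygon of perimeter `2 n` let `Q` be the
point opposite to a corner; the part may be a side which contains `Q`, at distances `p`, `q` from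
its terminals, respectively may be put parallel to such a side. -/
inductive Iy : Type
  | dist (d : ℕ) : Iy
  | cen : Iy
  | bent (p q : ℕ) : Iy
  | side (p q n : ℕ) : Iy
  | load (p q n : ℕ) : Iy

/-- The class of the theorem. `Apt e (dist (len e))`: `e` is tight. -/
inductive Apt : SP → Iy → Prop
  /-- an edge is tight -/
  | edge : Apt .edge (.dist 1)
  /-- parallel composition -/
  | par {a b : SP} {d : ℕ} : Apt a (.dist d) → Apt b (.dist d) → Apt (.par a b) (.dist d)
  /-- polygons with a long side -/
  | longR {a b : SP} {d : ℕ} : Apt a (.dist (d + len b)) → Apt b (.dist (len b)) →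
      Apt (.ser a b) (.dist d)
  | longL {a b : SP} {d : ℕ} : Apt a (.dist (len a)) → Apt b (.dist (d + len a)) →
      Apt (.ser a b) (.dist d)
  /-- polygons: the side `b` contains the point opposite to the first corner -/
  | polyR {a b : SP} {p q d : ℕ} : Apt a (.dist (len a)) → Apt b (.side p q (len a + p)) →
      len a + p = d + q → Apt (.ser a b) (.dist d)
  | polyL {a b : SP} {p q d : ℕ} : Apt a (.side p q (len b + q)) → Apt b (.dist (len b)) →
      len b + q = d + p → Apt (.ser a b) (.dist d)
  /-- polygons with two sides -/
  | foldR {e : SP} {p q d : ℕ} : Apt e (.side p q p) → p = d + q → Apt e (.dist d)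
  | foldL {e : SP} {p q d : ℕ} : Apt e (.side p q q) → q = d + p → Apt e (.dist d)
  /-- polygons with an axis through a centred side and a vertex or two centred sides -/
  | mirror {ka s1 s2 kb : Option SP} {k : SP} {d : ℕ} :
      (∀ a, ka = some a → Apt a (.dist (len a))) → (∀ s, s1 = some s → Apt s .cen) →
      Apt k (.dist (len k)) → (∀ s, s2 = some s → Apt s .cen) →
      (∀ a, kb = some a → Apt a (.dist (len a))) → len k = olen ka + d + olen kb →
      Apt (oser ka (oser s1 (sero (sero k s2) kb))) (.dist d)
  /-- centred parts -/
  | cmid {a b : SP} : Apt a (.dist (len a)) → Apt b (.dist (len b)) → len a = len b →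
      Apt (.ser a b) .cen
  | csand {a s b : SP} : Apt a (.dist (len a)) → Apt s .cen → Apt b (.dist (len b)) →
      len a = len b → Apt (.ser (.ser a s) b) .cen
  | cpar {s t : SP} : Apt s .cen → Apt t .cen → Apt (.par s t) .cen
  /-- bent parts -/
  | bentL {e : SP} : Apt e (.dist (len e)) → Apt e (.bent (len e) 0)
  | bentR {e : SP} : Apt e (.dist (len e)) → Apt e (.bent 0 (len e))
  | bpar {a b : SP} {p q : ℕ} : Apt a (.bent p q) → Apt b (.bent p q) →
      Apt (.par a b) (.bent p q)
  | bserR {a b : SP} {p q : ℕ} : Apt a (.dist (len a)) → Apt b (.bent p q) →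
      Apt (.ser a b) (.bent (len a + p) q)
  | bserL {a b : SP} {p q : ℕ} : Apt a (.bent p q) → Apt b (.dist (len b)) →
      Apt (.ser a b) (.bent p (len b + q))
  /-- sides -/
  | side {e : SP} {p q n : ℕ} : Apt e (.bent p q) → Apt e (.side p q n)
  | spar {a b : SP} {p q n : ℕ} : Apt a (.side p q n) → Apt b (.load p q n) →
      Apt (.par a b) (.side p q n)
  | sserR {a b : SP} {p q n : ℕ} : Apt a (.dist (len a)) → Apt b (.side p q n) →
      Apt (.ser a b) (.side (len a + p) q n)
  | sserL {a b : SP} {p q n : ℕ} : Apt a (.side p q n) → Apt b (.dist (len b)) →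
      Apt (.ser a b) (.side p (len b + q) n)
  /-- loads -/
  | load {e : SP} {p q n : ℕ} : Apt e (.side p q n) → Apt e (.load p q n)
  | lpar {a b : SP} {p q n : ℕ} : Apt a (.load p q n) → Apt b (.load p q n) →
      Apt (.par a b) (.load p q n)
  /-- a part which contains the corner, on the other way round the polygon -/
  | opp {e : SP} {p q k d : ℕ} : Apt e (.bent k d) → k + p = d + q → p + q ≤ k + d →
      Apt e (.load p q (k + p))
  /-- longer loads -/
  | wideR {a b : SP} {p q n : ℕ} : n % 2 = 0 → Apt a (.side p (q + len b) n) →
      Apt b (.dist (len b)) → p + q + len b ≤ n → Apt (.ser a b) (.load p q n)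
  | wideL {a b : SP} {p q n : ℕ} : n % 2 = 0 → Apt a (.dist (len a)) →
      Apt b (.side (len a + p) q n) → p + q + len a ≤ n → Apt (.ser a b) (.load p q n)
  /-- tight parts hung at a terminal -/
  | hang {a b : SP} {i : Iy} : Apt a i → Apt b (.dist (len b)) → Apt (.hang a b) i
  | hangR {a b : SP} {i : Iy} : Apt a i → Apt b (.dist (len b)) → Apt (.hangR a b) i
  /-- expressions of isomorphic graphs -/
  | same {e e' : SP} {i : Iy} : Same e e' → Apt e i → Apt e' i

end Vale.Agent.P050.SP
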