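import Vale.Agent.P050.R4.H345.Adm

/-!
# P050, series-parallel graphs: parts which may be bent at a given point

`FQ A μ c b a F`: the averaged form of the property of balanced kernels, for a bend at distance
`b` from the first and `a` from the second terminal.
-/

namespace Vale.Agent.P050.SP

open Finset Matrix Vale.Agent.P050.Ears Vale.Agent.P050.Mirror

variable {S : Type} [Fintype S] [DecidableEq S]

/-- a kernel which may be bent at distance `b` from the first terminal and `a` from the second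
one: the property of balanced kernels on the average over a stationary family of laws -/
def FQ (A : Matrix S S ℝ) (μ : S → ℝ) (c : S → Bool) (b a : ℕ) (F : S → S → ℝ) : Prop :=
  ∀ (Ω : Type) [Fintype Ω] (rx ry : Ω → S → ℝ), (∀ ω, Cmp A c b a (rx ω) (ry ω)) →
    (∃ s, ∀ x, ∑ ω, rx ω x = if c x = s then μ x else 0) →
    (∃ s, ∀ y, ∑ ω, ry ω y = if c y = s then μ y else 0) →
    ∑ ω, QB A μ b a (rx ω) (ry ω) ≤ ∑ ω, EL (lam A b a (rx ω) (ry ω)) F

variable {A : Matrix S S ℝ} {μ : S → ℝ} {c : S → Bool}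

theorem QK.fq {l b a : ℕ} {F : S → S → ℝ} (hF : QK A μ c l F) (hl : a + b = l) :
    FQ A μ c b a F := fun _ _ rx ry hc _ _ =>
  Finset.sum_le_sum fun ω _ => hF b a (rx ω) (ry ω) hl (hc ω)

theorem FQ.symm {b a : ℕ} {F : S → S → ℝ} (hF : FQ A μ c b a F) :
    FQ A μ c a b (fun x y => F y x) := by
  intro Ω _ rx ry hc hx hy
  have h1 := hF Ω ry rx (fun ω => (hc ω).symm) hy hx
  have h2 : ∀ ω, QB A μ b a (ry ω) (rx ω) = QB A μ a b (rx ω) (ry ω) := fun ω =>
    (hc ω).QB_swap
  have h3 : ∀ ω, EL (lam A b a (ry ω) (rx ω)) F =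
      EL (lam A a b (rx ω) (ry ω)) (fun x y => F y x) := by
    intro ω
    rw [(hc ω).lam_swap]
    exact EL_swap (lam A a b (rx ω) (ry ω)) (fun x y => F y x)
  simp only [h2, h3] at h1
  exact h1

/-- scaling of the laws -/
theorem lam_smul {b a : ℕ} {rx ry : S → ℝ} (k : ℝ) :
    lam A b a (fun x => k * rx x) (fun y => k * ry y) = fun x y => k * lam A b a rx ry x y := by
  funext x y
  unfold lam glue
  rw [Finset.mul_sum]
  refine Finset.sum_congr rfl fun z _ => ?_
  have e : ∑ x', k * rx x' * (A ^ b) x' z = k * ∑ x', rx x' * (A ^ b) x' z := by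
    rw [Finset.mul_sum]; exact Finset.sum_congr rfl fun _ _ => by ring
  change k * rx x * (A ^ b) x z * (k * ry y * (A ^ a) y z) / (∑ x', k * rx x' * (A ^ b) x' z) =
    k * (rx x * (A ^ b) x z * (ry y * (A ^ a) y z) / (∑ x', rx x' * (A ^ b) x' z))
  rw [e]
  by_cases hk : k = 0
  · rw [hk]; simp
  · rw [show k * rx x * (A ^ b) x z * (k * ry y * (A ^ a) y z) =
      k * (k * (rx x * (A ^ b) x z * (ry y * (A ^ a) y z))) by ring,
      mul_div_mul_left _ _ hk, mul_div_assoc]

theorem E1_smul (r : S → ℝ) (k : ℝ) :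
    E1 (fun x => k * r x) = k * E1 r + k * Real.log k * ∑ x, r x := by
  unfold E1
  rw [Finset.mul_sum, Finset.mul_sum, ← Finset.sum_add_distrib]
  refine Finset.sum_congr rfl fun x _ => ?_
  by_cases hk : k = 0
  · rw [hk]; simp
  by_cases hr : r x = 0
  · simp [hr]
  rw [Real.log_mul hk hr]; ring

theorem EL_smul (r F : S → S → ℝ) (k : ℝ) : EL (fun x y => k * r x y) F = k * EL r F := by
  unfold EL
  rw [Finset.mul_sum]
  refine Finset.sum_congr rfl fun x _ => ?_
  rw [Finset.mul_sum]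
  exact Finset.sum_congr rfl fun y _ => by ring

theorem EL_smul_self (r : S → S → ℝ) (k : ℝ) :
    EL (fun x y => k * r x y) (fun x y => k * r x y) =
      k * EL r r + k * Real.log k * ∑ x, ∑ y, r x y := by
  unfold EL
  rw [Finset.mul_sum, Finset.mul_sum, ← Finset.sum_add_distrib]
  refine Finset.sum_congr rfl fun x _ => ?_
  rw [Finset.mul_sum, Finset.mul_sum, ← Finset.sum_add_distrib]
  refine Finset.sum_congr rfl fun y _ => ?_
  by_cases hk : k = 0
  · rw [hk]; simp
  by_cases hr : r x y = 0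
  · simp [hr]
  rw [Real.log_mul hk hr]; ring

theorem Cmp.smul {b a : ℕ} {rx ry : S → ℝ} (hc : Cmp A c b a rx ry) {k : ℝ} (hk : 0 ≤ k) :
    Cmp A c b a (fun x => k * rx x) (fun y => k * ry y) := by
  refine ⟨fun x => mul_nonneg hk (hc.nx x), fun y => mul_nonneg hk (hc.ny y), ?_, ?_,
    fun z => ?_⟩
  · obtain ⟨s, hs⟩ := hc.sx
    exact ⟨s, fun x hx => by rw [hs x hx, mul_zero]⟩
  · obtain ⟨s, hs⟩ := hc.sy
    exact ⟨s, fun x hx => by rw [hs x hx, mul_zero]⟩
  · have e1 : ∑ x, k * rx x * (A ^ b) x z = k * ∑ x, rx x * (A ^ b) x z := by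
      rw [Finset.mul_sum]; exact Finset.sum_congr rfl fun _ _ => by ring
    have e2 : ∑ y, k * ry y * (A ^ a) y z = k * ∑ y, ry y * (A ^ a) y z := by
      rw [Finset.mul_sum]; exact Finset.sum_congr rfl fun _ _ => by ring
    rw [e1, e2, hc.eq z]

section

variable (h : Rev A μ c)

include h

theorem QB_smul {b a : ℕ} {rx ry : S → ℝ} (hc : Cmp A c b a rx ry) (k : ℝ) :
    QB A μ b a (fun x => k * rx x) (fun y => k * ry y) = k * QB A μ b a rx ry := by
  have m1 : ∑ x, ∑ y, lam A b a rx ry x y = ∑ x, rx x := by simp only [lam_left h hc]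
  have m2 : ∑ y, ry y = ∑ x, rx x := by
    have h1 : ∑ y, ∑ x, lam A b a rx ry x y = ∑ x, ∑ y, lam A b a rx ry x y := Finset.sum_comm
    simp only [lam_left h hc, lam_right h hc] at h1
    exact h1
  have m3 : ∑ z, ∑ x, rx x * (A ^ b) x z = ∑ x, rx x := by
    rw [Finset.sum_comm]
    simp only [← Finset.mul_sum, h.pow_row, mul_one]
  have e : ∀ z, ∑ x, k * rx x * (A ^ b) x z = k * ∑ x, rx x * (A ^ b) x z := by
    intro z
    rw [Finset.mul_sum]; exact Finset.sum_congr rfl fun _ _ => by ring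
  unfold QB
  rw [lam_smul, EL_smul_self, E1_smul, E1_smul]
  simp only [e]
  rw [E1_smul, m1, m2, m3]
  have e2 : ∑ z, (k * ∑ x, rx x * (A ^ b) x z) * Real.log (μ z) =
      k * ∑ z, (∑ x, rx x * (A ^ b) x z) * Real.log (μ z) := by
    rw [Finset.mul_sum]; exact Finset.sum_congr rfl fun _ _ => by ring
  rw [e2]
  ring

/-- a walk of length `l` without a bend -/
theorem lam_zero {l : ℕ} {rx ry : S → ℝ} (hc : Cmp A c l 0 rx ry) :
    lam A l 0 rx ry = fun x y => rx x * (A ^ l) x y := by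
  have hsg : ∀ z, ∑ x, rx x * (A ^ l) x z = ry z := by
    intro z
    rw [hc.eq z, pow_zero]
    simp [Matrix.one_apply]
  funext x y
  unfold lam glue
  rw [Finset.sum_eq_single y]
  · change rx x * (A ^ l) x y * (ry y * (A ^ 0) y y) / (∑ x', rx x' * (A ^ l) x' y) = _
    rw [hsg y, pow_zero, Matrix.one_apply_eq, mul_one]
    by_cases h0 : ry y = 0
    · have h1 : rx x * (A ^ l) x y = 0 := by
        have h2 : ∑ x', rx x' * (A ^ l) x' y = 0 := by rw [hsg y, h0]
        exact (Finset.sum_eq_zero_iff_of_nonneg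
          (fun x _ => mul_nonneg (hc.nx x) (h.pow_nonneg l x y))).1 h2 x (mem_univ x)
      rw [h1, zero_mul, zero_div]
    · rw [mul_div_assoc, div_self h0, mul_one]
  · intro z _ hz
    change rx x * (A ^ l) x z * (ry y * (A ^ 0) y z) / _ = 0
    rw [pow_zero, Matrix.one_apply_ne hz.symm, mul_zero, mul_zero, zero_div]
  · intro hy; exact absurd (mem_univ y) hy

theorem QB_zero {l : ℕ} {rx ry : S → ℝ} (hc : Cmp A c l 0 rx ry) :
    QB A μ l 0 rx ry = ∑ x, rx x * Dd A μ l x := by
  have hsg : (fun z => ∑ x, rx x * (A ^ l) x z) = ry := by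
    funext z
    rw [hc.eq z, pow_zero]
    simp [Matrix.one_apply]
  have e1 : EL (fun x y => rx x * (A ^ l) x y) (fun x y => rx x * (A ^ l) x y) =
      E1 rx + ∑ x, rx x * ∑ y, (A ^ l) x y * Real.log ((A ^ l) x y) := by
    unfold EL E1
    rw [← Finset.sum_add_distrib]
    refine Finset.sum_congr rfl fun x _ => ?_
    have t1 : ∀ y, rx x * (A ^ l) x y * Real.log (rx x * (A ^ l) x y) =
        rx x * Real.log (rx x) * (A ^ l) x y +
          rx x * ((A ^ l) x y * Real.log ((A ^ l) x y)) := by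
      intro y
      by_cases h1 : rx x = 0
      · rw [h1]; ring
      by_cases h2 : (A ^ l) x y = 0
      · rw [h2]; ring
      rw [Real.log_mul h1 h2]; ring
    simp only [t1]
    rw [Finset.sum_add_distrib, ← Finset.mul_sum, ← Finset.mul_sum, h.pow_row, mul_one]
  have e2 : ∑ z, (∑ x, rx x * (A ^ l) x z) * Real.log (μ z) =
      ∑ x, rx x * ∑ y, (A ^ l) x y * Real.log (μ y) := by
    simp only [Finset.sum_mul, Finset.mul_sum]
    rw [Finset.sum_comm]
    exact Finset.sum_congr rfl fun x _ => Finset.sum_congr rfl fun y _ => by ring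
  unfold QB
  rw [lam_zero h hc, hsg, e1, e2]
  unfold Dd
  have e3 : ∑ x, rx x * ∑ y, (A ^ l) x y * (Real.log ((A ^ l) x y) - Real.log (μ y)) =
      ∑ x, rx x * ∑ y, (A ^ l) x y * Real.log ((A ^ l) x y) -
        ∑ x, rx x * ∑ y, (A ^ l) x y * Real.log (μ y) := by
    rw [← Finset.sum_sub_distrib]
    refine Finset.sum_congr rfl fun x _ => ?_
    rw [← mul_sub, ← Finset.sum_sub_distrib]
    congr 1
    exact Finset.sum_congr rfl fun y _ => by ring
  rw [e3]
  ring

/-- a tight kernel may be bent at its second terminal -/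
theorem GoodK.fq {l : ℕ} {F : S → S → ℝ} (hF : GoodK A μ c l l F) : FQ A μ c l 0 F := by
  intro Ω _ rx ry hc ⟨s, hs⟩ _
  have h1 := hF s
  rw [if_pos rfl, EL_pd h, J_eq h] at h1
  have e1 : ∑ ω, QB A μ l 0 (rx ω) (ry ω) = ∑ x, if c x = s then μ x * Dd A μ l x else 0 := by
    simp only [QB_zero h (hc _)]
    rw [Finset.sum_comm]
    refine Finset.sum_congr rfl fun x _ => ?_
    rw [← Finset.sum_mul, hs x]
    split_ifs <;> ring
  have e2 : ∑ ω, EL (lam A l 0 (rx ω) (ry ω)) F =
      ∑ x, if c x = s then μ x * ∑ y, (A ^ l) x y * Real.log (F x y) else 0 := by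
    have t1 : ∀ ω, EL (lam A l 0 (rx ω) (ry ω)) F =
        ∑ x, rx ω x * ∑ y, (A ^ l) x y * Real.log (F x y) := by
      intro ω
      rw [lam_zero h (hc ω)]
      unfold EL
      refine Finset.sum_congr rfl fun x _ => ?_
      rw [Finset.mul_sum]
      exact Finset.sum_congr rfl fun y _ => by ring
    simp only [t1]
    rw [Finset.sum_comm]
    refine Finset.sum_congr rfl fun x _ => ?_
    rw [← Finset.sum_mul, hs x]
    split_ifs <;> ring
  rw [e1, e2]
  exact h1

theorem GoodK.fq' {l : ℕ} {F : S → S → ℝ} (hF : GoodK A μ c l l F) : FQ A μ c 0 l F :=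
  ((hF.symm h).fq h).symm

/-- parallel composition -/
theorem FQ.par {b a : ℕ} {F G : S → S → ℝ} (hF : FQ A μ c b a F) (hG : FQ A μ c b a G)
    (pF : PosK A (a + b) F) (pG : PosK A (a + b) G) :
    FQ A μ c b a (fun x y => F x y * G x y) := by
  intro Ω _ rx ry hc hx hy
  have h1 := hF Ω rx ry hc hx hy
  have h2 := hG Ω rx ry hc hx hy
  have e : ∀ ω, EL (lam A b a (rx ω) (ry ω)) (fun x y => F x y * G x y) =
      EL (lam A b a (rx ω) (ry ω)) F + EL (lam A b a (rx ω) (ry ω)) G := fun ω =>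
    EL_mul (lam_nonneg h (hc ω)) (fun x y hp => pF x y (lam_pos h (hc ω) hp).2.2)
      (fun x y hp => pG x y (lam_pos h (hc ω) hp).2.2)
  have h3 : 0 ≤ ∑ ω, QB A μ b a (rx ω) (ry ω) :=
    Finset.sum_nonneg fun ω _ => QB_nonneg h (hc ω)
  simp only [e, Finset.sum_add_distrib]
  linarith

/-- series composition for one pair of laws, the middle vertex is on the walk from the first
terminal -/
theorem ser_one {l1 b a : ℕ} {F G : S → S → ℝ} (pF : PosK A l1 F) (pG : PosK A (a + b) G)
    (nF : ∀ x y, 0 ≤ F x y) (nG : ∀ x y, 0 ≤ G x y) (rx ry : S → ℝ)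
    (hc : Cmp A c (l1 + b) a rx ry) :
    Cmp A c l1 0 rx (fun w => ∑ x, rx x * (A ^ l1) x w) ∧
    Cmp A c b a (fun w => ∑ x, rx x * (A ^ l1) x w) ry ∧
    QB A μ (l1 + b) a rx ry +
      (EL (lam A l1 0 rx (fun w => ∑ x, rx x * (A ^ l1) x w)) F -
        QB A μ l1 0 rx (fun w => ∑ x, rx x * (A ^ l1) x w)) +
      (EL (lam A b a (fun w => ∑ x, rx x * (A ^ l1) x w) ry) G -
        QB A μ b a (fun w => ∑ x, rx x * (A ^ l1) x w) ry) ≤
      EL (lam A (l1 + b) a rx ry) (serK μ F G) := by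
  set om : S → ℝ := fun w => ∑ x, rx x * (A ^ l1) x w with hom
  have hsg : ∀ z, ∑ w, om w * (A ^ b) w z = ∑ x, rx x * (A ^ (l1 + b)) x z := by
    intro z
    simp only [hom, Finset.sum_mul]
    rw [Finset.sum_comm]
    refine Finset.sum_congr rfl fun x _ => ?_
    rw [pow_add, Matrix.mul_apply, Finset.mul_sum]
    exact Finset.sum_congr rfl fun w _ => by ring
  have hc1 : Cmp A c l1 0 rx om := by
    refine ⟨hc.nx, fun w => ?_, hc.sx, ?_, fun z => ?_⟩
    · exact Finset.sum_nonneg fun x _ => mul_nonneg (hc.nx x) (h.pow_nonneg l1 x w)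
    · obtain ⟨s, hs⟩ := hc.sx
      refine ⟨xor s (decide (l1 % 2 = 1)), fun z hz => Finset.sum_eq_zero fun x _ => ?_⟩
      by_cases hx : c x = s
      · rw [h.pow_alt l1 x z (by rw [hx]; exact hz), mul_zero]
      · rw [hs x hx, zero_mul]
    · rw [pow_zero]
      simp [Matrix.one_apply, hom]
  have hc2 : Cmp A c b a om ry := by
    refine ⟨hc1.ny, hc.ny, hc1.sy, hc.sy, fun z => ?_⟩
    rw [hsg, hc.eq z]
  have hl1 : lam A l1 0 rx om = fun x w => rx x * (A ^ l1) x w := lam_zero h hc1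
  -- gluing
  have hglue : glue (fun x w => rx x * (A ^ l1) x w) (lam A b a om ry) om =
      lam A (l1 + b) a rx ry := by
    funext x y
    unfold lam glue
    have t1 : ∀ w, rx x * (A ^ l1) x w * (∑ z, om w * (A ^ b) w z * (ry y * (A ^ a) y z) /
        (∑ x', om x' * (A ^ b) x' z)) / om w =
        ∑ z, rx x * ((A ^ l1) x w * (A ^ b) w z) * (ry y * (A ^ a) y z) /
        (∑ x', rx x' * (A ^ (l1 + b)) x' z) := by
      intro w
      rw [Finset.mul_sum, Finset.sum_div]
      refine Finset.sum_congr rfl fun z _ => ?_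
      rw [hsg z]
      by_cases h0 : om w = 0
      · have h1 : rx x * (A ^ l1) x w = 0 :=
          (Finset.sum_eq_zero_iff_of_nonneg
            (fun x _ => mul_nonneg (hc.nx x) (h.pow_nonneg l1 x w))).1 h0 x (mem_univ x)
        rw [← mul_assoc (rx x), h1]
        simp
      · field_simp
    change ∑ w, rx x * (A ^ l1) x w * (∑ z, om w * (A ^ b) w z * (ry y * (A ^ a) y z) /
        (∑ x', om x' * (A ^ b) x' z)) / om w = ∑ z, rx x * (A ^ (l1 + b)) x z *
        (ry y * (A ^ a) y z) / (∑ x', rx x' * (A ^ (l1 + b)) x' z)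
    simp only [t1]
    rw [Finset.sum_comm]
    refine Finset.sum_congr rfl fun z _ => ?_
    rw [← Finset.sum_div, ← Finset.sum_mul, ← Finset.mul_sum, pow_add, Matrix.mul_apply]
  have C := comp h.pos (r := fun x w => rx x * (A ^ l1) x w) (q := lam A b a om ry)
    (F := F) (G := G) (om := om)
    (fun x w => mul_nonneg (hc.nx x) (h.pow_nonneg l1 x w)) (lam_nonneg h hc2)
    (fun w => rfl) (lam_left h hc2) nF nG
    (fun x w hp => pF x w (by
      refine lt_of_le_of_ne (h.pow_nonneg l1 x w) fun h0 => ?_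
      rw [← h0, mul_zero] at hp
      exact lt_irrefl _ hp))
    (fun w y hp => pG w y (lam_pos h hc2 hp).2.2)
  rw [hglue] at C
  refine ⟨hc1, hc2, ?_⟩
  have hom' : (fun z => ∑ x, rx x * (A ^ l1) x z) = om := rfl
  unfold QB
  rw [hl1, hom']
  simp only [hsg]
  have e1 : ∑ z, (∑ x, rx x * (A ^ l1) x z) * Real.log (μ z) = ∑ z, om z * Real.log (μ z) := rfl
  rw [e1]
  linarith

/-- the total mass of the family is stationary again after a walk -/
theorem fam_step {Ω : Type} [Fintype Ω] {rx : Ω → S → ℝ} {s : Bool} (l : ℕ)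
    (hs : ∀ x, ∑ ω, rx ω x = if c x = s then μ x else 0) (w : S) :
    ∑ ω, ∑ x, rx ω x * (A ^ l) x w = if c w = sh s l then μ w else 0 := by
  rw [Finset.sum_comm]
  have e : ∀ x, ∑ ω, rx ω x * (A ^ l) x w = pd A μ c l s x w := by
    intro x
    rw [← Finset.sum_mul, hs x]
    unfold pd
    split_ifs <;> ring
  simp only [e]
  exact pd_right h l s w

/-- series composition of a tight kernel and a bent one -/
theorem FQ.serR {l1 b a : ℕ} {F G : S → S → ℝ} (hF : GoodK A μ c l1 l1 F)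
    (hG : FQ A μ c b a G) (pF : PosK A l1 F) (pG : PosK A (a + b) G)
    (nF : ∀ x y, 0 ≤ F x y) (nG : ∀ x y, 0 ≤ G x y) :
    FQ A μ c (l1 + b) a (serK μ F G) := by
  intro Ω _ rx ry hc ⟨s, hs⟩ hy
  have h1 := hF.fq h Ω rx (fun ω w => ∑ x, rx ω x * (A ^ l1) x w)
    (fun ω => (ser_one h pF pG nF nG (rx ω) (ry ω) (hc ω)).1) ⟨s, hs⟩
    ⟨sh s l1, fam_step h l1 hs⟩
  have h2 := hG Ω (fun ω w => ∑ x, rx ω x * (A ^ l1) x w) ry
    (fun ω => (ser_one h pF pG nF nG (rx ω) (ry ω) (hc ω)).2.1)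
    ⟨sh s l1, fam_step h l1 hs⟩ hy
  have h3 := Finset.sum_le_sum fun ω (_ : ω ∈ univ) =>
    (ser_one h pF pG nF nG (rx ω) (ry ω) (hc ω)).2.2
  simp only [Finset.sum_add_distrib, Finset.sum_sub_distrib] at h3
  linarith

theorem FQ.serL {l2 b a : ℕ} {F G : S → S → ℝ} (hF : FQ A μ c b a F)
    (hG : GoodK A μ c l2 l2 G) (pF : PosK A (a + b) F) (pG : PosK A l2 G)
    (nF : ∀ x y, 0 ≤ F x y) (nG : ∀ x y, 0 ≤ G x y) :
    FQ A μ c b (l2 + a) (serK μ F G) := by
  have h1 := (FQ.serR h (hG.symm h) hF.symm (PosK.swap h pG)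
    (by rw [add_comm]; exact PosK.swap h pF) (fun x y => nG y x) (fun x y => nF y x)).symm
  rw [serK_swap] at h1
  exact h1

/-- a tight gadget hung at the first terminal -/
theorem FQ.hang {l b a : ℕ} {F G : S → S → ℝ} (hF : FQ A μ c b a F)
    (hG : GoodK A μ c l l G) (pF : PosK A (a + b) F) (pG : PosK A l G)
    (nG : ∀ x y, 0 ≤ G x y) : FQ A μ c b a (fun x y => F x y * ∑ w, μ w * G x w) := by
  intro Ω _ rx ry hc ⟨s, hs⟩ hy
  have h1 := hF Ω rx ry hc ⟨s, hs⟩ hy
  have e : ∀ ω, EL (lam A b a (rx ω) (ry ω)) (fun x y => F x y * ∑ w, μ w * G x w) =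
      EL (lam A b a (rx ω) (ry ω)) F + ∑ x, rx ω x * Real.log (∑ w, μ w * G x w) := by
    intro ω
    rw [EL_mul (lam_nonneg h (hc ω)) (fun x y hp => pF x y (lam_pos h (hc ω) hp).2.2)
      (fun x y _ => out_pos h pG nG x)]
    congr 1
    unfold EL
    refine Finset.sum_congr rfl fun x _ => ?_
    rw [← Finset.sum_mul, lam_left h (hc ω)]
  have h2 : 0 ≤ ∑ ω, ∑ x, rx ω x * Real.log (∑ w, μ w * G x w) := by
    rw [Finset.sum_comm]
    refine (out_mean h hG pG nG s).trans (le_of_eq ?_)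
    refine Finset.sum_congr rfl fun x _ => ?_
    rw [← Finset.sum_mul, hs x]
  simp only [e, Finset.sum_add_distrib]
  linarith

theorem FQ.hangR {l b a : ℕ} {F G : S → S → ℝ} (hF : FQ A μ c b a F)
    (hG : GoodK A μ c l l G) (pF : PosK A (a + b) F) (pG : PosK A l G)
    (nG : ∀ x y, 0 ≤ G x y) : FQ A μ c b a (fun x y => F x y * ∑ w, μ w * G y w) :=
  (FQ.hang h hF.symm hG (by rw [add_comm]; exact PosK.swap h pF) pG nG).symm

/-- the law of two bridges from a starting point, as a family -/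
theorem fam_walk (l : ℕ) (t : Bool) (w : S) :
    ∑ u, (if c u = t then μ u else 0) * (A ^ l) u w = if c w = sh t l then μ w else 0 := by
  rw [← pd_right h l t w]
  refine Finset.sum_congr rfl fun u _ => ?_
  unfold pd
  split_ifs <;> ring

theorem fam_nonneg (t : Bool) (u : S) : 0 ≤ if c u = t then μ u else 0 := by
  split_ifs
  · exact (h.pos u).le
  · exact le_rfl

/-- the bent kernel between two bridges -/
theorem FQ.bridge {l1 d a b : ℕ} {G : S → S → ℝ} (hG : FQ A μ c b a G) (hT : l1 + b = d + a)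
    (t : Bool) :
    ∑ u, (if c u = t then μ u else 0) * QB A μ b a (fun w => (A ^ l1) u w)
        (fun v => (A ^ d) u v) ≤
      ∑ u, (if c u = t then μ u else 0) * EL (lam A b a (fun w => (A ^ l1) u w)
        (fun v => (A ^ d) u v)) G := by
  have h1 := hG S (fun u w => (if c u = t then μ u else 0) * (A ^ l1) u w)
    (fun u v => (if c u = t then μ u else 0) * (A ^ d) u v)
    (fun u => (cmp_walk (A := A) (μ := μ) (c := c) h hT u).smul (fam_nonneg h t u))
    ⟨sh t l1, fam_walk h l1 t⟩ ⟨sh t d, fam_walk h d t⟩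
  simp only [QB_smul h (cmp_walk (A := A) (μ := μ) (c := c) h hT _), lam_smul, EL_smul] at h1
  exact h1

/-- series composition of a tight kernel and a bent kernel over the two arcs of a polygon -/
theorem GoodK.serB {l1 d a b : ℕ} {F G : S → S → ℝ} (hF : GoodK A μ c l1 l1 F)
    (hG : FQ A μ c b a G) (hT : l1 + b = d + a) (pF : PosK A l1 F) (pG : PosK A (a + b) G)
    (nF : ∀ x y, 0 ≤ F x y) (nG : ∀ x y, 0 ≤ G x y) :
    GoodK A μ c (l1 + (a + b)) d (serK μ F G) := by
  intro t
  have hF1 := hF t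
  rw [if_pos rfl, EL_pd h, J_eq h] at hF1
  have hB := hG.bridge h hT t
  rw [EL_pd h]
  have key : (∑ x, if c x = t then μ x * ∑ y, (A ^ l1) x y * Real.log (F x y) else 0) -
      (∑ x, if c x = t then μ x * Dd A μ l1 x else 0) +
      (∑ x, if c x = t then μ x * Dd A μ (l1 + b) x else 0) +
      (∑ u, (if c u = t then μ u else 0) * EL (lam A b a (fun w => (A ^ l1) u w)
        (fun v => (A ^ d) u v)) G -
       ∑ u, (if c u = t then μ u else 0) * QB A μ b a (fun w => (A ^ l1) u w)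
        (fun v => (A ^ d) u v)) ≤
      ∑ x, if c x = t then μ x * ∑ y, (A ^ d) x y * Real.log (serK μ F G x y) else 0 := by
    rw [← Finset.sum_sub_distrib, ← Finset.sum_sub_distrib, ← Finset.sum_add_distrib,
      ← Finset.sum_add_distrib]
    refine Finset.sum_le_sum fun x _ => ?_
    split_ifs
    · have := mul_le_mul_of_nonneg_left (ser_pt h pF pG nF nG rfl hT x) (h.pos x).le
      linarith
    · simp
  have h4 : (if d = l1 + (a + b) then J A μ c d t else 0) ≤
      ∑ x, if c x = t then μ x * Dd A μ (l1 + b) x else 0 := by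
    split_ifs with he
    · rw [J_eq h, show l1 + b = d by omega]
    · refine Finset.sum_nonneg fun x _ => ?_
      split_ifs
      · exact mul_nonneg (h.pos x).le (Dd_nonneg h _ x)
      · exact le_rfl
  linarith

theorem GoodK.serB' {l2 d a b : ℕ} {F G : S → S → ℝ} (hF : FQ A μ c b a F)
    (hG : GoodK A μ c l2 l2 G) (hT : l2 + a = d + b) (pF : PosK A (a + b) F)
    (pG : PosK A l2 G) (nF : ∀ x y, 0 ≤ F x y) (nG : ∀ x y, 0 ≤ G x y) :
    GoodK A μ c (l2 + (a + b)) d (serK μ F G) := by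
  have h1 := (GoodK.serB h (hG.symm h) hF.symm hT (PosK.swap h pG)
    (by rw [add_comm]; exact PosK.swap h pF) (fun x y => nG y x) (fun x y => nF y x)).symm h
  rw [serK_swap, add_comm b a] at h1
  exact h1

/-- the same with a second bent kernel, over the other bend of the polygon -/
theorem GoodK.serB2 {l1 d a b : ℕ} {F G1 G2 : S → S → ℝ} (hF : GoodK A μ c l1 l1 F)
    (hG1 : FQ A μ c b a G1) (hG2 : FQ A μ c l1 d G2) (hT : l1 + b = d + a)
    (hle : a + b ≤ d + l1) (pF : PosK A l1 F) (pG1 : PosK A (a + b) G1)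
    (pG2 : PosK A (d + l1) G2) (nF : ∀ x y, 0 ≤ F x y) (nG1 : ∀ x y, 0 ≤ G1 x y)
    (nG2 : ∀ x y, 0 ≤ G2 x y) :
    GoodK A μ c (l1 + (a + b)) d (serK μ F (fun x y => G1 x y * G2 x y)) := by
  have pG2' : PosK A (a + b) G2 := pG2.mono h hle (by omega)
  have pG : PosK A (a + b) (fun x y => G1 x y * G2 x y) :=
    fun x y hxy => mul_pos (pG1 x y hxy) (pG2' x y hxy)
  have nG : ∀ x y, 0 ≤ G1 x y * G2 x y := fun x y => mul_nonneg (nG1 x y) (nG2 x y)
  intro t
  have hF1 := hF t
  rw [if_pos rfl, EL_pd h, J_eq h] at hF1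
  have hB := hG1.bridge h hT t
  have hC : 0 ≤ ∑ u, (if c u = t then μ u else 0) * EL (lam A b a (fun w => (A ^ l1) u w)
      (fun v => (A ^ d) u v)) G2 := by
    have e1 := EL_bridge (A := A) (μ := μ) (c := c) h hT t G2
    have e2 := hG2.bridge h (by omega : b + l1 = a + d) (sh t (l1 + b))
    have e3 : 0 ≤ ∑ z, (if c z = sh t (l1 + b) then μ z else 0) *
        QB A μ l1 d (fun w => (A ^ b) z w) (fun v => (A ^ a) z v) :=
      Finset.sum_nonneg fun z _ => mul_nonneg (fam_nonneg h _ z)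
        (QB_nonneg h (cmp_walk (A := A) (μ := μ) (c := c) h (by omega : b + l1 = a + d) z))
    simp only [ite_mul, zero_mul] at e2 e3 ⊢
    rw [e1]
    exact e3.trans e2
  rw [EL_pd h]
  have hEL : ∀ u, EL (lam A b a (fun w => (A ^ l1) u w) (fun v => (A ^ d) u v))
      (fun x y => G1 x y * G2 x y) =
      EL (lam A b a (fun w => (A ^ l1) u w) (fun v => (A ^ d) u v)) G1 +
      EL (lam A b a (fun w => (A ^ l1) u w) (fun v => (A ^ d) u v)) G2 := by
    intro u
    have hc := cmp_walk (A := A) (μ := μ) (c := c) h hT u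
    exact EL_mul (lam_nonneg h hc) (fun x y hp => pG1 x y (lam_pos h hc hp).2.2)
      (fun x y hp => pG2' x y (lam_pos h hc hp).2.2)
  have key : (∑ x, if c x = t then μ x * ∑ y, (A ^ l1) x y * Real.log (F x y) else 0) -
      (∑ x, if c x = t then μ x * Dd A μ l1 x else 0) +
      (∑ x, if c x = t then μ x * Dd A μ (l1 + b) x else 0) +
      (∑ u, (if c u = t then μ u else 0) * EL (lam A b a (fun w => (A ^ l1) u w)
        (fun v => (A ^ d) u v)) G1 +
       ∑ u, (if c u = t then μ u else 0) * EL (lam A b a (fun w => (A ^ l1) u w)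
        (fun v => (A ^ d) u v)) G2 -
       ∑ u, (if c u = t then μ u else 0) * QB A μ b a (fun w => (A ^ l1) u w)
        (fun v => (A ^ d) u v)) ≤
      ∑ x, if c x = t then μ x * ∑ y, (A ^ d) x y *
        Real.log (serK μ F (fun x y => G1 x y * G2 x y) x y) else 0 := by
    rw [← Finset.sum_sub_distrib, ← Finset.sum_add_distrib, ← Finset.sum_add_distrib,
      ← Finset.sum_sub_distrib, ← Finset.sum_add_distrib]
    refine Finset.sum_le_sum fun x _ => ?_
    split_ifs
    · have h1 := ser_pt h pF pG nF nG rfl hT x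
      rw [hEL x] at h1
      have := mul_le_mul_of_nonneg_left h1 (h.pos x).le
      linarith
    · simp
  have h4 : (if d = l1 + (a + b) then J A μ c d t else 0) ≤
      ∑ x, if c x = t then μ x * Dd A μ (l1 + b) x else 0 := by
    split_ifs with he
    · rw [J_eq h, show l1 + b = d by omega]
    · refine Finset.sum_nonneg fun x _ => ?_
      split_ifs
      · exact mul_nonneg (h.pos x).le (Dd_nonneg h _ x)
      · exact le_rfl
  linarith

theorem GoodK.serB2' {l2 d a b : ℕ} {F1 F2 G : S → S → ℝ} (hF1 : FQ A μ c b a F1)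
    (hF2 : FQ A μ c d l2 F2) (hG : GoodK A μ c l2 l2 G) (hT : l2 + a = d + b)
    (hle : a + b ≤ d + l2) (pF1 : PosK A (a + b) F1) (pF2 : PosK A (d + l2) F2)
    (pG : PosK A l2 G) (nF1 : ∀ x y, 0 ≤ F1 x y) (nF2 : ∀ x y, 0 ≤ F2 x y)
    (nG : ∀ x y, 0 ≤ G x y) :
    GoodK A μ c (l2 + (a + b)) d (serK μ (fun x y => F1 x y * F2 x y) G) := by
  have h1 := (GoodK.serB2 h (hG.symm h) hF1.symm hF2.symm hT (by omega) (PosK.swap h pG)
    (by rw [add_comm]; exact PosK.swap h pF1) (PosK.swap h pF2) (fun x y => nG y x)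
    (fun x y => nF1 y x) (fun x y => nF2 y x)).symm h
  have h5 : (fun x y => serK μ (fun x y => G y x) (fun x y => F1 y x * F2 y x) y x) =
      serK μ (fun x y => F1 x y * F2 x y) G :=
    serK_swap μ (fun x y => F1 x y * F2 x y) G
  rw [h5, add_comm b a] at h1
  exact h1

/-- a bent kernel may be folded at its bend -/
theorem FQ.fold {d a b : ℕ} {G : S → S → ℝ} (hG : FQ A μ c b a G) (hT : b = d + a)
    (pG : PosK A (a + b) G) (nG : ∀ x y, 0 ≤ G x y) : GoodK A μ c (a + b) d G := by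
  have h0 : GoodK A μ c 0 0 (idk μ) := by
    intro t
    rw [if_pos rfl]
    unfold J
    rw [kap_zero]
  have p0 : PosK A 0 (idk μ) := by
    intro x y hxy
    rw [pow_zero, Matrix.one_apply] at hxy
    unfold idk
    split_ifs with h1
    · exact div_pos one_pos (h.pos x)
    · rw [if_neg h1] at hxy; exact absurd hxy (lt_irrefl _)
  have n0 : ∀ x y, 0 ≤ idk μ x y := by
    intro x y
    unfold idk
    split_ifs
    · exact (div_pos one_pos (h.pos x)).le
    · exact le_rfl
  have h1 := GoodK.serB h h0 hG (by omega : 0 + b = d + a) p0 pG n0 nG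
  rw [serK_idk h, zero_add] at h1
  exact h1

theorem FQ.fold' {d a b : ℕ} {G : S → S → ℝ} (hG : FQ A μ c b a G) (hT : a = d + b)
    (pG : PosK A (a + b) G) (nG : ∀ x y, 0 ≤ G x y) : GoodK A μ c (a + b) d G := by
  have h1 := (FQ.fold h hG.symm hT (by rw [add_comm]; exact PosK.swap h pG)
    (fun x y => nG y x)).symm h
  rw [add_comm] at h1
  exact h1

end

end Vale.Agent.P050.SP
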