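import Vale.Agent.P050.R4.H345.AdmDef

/-!
# P050, series-parallel graphs: the class with bent parts
-/

namespace Vale.Agent.P050.SP

/-- How a part may be used in a larger graph: `dist d`: its terminals may be put at distance `d`;
`cen`: it is centred; `bent p q`: it may be bent at a point at distance `p` from its first and `q`
from its second terminal. -/
inductive Ix : Type
  | dist (d : ℕ) : Ix
  | cen : Ix
  | bent (p q : ℕ) : Ix

/-- The class of the theorem. `Fit e (dist (len e))`: `e` is tight. -/
inductive Fit : SP → Ix → Prop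
  /-- an edge is tight -/
  | edge : Fit .edge (.dist 1)
  /-- parallel composition -/
  | par {a b : SP} {d : ℕ} : Fit a (.dist d) → Fit b (.dist d) → Fit (.par a b) (.dist d)
  /-- polygons with a long side -/
  | longR {a b : SP} {d : ℕ} : Fit a (.dist (d + len b)) → Fit b (.dist (len b)) →
      Fit (.ser a b) (.dist d)
  | longL {a b : SP} {d : ℕ} : Fit a (.dist (len a)) → Fit b (.dist (d + len a)) →
      Fit (.ser a b) (.dist d)
  /-- a part folded at its bend -/
  | fold {e : SP} {p q d : ℕ} : Fit e (.bent p q) → p = d + q ∨ q = d + p → Fit e (.dist d)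
  /-- polygons with a tight and a bent side -/
  | serR {a b : SP} {p q d : ℕ} : Fit a (.dist (len a)) → Fit b (.bent p q) →
      len a + p = d + q → Fit (.ser a b) (.dist d)
  | serL {a b : SP} {p q d : ℕ} : Fit a (.bent p q) → Fit b (.dist (len b)) →
      len b + q = d + p → Fit (.ser a b) (.dist d)
  /-- the same, when the bent side is parallel to one over the opposite bend -/
  | ser2R {a b b' : SP} {p q d : ℕ} : Fit a (.dist (len a)) → Fit b (.bent p q) →
      Fit b' (.bent (len a) d) → len a + p = d + q → len b ≤ len b' →
      Fit (.ser a (.par b b')) (.dist d)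
  | ser2L {a a' b : SP} {p q d : ℕ} : Fit a (.bent p q) → Fit a' (.bent d (len b)) →
      Fit b (.dist (len b)) → len b + q = d + p → len a ≤ len a' →
      Fit (.ser (.par a a') b) (.dist d)
  /-- polygons with an axis through a centred side and a vertex or two centred sides -/
  | mirror {ka s1 s2 kb : Option SP} {k : SP} {d : ℕ} :
      (∀ a, ka = some a → Fit a (.dist (len a))) → (∀ s, s1 = some s → Fit s .cen) →
      Fit k (.dist (len k)) → (∀ s, s2 = some s → Fit s .cen) →
      (∀ a, kb = some a → Fit a (.dist (len a))) → len k = olen ka + d + olen kb →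
      Fit (oser ka (oser s1 (sero (sero k s2) kb))) (.dist d)
  /-- centred parts -/
  | cmid {a b : SP} : Fit a (.dist (len a)) → Fit b (.dist (len b)) → len a = len b →
      Fit (.ser a b) .cen
  | csand {a s b : SP} : Fit a (.dist (len a)) → Fit s .cen → Fit b (.dist (len b)) →
      len a = len b → Fit (.ser (.ser a s) b) .cen
  | cpar {s t : SP} : Fit s .cen → Fit t .cen → Fit (.par s t) .cen
  /-- bent parts -/
  | bentL {e : SP} : Fit e (.dist (len e)) → Fit e (.bent (len e) 0)
  | bentR {e : SP} : Fit e (.dist (len e)) → Fit e (.bent 0 (len e))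
  | bpar {a b : SP} {p q : ℕ} : Fit a (.bent p q) → Fit b (.bent p q) →
      Fit (.par a b) (.bent p q)
  | bserR {a b : SP} {p q : ℕ} : Fit a (.dist (len a)) → Fit b (.bent p q) →
      Fit (.ser a b) (.bent (len a + p) q)
  | bserL {a b : SP} {p q : ℕ} : Fit a (.bent p q) → Fit b (.dist (len b)) →
      Fit (.ser a b) (.bent p (len b + q))
  /-- tight parts hung at a terminal -/
  | hang {a b : SP} {i : Ix} : Fit a i → Fit b (.dist (len b)) → Fit (.hang a b) i
  | hangR {a b : SP} {i : Ix} : Fit a i → Fit b (.dist (len b)) → Fit (.hangR a b) i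
  /-- expressions of isomorphic graphs -/
  | same {e e' : SP} {i : Ix} : Same e e' → Fit e i → Fit e' i

end Vale.Agent.P050.SP
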