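import Vale.Agent.P050.R4.H345.Bent
import Vale.Agent.P050.R4.H345.FitDef

/-!
# P050, series-parallel graphs: soundness of the class with bent parts
-/

namespace Vale.Agent.P050.SP

open Finset Matrix Vale.Agent.P050.Ears Vale.Agent.P050.Mirror

/-- the possible indices -/
def Fits2 (e : SP) : Ix → Prop
  | .dist d => d ≤ len e ∧ d % 2 = len e % 2
  | .cen => len e % 2 = 0
  | .bent p q => p + q = len e

theorem Fit.fits {e : SP} {i : Ix} (h : Fit e i) : bip e ∧ Fits2 e i := by
  induction h with
  | edge => exact ⟨trivial, le_rfl, rfl⟩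
  | par _ _ h1 h2 =>
    obtain ⟨b1, l1, p1⟩ := h1
    obtain ⟨b2, l2, p2⟩ := h2
    refine ⟨⟨b1, b2, by omega⟩, ?_⟩
    simp only [Fits2, len]
    omega
  | longR _ _ h1 h2 =>
    obtain ⟨b1, l1, p1⟩ := h1
    refine ⟨⟨b1, h2.1⟩, ?_⟩
    simp only [Fits2, len]
    omega
  | longL _ _ h1 h2 =>
    obtain ⟨b2, l2, p2⟩ := h2
    refine ⟨⟨h1.1, b2⟩, ?_⟩
    simp only [Fits2, len]
    omega
  | fold _ hd h1 =>
    obtain ⟨b1, l1⟩ := h1
    simp only [Fits2] at l1
    refine ⟨b1, ?_⟩
    simp only [Fits2]
    omega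
  | serR _ _ hd h1 h2 =>
    obtain ⟨b2, l2⟩ := h2
    simp only [Fits2] at l2
    refine ⟨⟨h1.1, b2⟩, ?_⟩
    simp only [Fits2, len]
    omega
  | serL _ _ hd h1 h2 =>
    obtain ⟨b1, l1⟩ := h1
    simp only [Fits2] at l1
    refine ⟨⟨b1, h2.1⟩, ?_⟩
    simp only [Fits2, len]
    omega
  | ser2R _ _ _ hd hl h1 h2 h3 =>
    obtain ⟨b2, l2⟩ := h2
    obtain ⟨b3, l3⟩ := h3
    simp only [Fits2] at l2 l3
    refine ⟨⟨h1.1, b2, b3, by omega⟩, ?_⟩
    simp only [Fits2, len]
    omega
  | ser2L _ _ _ hd hl h1 h2 h3 =>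
    obtain ⟨b1, l1⟩ := h1
    obtain ⟨b2, l2⟩ := h2
    simp only [Fits2] at l1 l2
    refine ⟨⟨⟨b1, b2, by omega⟩, h3.1⟩, ?_⟩
    simp only [Fits2, len]
    omega
  | mirror _ _ _ _ _ hl h1 h2 h3 h4 h5 =>
    refine ⟨bip_oser (fun a ha => (h1 a ha).1) (bip_oser (fun a ha => (h2 a ha).1)
      (bip_sero (fun a ha => (h5 a ha).1) (bip_sero (fun a ha => (h4 a ha).1) h3.1))), ?_⟩
    have e1 := olen_even fun a ha => (h2 a ha).2
    have e2 := olen_even fun a ha => (h4 a ha).2
    simp only [Fits2, len_oser, len_sero]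
    omega
  | cmid _ _ hl h1 h2 =>
    refine ⟨⟨h1.1, h2.1⟩, ?_⟩
    simp only [Fits2, len]
    omega
  | csand _ _ _ hl h1 h2 h3 =>
    obtain ⟨b2, p2⟩ := h2
    refine ⟨⟨⟨h1.1, b2⟩, h3.1⟩, ?_⟩
    simp only [Fits2] at p2
    simp only [Fits2, len]
    omega
  | cpar _ _ h1 h2 =>
    obtain ⟨b1, p1⟩ := h1
    obtain ⟨b2, p2⟩ := h2
    simp only [Fits2] at p1 p2
    refine ⟨⟨b1, b2, by omega⟩, ?_⟩
    simp only [Fits2, len]
    omega
  | bentL _ h1 => exact ⟨h1.1, by simp only [Fits2]; omega⟩
  | bentR _ h1 => exact ⟨h1.1, by simp only [Fits2]; omega⟩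
  | bpar _ _ h1 h2 =>
    obtain ⟨b1, p1⟩ := h1
    obtain ⟨b2, p2⟩ := h2
    simp only [Fits2] at p1 p2
    refine ⟨⟨b1, b2, by omega⟩, ?_⟩
    simp only [Fits2, len]
    omega
  | bserR _ _ h1 h2 =>
    obtain ⟨b2, p2⟩ := h2
    simp only [Fits2] at p2
    refine ⟨⟨h1.1, b2⟩, ?_⟩
    simp only [Fits2, len]
    omega
  | bserL _ _ h1 h2 =>
    obtain ⟨b1, p1⟩ := h1
    simp only [Fits2] at p1
    refine ⟨⟨b1, h2.1⟩, ?_⟩
    simp only [Fits2, len]
    omega
  | @hang a b i _ _ h1 h2 =>
    refine ⟨⟨h1.1, h2.1⟩, ?_⟩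
    have f := h1.2
    cases i <;> exact f
  | @hangR a b i _ _ h1 h2 =>
    refine ⟨⟨h1.1, h2.1⟩, ?_⟩
    have f := h1.2
    cases i <;> exact f
  | @same e e' i hs _ h1 =>
    refine ⟨hs.bip_iff.1 h1.1, ?_⟩
    have f := h1.2
    cases i <;> simp only [Fits2, hs.len_eq] at f ⊢ <;> exact f

section semantics

variable {S : Type} [Fintype S] [DecidableEq S]
variable {A : Matrix S S ℝ} {μ : S → ℝ} {c : S → Bool} (h : Rev A μ c)

/-- the meaning of the class -/
def Sem2 (A : Matrix S S ℝ) (μ : S → ℝ) (c : S → Bool) (e : SP) : Ix → Prop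
  | .dist d => GoodK A μ c (len e) d (K A μ e)
  | .cen => MirS μ c (K A μ e)
  | .bent p q => FQ A μ c p q (K A μ e)

include h

theorem Fit.tk {a : SP} (ha : Fit a (.dist (len a))) (hs : Sem2 A μ c a (.dist (len a))) :
    TK A μ c (len a) (K A μ a) :=
  TK_of (K_nonneg h a) (K_pos h a ha.fits.1) hs

theorem Fit.sem {e : SP} {i : Ix} (he : Fit e i) : Sem2 A μ c e i := by
  induction he with
  | edge =>
    have h1 : QK A μ c 1 (K A μ .edge) := QK_edge h
    exact h1.good h le_rfl rfl
  | @par a b d ha hb h1 h2 =>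
    exact GoodK.par h h1 h2 ((K_pos h a ha.fits.1).mono h ha.fits.2.1 ha.fits.2.2)
      ((K_pos h b hb.fits.1).mono h hb.fits.2.1 hb.fits.2.2)
  | @longR a b d ha hb h1 h2 =>
    have h3 := len_pos b
    have h4 := ha.fits.2.1
    exact GoodK.longR h h1 h2 ((K_pos h a ha.fits.1).mono h ha.fits.2.1 ha.fits.2.2)
      (K_pos h b hb.fits.1) (K_nonneg h a) (K_nonneg h b) (by omega)
  | @longL a b d ha hb h1 h2 =>
    have h3 := len_pos a
    have h4 := hb.fits.2.1
    exact GoodK.longL h h1 h2 (K_pos h a ha.fits.1) ((K_pos h b hb.fits.1).mono h hb.fits.2.1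
      hb.fits.2.2) (K_nonneg h a) (K_nonneg h b) (by omega)
  | @fold e p q d he hd h1 =>
    have hl : p + q = len e := he.fits.2
    have pe : PosK A (q + p) (K A μ e) := by
      rw [add_comm q p, hl]; exact K_pos h e he.fits.1
    unfold Sem2
    rw [← hl, add_comm p q]
    rcases hd with hd | hd
    · exact FQ.fold h h1 hd pe (K_nonneg h e)
    · exact FQ.fold' h h1 hd pe (K_nonneg h e)
  | @serR a b p q d ha hb hd h1 h2 =>
    have hl : p + q = len b := hb.fits.2
    have pb : PosK A (q + p) (K A μ b) := by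
      rw [add_comm q p, hl]; exact K_pos h b hb.fits.1
    have key := GoodK.serB h h1 h2 hd (K_pos h a ha.fits.1) pb (K_nonneg h a) (K_nonneg h b)
    have e1 : len (.ser a b) = len a + (q + p) := by simp only [len]; omega
    unfold Sem2
    rw [e1]
    exact key
  | @serL a b p q d ha hb hd h1 h2 =>
    have hl : p + q = len a := ha.fits.2
    have pa : PosK A (q + p) (K A μ a) := by
      rw [add_comm q p, hl]; exact K_pos h a ha.fits.1
    have key := GoodK.serB' h h1 h2 hd pa (K_pos h b hb.fits.1) (K_nonneg h a) (K_nonneg h b)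
    have e1 : len (.ser a b) = len b + (q + p) := by simp only [len]; omega
    unfold Sem2
    rw [e1]
    exact key
  | @ser2R a b b' p q d ha hb hb' hd hle h1 h2 h3 =>
    have hl : p + q = len b := hb.fits.2
    have hl' : len a + d = len b' := hb'.fits.2
    have pb : PosK A (q + p) (K A μ b) := by
      rw [add_comm q p, hl]; exact K_pos h b hb.fits.1
    have pb' : PosK A (d + len a) (K A μ b') := by
      rw [add_comm d, hl']; exact K_pos h b' hb'.fits.1
    have key := GoodK.serB2 h h1 h2 h3 hd (by omega) (K_pos h a ha.fits.1) pb pb'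
      (K_nonneg h a) (K_nonneg h b) (K_nonneg h b')
    have e1 : len (.ser a (.par b b')) = len a + (q + p) := by simp only [len]; omega
    unfold Sem2
    rw [e1]
    exact key
  | @ser2L a a' b p q d ha ha' hb hd hle h1 h2 h3 =>
    have hl : p + q = len a := ha.fits.2
    have hl' : d + len b = len a' := ha'.fits.2
    have pa : PosK A (q + p) (K A μ a) := by
      rw [add_comm q p, hl]; exact K_pos h a ha.fits.1
    have pa' : PosK A (d + len b) (K A μ a') := by
      rw [hl']; exact K_pos h a' ha'.fits.1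
    have key := GoodK.serB2' h h1 h2 h3 hd (by omega) pa pa' (K_pos h b hb.fits.1)
      (K_nonneg h a) (K_nonneg h a') (K_nonneg h b)
    have e1 : len (.ser (.par a a') b) = len b + (q + p) := by simp only [len]; omega
    unfold Sem2
    rw [e1]
    exact key
  | @mirror ka s1 s2 kb k d ha hs1 hk hs2 hb hl i1 i2 i3 i4 i5 =>
    by_cases hd : d = len (oser ka (oser s1 (sero (sero k s2) kb)))
    · rw [len_oser, len_oser, len_sero, len_sero] at hd
      have n1 : ka = none := by
        cases ka with
        | none => rfl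
        | some a => have := len_pos a; simp only [olen] at hd hl; omega
      have n2 : s1 = none := by
        cases s1 with
        | none => rfl
        | some a => have := len_pos a; simp only [olen] at hd hl; omega
      have n3 : s2 = none := by
        cases s2 with
        | none => rfl
        | some a => have := len_pos a; simp only [olen] at hd hl; omega
      have n4 : kb = none := by
        cases kb with
        | none => rfl
        | some a => have := len_pos a; simp only [olen] at hd hl; omega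
      subst n1; subst n2; subst n3; subst n4
      simp only [oser, sero, olen, zero_add, add_zero] at hl hd ⊢
      rw [← hl]
      exact i3
    · have ta : TK A μ c (olen ka) (KO A μ ka) := by
        cases ka with
        | none => exact TK_idk h
        | some a => exact Fit.tk h (ha a rfl) (i1 a rfl)
      have tb : TK A μ c (olen kb) (KO A μ kb) := by
        cases kb with
        | none => exact TK_idk h
        | some a => exact Fit.tk h (hb a rfl) (i5 a rfl)
      have m1 : MirS μ c (KO A μ s1) := by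
        cases s1 with
        | none => exact MirS_idk h
        | some a => exact i2 a rfl
      have m2 : MirS μ c (KO A μ s2) := by
        cases s2 with
        | none => exact MirS_idk h
        | some a => exact i4 a rfl
      have tk := Fit.tk h hk i3
      rw [hl] at tk
      have key := mirror_rule h ta tb tk m1.1 m2.2
      have eK : K A μ (oser ka (oser s1 (sero (sero k s2) kb))) =
          serK μ (serK μ (serK μ (serK μ (KO A μ ka) (KO A μ s1)) (K A μ k)) (KO A μ s2))
            (KO A μ kb) := by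
        simp only [K_oser h, K_sero h, serK_assoc]
      intro b
      rw [if_neg hd, eK]
      exact key.ineq b
  | @cmid a b ha hb hl h1 h2 =>
    have t2 := Fit.tk h hb h2
    rw [← hl] at t2
    have key := MirS.ser h (Fit.tk h ha h1) t2 (MirS_idk h)
    rw [idk_serK h] at key
    exact key
  | @csand a s b ha hs hb hl h1 h2 h3 =>
    have t2 := Fit.tk h hb h3
    rw [← hl] at t2
    exact MirS.ser h (Fit.tk h ha h1) t2 h2
  | cpar _ _ h1 h2 => exact MirS.par h1 h2
  | bentL _ h1 => exact GoodK.fq h h1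
  | bentR _ h1 => exact GoodK.fq' h h1
  | @bpar a b p q ha hb h1 h2 =>
    have hl : p + q = len a := ha.fits.2
    have hl' : p + q = len b := hb.fits.2
    exact FQ.par h h1 h2 (by rw [add_comm q p, hl]; exact K_pos h a ha.fits.1)
      (by rw [add_comm q p, hl']; exact K_pos h b hb.fits.1)
  | @bserR a b p q ha hb h1 h2 =>
    have hl : p + q = len b := hb.fits.2
    exact FQ.serR h h1 h2 (K_pos h a ha.fits.1)
      (by rw [add_comm q p, hl]; exact K_pos h b hb.fits.1) (K_nonneg h a) (K_nonneg h b)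
  | @bserL a b p q ha hb h1 h2 =>
    have hl : p + q = len a := ha.fits.2
    exact FQ.serL h h1 h2 (by rw [add_comm q p, hl]; exact K_pos h a ha.fits.1)
      (K_pos h b hb.fits.1) (K_nonneg h a) (K_nonneg h b)
  | @hang a b i ha hb h1 h2 =>
    have pb := K_pos (μ := μ) h b hb.fits.1
    cases i with
    | cen => exact MirS.hang h h1 h2 pb (K_nonneg h b)
    | dist d =>
      have pa := (K_pos (μ := μ) h a ha.fits.1).mono h ha.fits.2.1 ha.fits.2.2
      exact GoodK.hang h h1 h2 pa pb (K_nonneg h b)
    | bent p q =>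
      have hl : p + q = len a := ha.fits.2
      exact FQ.hang h h1 h2 (by rw [add_comm q p, hl]; exact K_pos h a ha.fits.1) pb
        (K_nonneg h b)
  | @hangR a b i ha hb h1 h2 =>
    have pb := K_pos (μ := μ) h b hb.fits.1
    cases i with
    | cen => exact MirS.hangR h h1 h2 pb (K_nonneg h b)
    | dist d =>
      have pa := (K_pos (μ := μ) h a ha.fits.1).mono h ha.fits.2.1 ha.fits.2.2
      exact GoodK.hangR h h1 h2 pa pb (K_nonneg h b)
    | bent p q =>
      have hl : p + q = len a := ha.fits.2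
      exact FQ.hangR h h1 h2 (by rw [add_comm q p, hl]; exact K_pos h a ha.fits.1) pb
        (K_nonneg h b)
  | @same e e' i hs _ h1 =>
    cases i with
    | cen => unfold Sem2 at h1 ⊢; rw [← hs.K_eq]; exact h1
    | dist d => unfold Sem2 at h1 ⊢; rw [← hs.K_eq, ← hs.len_eq]; exact h1
    | bent p q => unfold Sem2 at h1 ⊢; rw [← hs.K_eq]; exact h1

/-- the main inequality for the class `Fit` -/
theorem Fit.final {e : SP} (he : Fit e (.dist (len e))) (b : Bool) :
    1 ≤ ∑ x, if c x = b then ∑ y, μ x * μ y * K A μ e x y else 0 :=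
  GoodK.final h (he.sem h) (K_pos h e he.fits.1) (K_nonneg h e) b

end semantics

/-! ### Derived rules -/

/-- chains of tight parts are tight -/
theorem Fit.chain {a b : SP} (ha : Fit a (.dist (len a))) (hb : Fit b (.dist (len b))) :
    Fit (.ser a b) (.dist (len (.ser a b))) :=
  .serR ha (.bentL hb) (by simp only [len]; omega)

/-- balanced expressions are tight and may be bent everywhere -/
theorem Balanced.fit {e : SP} (h : Balanced e) :
    Fit e (.dist (len e)) ∧ ∀ p q, p + q = len e → Fit e (.bent p q) := by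
  induction h with
  | edge =>
    refine ⟨.edge, fun p q hpq => ?_⟩
    simp only [len] at hpq
    rcases Nat.eq_zero_or_pos p with hp | hp
    · obtain rfl : p = 0 := hp
      obtain rfl : q = 1 := by omega
      exact .bentR (e := .edge) .edge
    · obtain rfl : p = 1 := by omega
      obtain rfl : q = 0 := by omega
      exact .bentL (e := .edge) .edge
  | @ser a b _ _ h1 h2 =>
    refine ⟨Fit.chain h1.1 h2.1, fun p q hpq => ?_⟩
    simp only [len] at hpq
    rcases Nat.le_total (len a) p with hp | hp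
    · obtain ⟨p', rfl⟩ := Nat.exists_eq_add_of_le hp
      exact .bserR h1.1 (h2.2 p' q (by omega))
    · obtain ⟨q', rfl⟩ := Nat.exists_eq_add_of_le (show len b ≤ q by omega)
      exact .bserL (h1.2 p q' (by omega)) h2.1
  | @par a b _ _ hl h1 h2 =>
    have e1 : len (.par a b) = len a := by simp only [len]; omega
    refine ⟨?_, fun p q hpq => .bpar (h1.2 p q (by omega)) (h2.2 p q (by omega))⟩
    rw [e1]
    exact .par h1.1 (hl ▸ h2.1)
  | @load a b _ hb hl hp h1 h2 =>
    have h3 := len_pos b
    have e1 : len (.par a b) = 1 := by simp only [len]; omega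
    have t : Fit (.par a b) (.dist 1) := by
      refine .par (hl ▸ h1.1) (.fold (h2.2 ((len b + 1) / 2) ((len b - 1) / 2) (by omega)) ?_)
      omega
    have t' : Fit (.par a b) (.dist (len (.par a b))) := by rw [e1]; exact t
    refine ⟨t', fun p q hpq => ?_⟩
    rcases Nat.eq_zero_or_pos p with hp | hp
    · obtain rfl : p = 0 := hp
      obtain rfl : q = len (.par a b) := by omega
      exact .bentR t'
    · obtain rfl : p = len (.par a b) := by omega
      obtain rfl : q = 0 := by omega
      exact .bentL t'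
  | @hang a b _ _ h1 h2 => exact ⟨.hang h1.1 h2.1, fun p q hpq => .hang (h1.2 p q hpq) h2.1⟩
  | @hangR a b _ _ h1 h2 => exact ⟨.hangR h1.1 h2.1, fun p q hpq => .hangR (h1.2 p q hpq) h2.1⟩

/-- the index of `Adm` -/
def ixo : Option ℕ → Ix
  | none => .cen
  | some d => .dist d

/-- the class `Adm` is contained in the class `Fit` -/
theorem Adm.fit {e : SP} {o : Option ℕ} (h : Adm e o) : Fit e (ixo o) := by
  induction h with
  | @bal e d hb hd hp =>
    exact .fold (hb.fit.2 ((len e + d) / 2) ((len e - d) / 2) (by omega)) (.inl (by omega))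
  | par _ _ h1 h2 => exact .par h1 h2
  | @serR a b d _ hb h1 h2 h3 h4 =>
    exact .serR h4 (hb.fit.2 ((len b + d - len a) / 2) ((len a + len b - d) / 2) (by omega))
      (by omega)
  | @serL a b d ha _ h1 h2 h3 h4 =>
    exact .serL (ha.fit.2 ((len a + len b - d) / 2) ((len a + d - len b) / 2) (by omega)) h4
      (by omega)
  | chain _ _ h1 h2 => exact Fit.chain h1 h2
  | longR _ _ h1 h2 => exact .longR h1 h2
  | longL _ _ h1 h2 => exact .longL h1 h2
  | mirror _ _ _ _ _ hl h1 h2 h3 h4 h5 => exact .mirror h1 h2 h3 h4 h5 hl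
  | cmid _ _ hl h1 h2 => exact .cmid h1 h2 hl
  | csand _ _ _ hl h1 h2 h3 => exact .csand h1 h2 h3 hl
  | cpar _ _ h1 h2 => exact .cpar h1 h2
  | @ser2R a b b' d _ hb hb' h1 h2 h3 h4 h5 h6 =>
    exact .ser2R h6 (hb.fit.2 ((len b + d - len a) / 2) ((len a + len b - d) / 2) (by omega))
      (hb'.fit.2 (len a) d (by omega)) (by omega) (by omega)
  | @ser2L a a' b d ha ha' _ h1 h2 h3 h4 h5 h6 =>
    exact .ser2L (ha.fit.2 ((len a + len b - d) / 2) ((len a + d - len b) / 2) (by omega))
      (ha'.fit.2 d (len b) (by omega)) h6 (by omega) (by omega)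
  | hang _ _ h1 h2 => exact .hang h1 h2
  | hangR _ _ h1 h2 => exact .hangR h1 h2
  | same hs _ h1 => exact .same hs h1

end Vale.Agent.P050.SP
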