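import Vale.Agent.P050.R4.H153.FrDef

/-!
# P050, frames: an example

`K_{2,3}`, obtained by cloning the centre of a star with three edges, every edge replaced by
arbitrary tight parts of its length.
-/

namespace Vale.Agent.P050.SP

/-- a new edge at `a`, all vertices recorded -/
theorem Frame.pen_univ {V : Type} {L E : Multiset (V × ℕ × V)} {a : V} {d : ℕ}
    (h : Frame L {(Set.univ, E)}) (hd : 0 < d) :
    Frame ((Sum.inl a, d, Sum.inr ()) ::ₘ L.map (emap .inl))
      {(Set.univ, (Sum.inl a, d, Sum.inr ()) ::ₘ E.map (emap .inl))} := by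
  refine (h.pen (Set.mem_singleton _) (Set.mem_univ a) hd).weak ?_
  rintro r' rfl
  refine ⟨_, Or.inr ⟨Set.univ, E, Set.mem_singleton _, Set.mem_univ a, rfl⟩, ?_⟩
  have h1 : (Sum.inl '' (Set.univ : Set V) ∪ {Sum.inr ()} : Set (V ⊕ Unit)) = Set.univ := by
    ext x
    rcases x with x | x <;> simp
  rw [h1]
  exact .refl _

/-- one edge of a star -/
theorem star_der {V : Type} {u a b c : V} {d d' d'' : ℕ} (ha : u ≠ a) (hb : u ≠ b) (hc : u ≠ c)
    (hab : a ≠ b) (hac : a ≠ c) (hbc : b ≠ c) :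
    TDer (({u, a, b, c} : Set V), (u, d'', c) ::ₘ (u, d', b) ::ₘ {(u, d, a)})
      (({u, a} : Set V), {(u, d, a)}) := by
  have t1 : TDer (({u, a, b, c} : Set V), (u, d'', c) ::ₘ (u, d', b) ::ₘ {(u, d, a)})
      (({u, a, b, c} \ {c} : Set V), (u, d', b) ::ₘ {(u, d, a)}) := by
    refine .prune hc ?_
    intro p hp
    simp only [Multiset.mem_cons, Multiset.mem_singleton] at hp
    rcases hp with rfl | rfl
    · exact ⟨hc, hbc⟩
    · exact ⟨hc, hac⟩
  have t2 : TDer (({u, a, b, c} \ {c} : Set V), (u, d', b) ::ₘ {(u, d, a)})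
      ((({u, a, b, c} \ {c}) \ {b} : Set V), {(u, d, a)}) := by
    refine .prune hb ?_
    intro p hp
    rw [Multiset.mem_singleton] at hp
    subst hp
    exact ⟨hb, hab⟩
  have h1 : (({u, a, b, c} \ {c}) \ {b} : Set V) = {u, a} := by
    ext x
    simp only [Set.mem_sdiff, Set.mem_insert_iff, Set.mem_singleton_iff]
    constructor
    · rintro ⟨⟨h | h | h | h, h2⟩, h3⟩
      · exact .inl h
      · exact .inr h
      · exact absurd h h3
      · exact absurd h h2
    · rintro (rfl | rfl)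
      · exact ⟨⟨.inl rfl, hc⟩, hb⟩
      · exact ⟨⟨.inr (.inl rfl), hac⟩, hab⟩
  rw [h1] at t2
  exact t1.trans t2

/-- all edges of a star with three edges -/
theorem star_ders {V : Type} {u a b c : V} {d d' d'' : ℕ} (ha : u ≠ a) (hb : u ≠ b) (hc : u ≠ c)
    (hab : a ≠ b) (hac : a ≠ c) (hbc : b ≠ c) {v : V} {n : ℕ}
    (hv : (u, n, v) ∈ (u, d'', c) ::ₘ (u, d', b) ::ₘ ({(u, d, a)} : Multiset (V × ℕ × V))) :
    TDer (({u, a, b, c} : Set V), (u, d'', c) ::ₘ (u, d', b) ::ₘ {(u, d, a)})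
      (({u, v} : Set V), {(u, n, v)}) := by
  simp only [Multiset.mem_cons, Multiset.mem_singleton, Prod.mk.injEq, true_and] at hv
  rcases hv with ⟨rfl, rfl⟩ | ⟨rfl, rfl⟩ | ⟨rfl, rfl⟩
  · have h1 := star_der (d := n) (d' := d') (d'' := d) hc hb ha hbc.symm hac.symm hab.symm
    have h2 : ({u, v, b, a} : Set V) = {u, a, b, v} := by ext x; simp; tauto
    have h3 : (u, d, a) ::ₘ (u, d', b) ::ₘ ({(u, n, v)} : Multiset (V × ℕ × V)) =
        (u, n, v) ::ₘ (u, d', b) ::ₘ {(u, d, a)} := by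
      rw [← Multiset.cons_zero (u, n, v), ← Multiset.cons_zero (u, d, a),
        Multiset.cons_swap (u, d', b) (u, n, v), Multiset.cons_swap (u, d, a) (u, n, v),
        Multiset.cons_swap (u, d, a) (u, d', b)]
    rw [h2, h3] at h1
    exact h1
  · have h1 := star_der (d := n) (d' := d) (d'' := d'') hb ha hc hab.symm hbc hac
    have h2 : ({u, v, a, c} : Set V) = {u, a, v, c} := by ext x; simp; tauto
    have h3 : (u, d'', c) ::ₘ (u, d, a) ::ₘ ({(u, n, v)} : Multiset (V × ℕ × V)) =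
        (u, d'', c) ::ₘ (u, n, v) ::ₘ {(u, d, a)} := by
      rw [← Multiset.cons_zero (u, n, v), ← Multiset.cons_zero (u, d, a),
        Multiset.cons_swap (u, d, a) (u, n, v)]
    rw [h2, h3] at h1
    exact h1
  · exact star_der ha hb hc hab hac hbc

/-- the vertices of the star -/
abbrev V4 : Type := ((Unit ⊕ Unit) ⊕ Unit) ⊕ Unit

/-- the centre -/
abbrev cx : V4 := .inl (.inl (.inl ()))

/-- the first leaf -/
abbrev ca : V4 := .inl (.inl (.inr ()))

/-- the second leaf -/
abbrev cb : V4 := .inl (.inr ())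

/-- the third leaf -/
abbrev cc : V4 := .inr ()

/-- the edges of the star -/
abbrev sE (d d' d'' : ℕ) : Multiset (V4 × ℕ × V4) :=
  (cx, d'', cc) ::ₘ (cx, d', cb) ::ₘ {(cx, d, ca)}

theorem star_frame {d d' d'' : ℕ} (h : 0 < d) (h' : 0 < d') (h'' : 0 < d'') :
    Frame (sE d d' d'') {(Set.univ, sE d d' d'')} := by
  have h1 := ((Frame.point.pen_univ (a := ()) h).pen_univ (a := .inl ()) h').pen_univ
    (a := .inl (.inl ())) h''
  simpa [emap, sE] using h1

/-- the clone of the centre is the new vertex -/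
abbrev rho : V4 → V4 ⊕ Unit
  | .inl (.inl (.inl ())) => .inr ()
  | v => .inl v

/-- the edges of `K_{2,3}` -/
abbrev kE (d d' d'' : ℕ) : Multiset ((V4 ⊕ Unit) × ℕ × (V4 ⊕ Unit)) :=
  (sE d d' d'').map (emap .inl) + (sE d d' d'').map (emap rho)

theorem k23_frame {d d' d'' : ℕ} (h : 0 < d) (h' : 0 < d') (h'' : 0 < d'') :
    Frame (kE d d' d'') {r | ∃ p ∈ kE d d' d'', r = ({p.1, p.2.2}, {p})} := by
  have h1 := (star_frame h h' h'').clone (N := Unit) (g := fun _ => cx) (ρ := rho)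
    (Set.mem_singleton _) (fun p _ => ⟨Set.mem_univ _, Set.mem_univ _⟩)
    (fun n => rfl)
    (by
      rintro (((v | v) | v) | v) hv
      · exact absurd rfl (hv ())
      · rfl
      · rfl
      · rfl)
  refine h1.weak ?_
  rintro r' ⟨p, hp, rfl⟩
  rcases Multiset.mem_add.1 hp with hp | hp
  · refine ⟨_, Or.inl ⟨_, Set.mem_singleton _, rfl⟩, ?_⟩
    have hu : (Sum.inl '' (Set.univ : Set V4) : Set (V4 ⊕ Unit)) =
        {.inl cx, .inl ca, .inl cb, .inl cc} := by
      ext x
      rcases x with (((x | x) | x) | x) | x <;> simp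
    have hE : (sE d d' d'').map (emap (Sum.inl : V4 → V4 ⊕ Unit)) =
        (.inl cx, d'', .inl cc) ::ₘ (.inl cx, d', .inl cb) ::ₘ {(.inl cx, d, .inl ca)} := by
      simp [emap, sE]
    rw [hE] at hp
    have h2 : ∃ n v, p = (Sum.inl cx, n, v) := by
      simp only [Multiset.mem_cons, Multiset.mem_singleton] at hp
      rcases hp with rfl | rfl | rfl <;> exact ⟨_, _, rfl⟩
    obtain ⟨n, v, rfl⟩ := h2
    change TDer (Sum.inl '' (Set.univ : Set V4), (sE d d' d'').map (emap Sum.inl)) _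
    rw [hu, hE]
    exact star_ders (by simp) (by simp) (by simp) (by simp) (by simp) (by simp) hp
  · refine ⟨_, Or.inr ⟨Set.univ, 0, by simp, fun p _ => ⟨Set.mem_univ _, Set.mem_univ _⟩,
      fun p hp => absurd hp (Multiset.notMem_zero p), rfl⟩, ?_⟩
    have hu : (rho '' (Set.univ : Set V4) : Set (V4 ⊕ Unit)) =
        {.inr (), .inl ca, .inl cb, .inl cc} := by
      ext x
      constructor
      · rintro ⟨(((v | v) | v) | v), _, rfl⟩ <;> simp
      · rintro (rfl | rfl | rfl | rfl)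
        · exact ⟨cx, Set.mem_univ _, rfl⟩
        · exact ⟨ca, Set.mem_univ _, rfl⟩
        · exact ⟨cb, Set.mem_univ _, rfl⟩
        · exact ⟨cc, Set.mem_univ _, rfl⟩
    have hE : (sE d d' d'').map (emap rho) =
        (.inr (), d'', .inl cc) ::ₘ (.inr (), d', .inl cb) ::ₘ {(.inr (), d, .inl ca)} := by
      simp [emap, sE]
    rw [hE] at hp
    have h2 : ∃ n v, p = (Sum.inr (), n, v) := by
      simp only [Multiset.mem_cons, Multiset.mem_singleton] at hp
      rcases hp with rfl | rfl | rfl <;> exact ⟨_, _, rfl⟩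
    obtain ⟨n, v, rfl⟩ := h2
    change TDer (rho '' (Set.univ : Set V4), (sE d d' d'' + 0).map (emap rho)) _
    rw [add_zero, hu, hE]
    exact star_ders (by simp) (by simp) (by simp) (by simp) (by simp) (by simp) hp

/-- If all edges of the frame are recorded, they may be replaced by tight parts of their lengths. -/
theorem FrG.all {C : SP → ℕ → Prop} {V : Type} {H : SimpleGraph V} {L : Multiset (V × ℕ × V)}
    {D : V → V → ℕ → Prop} (h : FrG C H L D)
    (hL : ∀ p ∈ L, D p.1 p.2.2 p.2.1 ∧ p.1 ≠ p.2.2 ∧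
      ∃ e, simple e ∧ ¬ direct e ∧ len e = p.2.1 ∧ C e p.2.1) :
    ∃ (V' : Type) (H' : SimpleGraph V') (D' : V' → V' → ℕ → Prop), FrG C H' 0 D' := by
  induction hn : L.card generalizing V with
  | zero =>
    rw [Multiset.card_eq_zero] at hn
    subst hn
    exact ⟨V, H, D, h⟩
  | succ n ih =>
    obtain ⟨p, hp⟩ := Multiset.card_pos_iff_exists_mem.1 (show 0 < L.card by omega)
    obtain ⟨L', rfl⟩ := Multiset.exists_cons_of_mem hp
    obtain ⟨u, d, v⟩ := p
    obtain ⟨h1, h2, e, he1, he2, he3, he4⟩ := hL (u, d, v) (Multiset.mem_cons_self _ _)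
    change len e = d at he3
    subst he3
    refine ih (h.real h1 h2 he1 (fun h => he2 h.1) he4) ?_ ?_
    · intro q hq
      obtain ⟨p, hp, rfl⟩ := Multiset.mem_map.1 hq
      obtain ⟨g1, g2, g3⟩ := hL p (Multiset.mem_cons_of_mem hp)
      exact ⟨g1, fun e => g2 (Sum.inl_injective e), g3⟩
    · rw [Multiset.card_map]
      rw [Multiset.card_cons] at hn
      omega

/-- `K_{2,3}` with all edges replaced by tight parts. -/
theorem k23 {C : SP → ℕ → Prop} {e₁ e₂ e₃ : SP} (h1 : simple e₁) (h2 : simple e₂)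
    (h3 : simple e₃) (g1 : ¬ direct e₁) (g2 : ¬ direct e₂) (g3 : ¬ direct e₃)
    (l1 : 0 < len e₁) (l2 : 0 < len e₂) (l3 : 0 < len e₃) (k1 : C e₁ (len e₁))
    (k2 : C e₂ (len e₂)) (k3 : C e₃ (len e₃)) :
    ∃ (V' : Type) (H' : SimpleGraph V') (D' : V' → V' → ℕ → Prop), FrG C H' 0 D' := by
  refine (FrG.frame (k23_frame l1 l2 l3)).all ?_
  intro p hp
  refine ⟨⟨p, hp, rfl⟩, ?_, ?_⟩
  · simp only [kE, sE, emap, Multiset.map_cons, Multiset.map_singleton, Multiset.mem_add,
      Multiset.mem_cons, Multiset.mem_singleton] at hp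
    rcases hp with (rfl | rfl | rfl) | (rfl | rfl | rfl) <;> simp
  · simp only [kE, sE, emap, Multiset.map_cons, Multiset.map_singleton, Multiset.mem_add,
      Multiset.mem_cons, Multiset.mem_singleton] at hp
    rcases hp with (rfl | rfl | rfl) | (rfl | rfl | rfl)
    · exact ⟨e₃, h3, g3, rfl, k3⟩
    · exact ⟨e₂, h2, g2, rfl, k2⟩
    · exact ⟨e₁, h1, g1, rfl, k1⟩
    · exact ⟨e₃, h3, g3, rfl, k3⟩
    · exact ⟨e₂, h2, g2, rfl, k2⟩
    · exact ⟨e₁, h1, g1, rfl, k1⟩

/-- the star with the centre `x` and the leaves `a`, `b`, `c` -/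
abbrev star3 {V : Type} (x a b c : V) (d d' d'' : ℕ) : Multiset (V × ℕ × V) :=
  (x, d'', c) ::ₘ (x, d', b) ::ₘ {(x, d, a)}

/-- the star and all edges are recorded -/
abbrev recs {V : Type} (x a b c : V) (d d' d'' : ℕ) (L : Multiset (V × ℕ × V)) :
    Set (Set V × Multiset (V × ℕ × V)) :=
  {r | r = ({x, a, b, c}, star3 x a b c d d' d'') ∨ ∃ p ∈ L, r = ({p.1, p.2.2}, {p})}

/-- the centre of a recorded star is cloned -/
theorem clone_star {V : Type} {L : Multiset (V × ℕ × V)} {x a b c : V} {d d' d'' : ℕ}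
    (ha : x ≠ a) (hb : x ≠ b) (hc : x ≠ c) (hab : a ≠ b) (hac : a ≠ c) (hbc : b ≠ c)
    (h : Frame L (recs x a b c d d' d'' L)) :
    Frame (L.map (emap .inl) + star3 (.inr ()) (.inl a) (.inl b) (.inl c) d d' d'')
      (recs (V := V ⊕ Unit) (.inl x) (.inl a) (.inl b) (.inl c) d d' d''
        (L.map (emap .inl) + star3 (.inr ()) (.inl a) (.inl b) (.inl c) d d' d'')) := by
  classical
  let ρ : V → V ⊕ Unit := fun v => if v = x then .inr () else .inl v
  have hx : ρ x = .inr () := if_pos rfl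
  have hρ : ∀ v, v ≠ x → ρ v = .inl v := fun v hv => if_neg hv
  have hE : (star3 x a b c d d' d'').map (emap ρ) =
      star3 (.inr ()) (.inl a) (.inl b) (.inl c) d d' d'' := by
    simp only [star3, Multiset.map_cons, Multiset.map_singleton, emap, hx, hρ a ha.symm,
      hρ b hb.symm, hρ c hc.symm]
  have h1 := h.clone (N := Unit) (g := fun _ => x) (ρ := ρ) (U := {x, a, b, c})
    (E := star3 x a b c d d' d'') (Or.inl rfl)
    (by
      intro p hp
      simp only [star3, Multiset.mem_cons, Multiset.mem_singleton] at hp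
      rcases hp with rfl | rfl | rfl <;> simp)
    (fun _ => hx) (fun v hv => hρ v fun e => hv () e.symm)
  rw [hE] at h1
  refine h1.weak ?_
  rintro r' (rfl | ⟨p, hp, rfl⟩)
  · refine ⟨_, Or.inl ⟨_, Or.inl rfl, rfl⟩, ?_⟩
    have h2 : tmap (Sum.inl : V → V ⊕ Unit) (({x, a, b, c} : Set V), star3 x a b c d d' d'') =
        ({.inl x, .inl a, .inl b, .inl c}, star3 (.inl x) (.inl a) (.inl b) (.inl c) d d' d'') := by
      simp only [tmap, star3, Multiset.map_cons, Multiset.map_singleton, emap, Set.image_insert_eq,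
        Set.image_singleton]
    rw [h2]
    exact .refl _
  · rcases Multiset.mem_add.1 hp with hp | hp
    · obtain ⟨q, hq, rfl⟩ := Multiset.mem_map.1 hp
      refine ⟨_, Or.inl ⟨_, Or.inr ⟨q, hq, rfl⟩, rfl⟩, ?_⟩
      have h2 : tmap (Sum.inl : V → V ⊕ Unit) (({q.1, q.2.2} : Set V), {q}) =
          ({.inl q.1, .inl q.2.2}, {emap .inl q}) := by
        simp only [tmap, Multiset.map_singleton, Set.image_insert_eq, Set.image_singleton]
      rw [h2]
      exact .refl _
    · refine ⟨_, Or.inr ⟨{x, a, b, c}, 0, ?_, ?_, fun p hp => absurd hp (Multiset.notMem_zero p),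
        rfl⟩, ?_⟩
      · rw [add_zero]; exact Or.inl rfl
      · intro p hp
        simp only [star3, Multiset.mem_cons, Multiset.mem_singleton] at hp
        rcases hp with rfl | rfl | rfl <;> simp
      · have h2 : tmap ρ (({x, a, b, c} : Set V), star3 x a b c d d' d'' + 0) =
            ({.inr (), .inl a, .inl b, .inl c},
              star3 (.inr ()) (.inl a) (.inl b) (.inl c) d d' d'') := by
          simp only [tmap, add_zero]
          rw [hE]
          simp only [Set.image_insert_eq, Set.image_singleton, hx, hρ a ha.symm, hρ b hb.symm,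
            hρ c hc.symm]
        rw [h2]
        have h3 : ∃ n v, p = (Sum.inr (), n, v) := by
          simp only [star3, Multiset.mem_cons, Multiset.mem_singleton] at hp
          rcases hp with rfl | rfl | rfl <;> exact ⟨_, _, rfl⟩
        obtain ⟨n, v, rfl⟩ := h3
        exact star_ders (by simp) (by simp) (by simp) (by simpa using hab) (by simpa using hac)
          (by simpa using hbc) hp

/-- the star with three edges, all edges recorded -/
theorem star_recs {d d' d'' : ℕ} (h : 0 < d) (h' : 0 < d') (h'' : 0 < d'') :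
    Frame (star3 cx ca cb cc d d' d'')
      (recs cx ca cb cc d d' d'' (star3 cx ca cb cc d d' d'')) := by
  refine (star_frame h h' h'').weak ?_
  have hu : (Set.univ : Set V4) = {cx, ca, cb, cc} := by
    ext x
    rcases x with ((x | x) | x) | x <;> simp
  rintro r' (rfl | ⟨p, hp, rfl⟩)
  · refine ⟨_, Set.mem_singleton _, ?_⟩
    rw [hu]
    exact .refl _
  · refine ⟨_, Set.mem_singleton _, ?_⟩
    rw [hu]
    have h3 : ∃ n v, p = (cx, n, v) := by
      simp only [star3, Multiset.mem_cons, Multiset.mem_singleton] at hp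
      rcases hp with rfl | rfl | rfl <;> exact ⟨_, _, rfl⟩
    obtain ⟨n, v, rfl⟩ := h3
    exact star_ders (by simp) (by simp) (by simp) (by simp) (by simp) (by simp) hp

/-- `K_{3,3}` is a frame: the edges at the leaf `a`, `b`, `c` have the lengths `d`, `d'`, `d''`. -/
theorem k33_frame {d d' d'' : ℕ} (h : 0 < d) (h' : 0 < d') (h'' : 0 < d'') :
    Frame (V := (V4 ⊕ Unit) ⊕ Unit)
      (star3 (.inl (.inl cx)) (.inl (.inl ca)) (.inl (.inl cb)) (.inl (.inl cc)) d d' d'' +
        star3 (.inl (.inr ())) (.inl (.inl ca)) (.inl (.inl cb)) (.inl (.inl cc)) d d' d'' +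
        star3 (.inr ()) (.inl (.inl ca)) (.inl (.inl cb)) (.inl (.inl cc)) d d' d'')
      (recs (.inl (.inl cx)) (.inl (.inl ca)) (.inl (.inl cb)) (.inl (.inl cc)) d d' d''
        (star3 (.inl (.inl cx)) (.inl (.inl ca)) (.inl (.inl cb)) (.inl (.inl cc)) d d' d'' +
        star3 (.inl (.inr ())) (.inl (.inl ca)) (.inl (.inl cb)) (.inl (.inl cc)) d d' d'' +
        star3 (.inr ()) (.inl (.inl ca)) (.inl (.inl cb)) (.inl (.inl cc)) d d' d'')) := by
  have h1 := clone_star (by simp) (by simp) (by simp) (by simp) (by simp) (by simp)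
    (star_recs h h' h'')
  have h2 := clone_star (by simp) (by simp) (by simp) (by simp) (by simp) (by simp) h1
  simpa only [star3, Multiset.map_add, Multiset.map_cons, Multiset.map_singleton, emap] using h2

/-- `K_{3,3}` with its nine edges replaced by tight parts of their lengths: `e i j` for the edge
from the centre `i` to the leaf `j`. -/
theorem k33 {C : SP → ℕ → Prop} {e : Fin 3 → Fin 3 → SP} {l : Fin 3 → ℕ}
    (h1 : ∀ i j, simple (e i j)) (h2 : ∀ i j, ¬ direct (e i j)) (h3 : ∀ i j, len (e i j) = l j)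
    (h4 : ∀ j, 0 < l j) (h5 : ∀ i j, C (e i j) (l j)) :
    ∃ (V' : Type) (H' : SimpleGraph V') (D' : V' → V' → ℕ → Prop), FrG C H' 0 D' := by
  refine (FrG.frame (C := C) (k33_frame (h4 0) (h4 1) (h4 2))).all
    fun p hp => ⟨Or.inr ⟨p, hp, rfl⟩, ?_, ?_⟩
  · simp only [star3, Multiset.mem_add, Multiset.mem_cons, Multiset.mem_singleton] at hp
    rcases hp with ((rfl | rfl | rfl) | (rfl | rfl | rfl)) | (rfl | rfl | rfl) <;> simp
  · simp only [star3, Multiset.mem_add, Multiset.mem_cons, Multiset.mem_singleton] at hp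
    rcases hp with ((rfl | rfl | rfl) | (rfl | rfl | rfl)) | (rfl | rfl | rfl)
    · exact ⟨e 0 2, h1 _ _, h2 _ _, h3 _ _, h5 _ _⟩
    · exact ⟨e 0 1, h1 _ _, h2 _ _, h3 _ _, h5 _ _⟩
    · exact ⟨e 0 0, h1 _ _, h2 _ _, h3 _ _, h5 _ _⟩
    · exact ⟨e 1 2, h1 _ _, h2 _ _, h3 _ _, h5 _ _⟩
    · exact ⟨e 1 1, h1 _ _, h2 _ _, h3 _ _, h5 _ _⟩
    · exact ⟨e 1 0, h1 _ _, h2 _ _, h3 _ _, h5 _ _⟩
    · exact ⟨e 2 2, h1 _ _, h2 _ _, h3 _ _, h5 _ _⟩
    · exact ⟨e 2 1, h1 _ _, h2 _ _, h3 _ _, h5 _ _⟩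
    · exact ⟨e 2 0, h1 _ _, h2 _ _, h3 _ _, h5 _ _⟩

end Vale.Agent.P050.SP
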