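import Vale.Agent.P050.R4.H859.CopyStep
import Vale.Agent.P050.R4.H345.Adm

/-!
# P050, mirrored frames: mirror images of balanced sets
-/

namespace Vale.Agent.P050.SP

open Finset Matrix Vale.Agent.P050.Ears Vale.Agent.P050.Lev Vale.Agent.P050.Mirror

variable {S : Type} [Fintype S] [DecidableEq S] {A : Matrix S S ℝ} {μ : S → ℝ} {c : S → Bool}
variable {V N : Type}

/-- the product of the kernels between the vertices and their copies -/
noncomputable def cenB (A : Matrix S S ℝ) (μ : S → ℝ) (Z : Multiset (N × SP)) (ω ω' : N → S) :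
    ℝ := (Z.map fun q => K A μ q.2 (ω q.1) (ω' q.1)).prod

variable {g : N → V} {ρ : V → V ⊕ N} {Z : Multiset (N × SP)}

theorem partE_cenB (z : V ⊕ N → S) : partE A μ (Z.map fun q => (.inl (g q.1), q.2, .inr q.1)) z =
    cenB A μ Z (fun n => z (.inl (g n))) fun n => z (.inr n) := by
  simp [partE, cenB, Multiset.map_map, Function.comp_def]

theorem cenB_nonneg (h : Rev A μ c) (Z : Multiset (N × SP)) (ω ω' : N → S) :
    0 ≤ cenB A μ Z ω ω' := by
  unfold cenB
  refine Multiset.prod_nonneg fun x hx => ?_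
  obtain ⟨p, _, rfl⟩ := Multiset.mem_map.1 hx
  exact K_nonneg h _ _ _

theorem cenB_cons (q : N × SP) (Z : Multiset (N × SP)) (ω ω' : N → S) :
    cenB A μ (q ::ₘ Z) ω ω' = K A μ q.2 (ω q.1) (ω' q.1) * cenB A μ Z ω ω' := by simp [cenB]

theorem cenB_pos (hZ : ∀ q ∈ Z, MirS μ c (K A μ q.2)) (ω : N → S) : 0 < cenB A μ Z ω ω := by
  induction Z using Multiset.induction with
  | empty => simp [cenB]
  | cons q Z ih =>
    rw [cenB_cons]
    exact mul_pos ((hZ q (Multiset.mem_cons_self _ _)).1.2.1 _)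
      (ih fun q' hq' => hZ q' (Multiset.mem_cons_of_mem hq'))

/-- the mirror inequality for several centred kernels -/
theorem cenB_MI [Fintype N] [DecidableEq N] (h : Rev A μ c) {m : (N → S) → ℝ}
    (hm : ∀ ω, 0 ≤ m ω) (s : N → Bool)
    (hv : ∀ n x, (∑ ω, if ω n = x then m ω else 0) = if c x = s n then μ x else 0)
    (hZ : ∀ q ∈ Z, MirS μ c (K A μ q.2)) : MI m (cenB A μ Z) := by
  induction Z using Multiset.induction with
  | empty =>
    have e : cenB A μ (0 : Multiset (N × SP)) = fun _ _ => 1 := by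
      funext ω ω'
      simp [cenB]
    rw [e]
    exact MI_one m
  | cons q Z ih =>
    have hZ' : ∀ q ∈ Z, MirS μ c (K A μ q.2) := fun q' hq' =>
      hZ q' (Multiset.mem_cons_of_mem hq')
    have h1 := (hZ q (Multiset.mem_cons_self _ _)).1.2.2 (s q.1) (N → S) m (fun ω => ω q.1)
      (cenB A μ Z) hm (hv q.1) (fun _ _ => cenB_nonneg h _ _ _) (fun ω _ => cenB_pos hZ' ω)
      (ih hZ')
    have e : cenB A μ (q ::ₘ Z) = fun ω ω' => cenB A μ Z ω ω' * K A μ q.2 (ω q.1) (ω' q.1) := by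
      funext ω ω'
      rw [cenB_cons, mul_comm]
    rw [e]
    exact h1

variable [Fintype V] [DecidableEq V] {side : V → Bool} {P : (V → S) → ℝ} {U : Set V}
variable [Fintype N] [DecidableEq N] {w₁ e : (V → S) → ℝ}

theorem mus_extend (hi : Function.Injective g) {z : V → S} {y : N → S}
    (hz : mus side μ c z ≠ 0) (hy : mus (fun n => side (g n)) μ c y ≠ 0) :
    mus side μ c (Function.extend g y z) ≠ 0 := by
  intro h0
  unfold mus at h0
  obtain ⟨v, _, hv⟩ := Finset.prod_eq_zero_iff.1 h0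
  by_cases hn : ∃ n, g n = v
  · obtain ⟨n, rfl⟩ := hn
    rw [hi.extend_apply] at hv
    exact hy (Finset.prod_eq_zero (mem_univ n) hv)
  · push Not at hn
    rw [ext_off z y hn] at hv
    exact hz (Finset.prod_eq_zero (mem_univ v) hv)

/-- the weight of the mirror image -/
noncomputable def mirBW (A : Matrix S S ℝ) (μ : S → ℝ) (g : N → V) (ρ : V → V ⊕ N)
    (w₁ : (V → S) → ℝ) (Z : Multiset (N × SP)) (z : V ⊕ N → S) : ℝ :=
  w₁ (fun v => z (ρ v)) * cenB A μ Z (fun n => z (.inl (g n))) fun n => z (.inr n)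

theorem mirBW_zw (hg : ∀ n, ρ (g n) = .inr n) (hρ : ∀ v, (∀ n, g n ≠ v) → ρ v = .inl v)
    (z : V → S) : zwG μ c (fun n => side (g n)) (mirBW A μ g ρ w₁ Z) z =
      ∑ y : N → S, mus (fun n => side (g n)) μ c y *
        (w₁ (Function.extend g y z) * cenB A μ Z (fun n => z (g n)) y) := by
  unfold zwG mirBW
  refine Finset.sum_congr rfl fun y _ => ?_
  beta_reduce
  rw [clone_extend hg hρ]
  rfl

/-- points of positive probability have positive weight -/
theorem BalW.ne (hP : ∀ z, 0 ≤ P z) {w : (V → S) → ℝ} (hw : Dep U w)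
    (hB : BalW μ c side P U w) {z : V → S} (hz : P z ≠ 0) : w z ≠ 0 := by
  classical
  obtain ⟨f, f0, fd, fm, fs, fb⟩ := hB
  intro h8
  have h9 := fm (fun z => if w z = 0 then 1 else 0) fun z z' hz => by
    beta_reduce
    rw [hw z z' hz]
  have h10 : ∑ z, mus side μ c z * (f z * (if w z = 0 then (1 : ℝ) else 0)) = 0 := by
    refine Finset.sum_eq_zero fun z _ => ?_
    split_ifs with h11
    · by_contra h12
      refine fs z (fun h13 => h12 ?_) h11
      rw [mul_one, h13]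
    · ring
  rw [h10] at h9
  have h4 := (Finset.sum_eq_zero_iff_of_nonneg fun z' _ => mul_nonneg (hP z')
    (by split_ifs <;> norm_num)).1 h9 z (mem_univ z)
  rw [if_pos h8, mul_one] at h4
  exact hz h4

theorem mirB_ne (h : Rev A μ c) (hg : ∀ n, ρ (g n) = .inr n)
    (hρ : ∀ v, (∀ n, g n ≠ v) → ρ v = .inl v) (hP : ∀ z, 0 ≤ P z)
    (hmu : ∀ z, P z ≠ 0 → mus side μ c z ≠ 0) (hB : BalW μ c side P U fun z => w₁ z * e z)
    (w0 : ∀ z, 0 ≤ w₁ z) (hw : Dep U w₁) (he : Dep U e)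
    (hZ : ∀ q ∈ Z, MirS μ c (K A μ q.2)) (z : V → S) (hz : P z ≠ 0) :
    zwG μ c (fun n => side (g n)) (mirBW A μ g ρ w₁ Z) z ≠ 0 := by
  rw [mirBW_zw hg hρ]
  have nn : ∀ y ∈ (univ : Finset (N → S)), 0 ≤ mus (fun n => side (g n)) μ c y *
      (w₁ (Function.extend g y z) * cenB A μ Z (fun n => z (g n)) y) := fun y _ =>
    mul_nonneg (mus_nonneg h _ _) (mul_nonneg (w0 _) (cenB_nonneg h _ _ _))
  refine (Finset.sum_pos' nn
    ⟨fun n => z (g n), mem_univ _, mul_pos ?_ (mul_pos ?_ (cenB_pos hZ _))⟩).ne'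
  · refine Finset.prod_pos fun n _ => ?_
    rw [if_pos (mus_side (hmu z hz) (g n))]
    exact h.pos _
  · have e1 : Function.extend g (fun n => z (g n)) z = z := by
      funext v
      by_cases hv : ∃ n, g n = v
      · obtain ⟨n, rfl⟩ := hv
        rw [(clone_inj hg).extend_apply]
      · rw [Function.extend_apply' _ _ _ hv]
    rw [e1]
    have h1 := hB.ne hP (fun z z' hz => by beta_reduce; rw [hw z z' hz, he z z' hz]) hz
    exact lt_of_le_of_ne (w0 z) (left_ne_zero_of_mul h1).symm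

/-- the gain of a mirror image of a balanced set -/
theorem mirB_gain (h : Rev A μ c) (hg : ∀ n, ρ (g n) = .inr n)
    (hρ : ∀ v, (∀ n, g n ≠ v) → ρ v = .inl v) (hgU : ∀ n, g n ∈ U)
    (hs : ∑ z, P z = 1) (hB : BalW μ c side P U fun z => w₁ z * e z)
    (w0 : ∀ z, 0 ≤ w₁ z) (e0 : ∀ z, 0 ≤ e z) (hw : Dep U w₁) (he : DepK g U e)
    (hm : ∑ z, mus side μ c z * e z ≤ 1) (h1 : ∀ n, MargT A μ c side P ({g n}, 0))
    (hZ : ∀ q ∈ Z, MirS μ c (K A μ q.2)) :
    0 ≤ ∑ z, P z * Real.log (zwG μ c (fun n => side (g n)) (mirBW A μ g ρ w₁ Z) z) := by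
  have hi := clone_inj hg
  obtain ⟨f, f0, fd, fm, fs, fb⟩ := hB
  have ag : ∀ (θ : V → S) (ω : N → S) (n : N), Function.extend g ω θ (g n) = ω n :=
    fun θ ω n => hi.extend_apply _ _ _
  have aa : ∀ (θ : V → S) (ω ω' : N → S),
      Function.extend g ω' (Function.extend g ω θ) = Function.extend g ω' θ := by
    intro θ ω ω'
    funext v
    by_cases hv : ∃ n, g n = v
    · obtain ⟨n, rfl⟩ := hv
      rw [hi.extend_apply, hi.extend_apply]
    · rw [Function.extend_apply' _ _ _ hv, Function.extend_apply' _ _ _ hv,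
        Function.extend_apply' _ _ _ hv]
  have ee : ∀ (θ : V → S) (ω : N → S), e (Function.extend g ω θ) = e θ := fun θ ω =>
    he _ _ fun v _ hn => ext_off θ ω hn
  set sN : N → Bool := fun n => side (g n) with hsN
  set W : (V → S) → (N → S) → ℝ := fun θ ω =>
    mus side μ c θ * (mus sN μ c ω * f (Function.extend g ω θ)) with hW
  set F : (V → S) → (N → S) → ℝ := fun θ ω =>
    mus sN μ c ω * w₁ (Function.extend g ω θ) with hF
  have W0 : ∀ θ ω, 0 ≤ W θ ω := fun θ ω =>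
    mul_nonneg (mus_nonneg h _ _) (mul_nonneg (mus_nonneg h _ _) (f0 _))
  have F0 : ∀ θ ω, 0 ≤ F θ ω := fun θ ω => mul_nonneg (mus_nonneg h _ _) (w0 _)
  -- resampling
  have f1 : ∀ Φ : (V → S) → ℝ, ∑ θ, ∑ ω, W θ ω * Φ (Function.extend g ω θ) =
      ∑ z, mus side μ c z * (f z * Φ z) := by
    intro Φ
    rw [resample h side hi fun z => f z * Φ z]
    refine Finset.sum_congr rfl fun z _ => ?_
    rw [Finset.mul_sum]
    exact Finset.sum_congr rfl fun y _ => by simp only [hW]; ring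
  have f2 : ∀ Φ : (V → S) → ℝ, Dep U Φ →
      ∑ θ, ∑ ω, W θ ω * Φ (Function.extend g ω θ) = ∑ z, P z * Φ z := by
    intro Φ hΦ
    rw [f1, fm Φ hΦ]
  -- positivity
  have WP : ∀ θ ω, 0 < W θ ω → 0 < mus side μ c θ ∧ 0 < mus sN μ c ω ∧
      0 < f (Function.extend g ω θ) ∧ 0 < w₁ (Function.extend g ω θ) ∧ 0 < e θ := by
    intro θ ω hω
    have n1 : mus side μ c θ ≠ 0 := fun h0 => by simp [hW, h0] at hω
    have n2 : mus sN μ c ω ≠ 0 := fun h0 => by simp [hW, h0] at hω
    have n3 : f (Function.extend g ω θ) ≠ 0 := fun h0 => by simp [hW, h0] at hω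
    have n4 := fs (Function.extend g ω θ) (mul_ne_zero (mus_extend hi n1 n2) n3)
    beta_reduce at n4
    rw [ee] at n4
    exact ⟨lt_of_le_of_ne (mus_nonneg h _ _) n1.symm, lt_of_le_of_ne (mus_nonneg h _ _) n2.symm,
      lt_of_le_of_ne (f0 _) n3.symm, lt_of_le_of_ne (w0 _) (left_ne_zero_of_mul n4).symm,
      lt_of_le_of_ne (e0 _) (right_ne_zero_of_mul n4).symm⟩
  have WF : ∀ θ ω, 0 < W θ ω → 0 < F θ ω := fun θ ω hω =>
    mul_pos (WP θ ω hω).2.1 (WP θ ω hω).2.2.2.1
  -- the law of a mirrored vertex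
  have hv : ∀ n x, (∑ ω : N → S, if ω n = x then ∑ θ, W θ ω else 0) =
      if c x = sN n then μ x else 0 := by
    intro n x
    have h2 : (∑ ω : N → S, if ω n = x then ∑ θ, W θ ω else 0) =
        ∑ θ, ∑ ω, W θ ω * (fun z : V → S => if z (g n) = x then (1 : ℝ) else 0)
          (Function.extend g ω θ) := by
      rw [Finset.sum_comm]
      refine Finset.sum_congr rfl fun ω _ => ?_
      simp only [ag]
      split_ifs <;> simp
    rw [h2, f2 (fun z : V → S => if z (g n) = x then (1 : ℝ) else 0) fun z z' hz => by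
        beta_reduce
        rw [hz _ (hgU n)],
      h1 n (fun z => if z (g n) = x then (1 : ℝ) else 0) fun z z' hz => by
        rw [hz _ (Set.mem_singleton _)]]
    have h3 : ∀ z : V → S, mus side μ c z * kapE A μ (({g n}, 0) :
        Set V × Multiset (V × ℕ × V)).2 z * (if z (g n) = x then (1 : ℝ) else 0) =
        mus side μ c z * (if z (g n) = x then (1 : ℝ) else 0) := by
      intro z
      rw [kapE_zero, mul_one]
    simp only [h3]
    rw [resample_one h side (g n) fun z => if z (g n) = x then (1 : ℝ) else 0]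
    have h4 : ∀ z : V → S, ∑ x', (if c x' = side (g n) then μ x' else 0) *
        (if Function.update z (g n) x' (g n) = x then (1 : ℝ) else 0) =
        if c x = sN n then μ x else 0 := by
      intro z
      simp only [Function.update_self, mul_ite, mul_one, mul_zero, Finset.sum_ite_eq',
        Finset.mem_univ, if_true, hsN]
    simp only [h4]
    rw [← Finset.sum_mul, mus_sum h, one_mul]
  have key := cenB_MI (Z := Z) h (m := fun ω => ∑ θ, W θ ω)
    (fun ω => Finset.sum_nonneg fun θ _ => W0 θ ω) sN hv hZ (V → S) W F W0 (fun _ => rfl) F0 WF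
  -- the right side
  have hR : ∑ θ, ∑ ω, W θ ω * Real.log (∑ ω', cenB A μ Z ω ω' * F θ ω') =
      ∑ z, P z * Real.log (zwG μ c sN (mirBW A μ g ρ w₁ Z) z) := by
    rw [← f2 (fun z => Real.log (zwG μ c sN (mirBW A μ g ρ w₁ Z) z)) ?_]
    · refine Finset.sum_congr rfl fun θ _ => Finset.sum_congr rfl fun ω _ => ?_
      rw [mirBW_zw hg hρ]
      simp only [ag, aa, hF]
      congr 2
      exact Finset.sum_congr rfl fun ω' _ => by ring
    · intro z z' hz
      beta_reduce
      rw [mirBW_zw hg hρ, mirBW_zw hg hρ]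
      congr 1
      refine Finset.sum_congr rfl fun y _ => ?_
      have e1 : (fun n => z (g n)) = fun n => z' (g n) := funext fun n => hz _ (hgU n)
      rw [e1, ext_dep hi hw (fun v hv _ => hz v hv) y]
  rw [hR] at key
  refine le_trans ?_ key
  -- the left side
  set zc : (V → S) → ℝ := fun θ => ∑ ω, mus sN μ c ω * f (Function.extend g ω θ) with hzc
  have zc0 : ∀ θ, 0 ≤ zc θ := fun θ => Finset.sum_nonneg fun ω _ =>
    mul_nonneg (mus_nonneg h _ _) (f0 _)
  have sW : ∀ θ, ∑ ω, W θ ω = mus side μ c θ * zc θ := fun θ => by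
    simp only [hW, hzc, Finset.mul_sum]
  have hL : ∑ θ, ∑ ω, W θ ω * (Real.log (F θ ω) - Real.log (W θ ω) +
      Real.log (∑ ω', W θ ω')) =
      ∑ θ, ∑ ω, W θ ω * (fun z => Real.log (w₁ z * e z) - Real.log (f z))
        (Function.extend g ω θ) +
      ∑ θ, mus side μ c θ * (zc θ * (Real.log (zc θ) - Real.log (e θ))) := by
    rw [← Finset.sum_add_distrib]
    refine Finset.sum_congr rfl fun θ _ => ?_
    rw [← mul_assoc, ← sW, Finset.sum_mul, ← Finset.sum_add_distrib]
    refine Finset.sum_congr rfl fun ω _ => ?_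
    rcases (W0 θ ω).eq_or_lt with h0 | h0
    · rw [← h0]; ring
    · obtain ⟨p1, p2, p3, p4, p5⟩ := WP θ ω h0
      have p6 : 0 < zc θ := Finset.sum_pos' (fun ω _ => mul_nonneg (mus_nonneg h _ _)
        (f0 _)) ⟨ω, mem_univ _, mul_pos p2 p3⟩
      rw [sW, Real.log_mul p1.ne' p6.ne']
      beta_reduce
      rw [ee, Real.log_mul p4.ne' p5.ne']
      simp only [hF, hW]
      rw [Real.log_mul p2.ne' p4.ne', Real.log_mul p1.ne' (mul_pos p2 p3).ne',
        Real.log_mul p2.ne' p3.ne']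
      ring
  rw [hL, f1 fun z => Real.log (w₁ z * e z) - Real.log (f z)]
  refine add_nonneg fb ?_
  have h2 := f2 (fun _ => 1) fun _ _ _ => rfl
  simp only [mul_one, hs, sW] at h2
  have h3 : 0 ≤ ∑ θ, mus side μ c θ * (zc θ - e θ) := by
    simp only [mul_sub, Finset.sum_sub_distrib]
    rw [h2]
    linarith
  refine h3.trans (Finset.sum_le_sum fun θ _ => ?_)
  rcases (mus_nonneg h side θ).eq_or_lt with h4 | h4
  · rw [← h4, zero_mul, zero_mul]
  · refine mul_le_mul_of_nonneg_left (sub_le_mul_log_sub (zc0 θ) (e0 θ) fun hz => ?_) h4.le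
    obtain ⟨ω, _, hω⟩ := Finset.exists_ne_zero_of_sum_ne_zero hz
    have h5 : 0 < W θ ω := lt_of_le_of_ne (W0 θ ω) (mul_ne_zero h4.ne' hω).symm
    exact (WP θ ω h5).2.2.2.2.ne'

/-- **Mirror images.** A balanced set `U` with the weight `w₁ * e` is mirrored. -/
theorem LawW.mirB (h : Rev A μ c) (hg : ∀ n, ρ (g n) = .inr n)
    (hρ : ∀ v, (∀ n, g n ≠ v) → ρ v = .inl v) {W : (V → S) → ℝ} (hW : ∀ z, 0 ≤ W z)
    (hP : LawW W side μ c P) (hgU : ∀ n, g n ∈ U)
    (hB : BalW μ c side P U fun z => w₁ z * e z)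
    (w0 : ∀ z, 0 ≤ w₁ z) (e0 : ∀ z, 0 ≤ e z) (hw : Dep U w₁) (he : DepK g U e)
    (hm : ∑ z, mus side μ c z * e z ≤ 1) (h1 : ∀ n, MargT A μ c side P ({g n}, 0))
    (hZ : ∀ q ∈ Z, MirS μ c (K A μ q.2)) :
    (∀ z, P z ≠ 0 → zwG μ c (fun n => side (g n)) (mirBW A μ g ρ w₁ Z) z ≠ 0) ∧
    LawW (fun z => W (fun v => z (.inl v)) * mirBW A μ g ρ w₁ Z z)
      (Sum.elim side fun n => side (g n)) μ c
      (extG μ c (fun n => side (g n)) (mirBW A μ g ρ w₁ Z) P) := by
  have hmu : ∀ z, P z ≠ 0 → mus side μ c z ≠ 0 := fun z hz h0 => by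
    have h2 := hP.supp z (lt_of_le_of_ne (hP.nonneg z) hz.symm)
    rw [h0, zero_mul] at h2
    exact lt_irrefl _ h2
  have hZ' := mirB_ne (Z := Z) h hg hρ hP.nonneg hmu hB w0 hw he.dep hZ
  refine ⟨hZ', LawW.ext h (ℓ := fun _ => 1) (fun z => mul_nonneg (w0 _) (cenB_nonneg h _ _ _))
    hW (fun z => by rw [one_mul]) hP hZ' ?_⟩
  simp only [Real.log_one, mul_zero, Finset.sum_const_zero]
  exact mirB_gain h hg hρ hgU hP.sum hB w0 e0 hw he hm h1 hZ

end Vale.Agent.P050.SP
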