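import Vale.Agent.P050.R4.H345.MirSer2

/-!
# P050, series-parallel graphs: the mirror rule
-/

namespace Vale.Agent.P050.Mirror

open Finset Matrix Vale.Agent.P050.Ears Vale.Agent.P050.SP

variable {S : Type} [Fintype S] [DecidableEq S]

/-- `a` may be put at the distance `d` -/
structure LK (A : Matrix S S ℝ) (μ : S → ℝ) (c : S → Bool) (d : ℕ) (a : S → S → ℝ) : Prop where
  nonneg : ∀ x y, 0 ≤ a x y
  pos : ∀ x y, 0 < (A ^ d) x y → 0 < a x y
  ineq : ∀ b, 0 ≤ EL (pdl A μ c d b) a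

variable {A : Matrix S S ℝ} {μ : S → ℝ} {c : S → Bool}

theorem pow_add_pos (h : Rev A μ c) {a b : ℕ} {x y z : S} (h1 : 0 < (A ^ a) x y)
    (h2 : 0 < (A ^ b) y z) : 0 < (A ^ (a + b)) x z := by
  rw [pow_add, Matrix.mul_apply]
  exact Finset.sum_pos' (fun w _ => mul_nonneg (h.pow_nonneg _ _ _) (h.pow_nonneg _ _ _))
    ⟨y, mem_univ _, mul_pos h1 h2⟩

theorem pdl_nonneg (h : Rev A μ c) (d : ℕ) (b : Bool) (x y : S) : 0 ≤ pdl A μ c d b x y := by
  unfold pdl
  split_ifs
  · exact mul_nonneg (h.pos x).le (h.pow_nonneg _ _ _)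
  · exact le_refl _

theorem pdl_row (h : Rev A μ c) (d : ℕ) (b : Bool) (x : S) :
    ∑ y, pdl A μ c d b x y = if c x = b then μ x else 0 := by
  unfold pdl
  split_ifs
  · rw [← Finset.mul_sum, h.pow_row, mul_one]
  · simp

theorem pdl_col (h : Rev A μ c) (d : ℕ) (b : Bool) (y : S) :
    ∑ x, pdl A μ c d b x y = if c y = xor b (decide (d % 2 = 1)) then μ y else 0 := by
  rw [← pdl_row h d]
  exact Finset.sum_congr rfl fun x _ => pdl_swap h d b x y

theorem pdl_sum (h : Rev A μ c) (d : ℕ) (b : Bool) : ∑ x, ∑ y, pdl A μ c d b x y = 1 := by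
  simp only [pdl_row h]
  exact h.mass b

theorem pdl_pos (h : Rev A μ c) {d : ℕ} {b : Bool} {x y : S} (h0 : 0 < pdl A μ c d b x y) :
    0 < (A ^ d) x y := by
  unfold pdl at h0
  split_ifs at h0 with hc
  · exact pos_right (h.pos x).le h0
  · exact absurd h0 (lt_irrefl _)

/-- the law of the ends after extending both ends of a pair at distance `d` -/
theorem pdl_ext (h : Rev A μ c) (α d β : ℕ) (b : Bool) (x y : S) :
    ∑ u, ∑ v, pdl A μ c d b u v * ((A ^ α) u x * (A ^ β) v y) =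
      pdl A μ c (α + d + β) (xor b (decide (α % 2 = 1))) x y := by
  have e1 : ∀ u v, pdl A μ c d b u v * ((A ^ α) u x * (A ^ β) v y) =
      pdl A μ c α (xor b (decide (α % 2 = 1))) x u * (A ^ d) u v * (A ^ β) v y := by
    intro u v
    rw [← pdl_swap h]
    unfold pdl
    split_ifs <;> ring
  simp only [e1]
  unfold pdl
  split_ifs with hc
  · rw [pow_add, pow_add, Matrix.mul_apply, Finset.sum_comm, Finset.mul_sum]
    refine Finset.sum_congr rfl fun v _ => ?_
    rw [Matrix.mul_apply, Finset.sum_mul, Finset.mul_sum]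
    exact Finset.sum_congr rfl fun u _ => by ring
  · simp

omit [DecidableEq S] in
theorem sum4 (f : S → S → S → S → ℝ) :
    ∑ a, ∑ b, ∑ c, ∑ d, f a b c d = ∑ d, ∑ a, ∑ c, ∑ b, f a b c d := by
  have e : ∀ a, ∑ b, ∑ c, ∑ d, f a b c d = ∑ d, ∑ c, ∑ b, f a b c d := by
    intro a
    have : ∀ b, ∑ c, ∑ d, f a b c d = ∑ d, ∑ c, f a b c d := fun b => Finset.sum_comm
    simp only [this]
    rw [Finset.sum_comm]
    exact Finset.sum_congr rfl fun d _ => Finset.sum_comm
  simp only [e]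
  exact Finset.sum_comm

omit [DecidableEq S] in
theorem sum3 {T : Type*} [Fintype T] (f : S → S → T → ℝ) :
    ∑ a, ∑ b, ∑ p, f a b p = ∑ p, ∑ a, ∑ b, f a b p := by
  have e : ∀ a, ∑ b, ∑ p, f a b p = ∑ p, ∑ b, f a b p := fun a => Finset.sum_comm
  simp only [e]
  exact Finset.sum_comm

theorem mirror_rule (h : Rev A μ c) {α d β : ℕ} {ka kb k s1 s2 : S → S → ℝ}
    (hka : TK A μ c α ka) (hkb : TK A μ c β kb) (hk : TK A μ c (α + d + β) k)
    (hs1 : Mir μ c s1) (hs2 : Mir μ c (fun x y => s2 y x)) :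
    LK A μ c d (serK μ (serK μ (serK μ (serK μ ka s1) k) s2) kb) := by
  set Φ : S × S → ℝ := fun p => ∑ q : S × S, 1 * s1 p.1 q.1 * s2 q.2 p.2 *
    (μ q.1 * μ q.2 * k q.1 q.2) with hΦ
  have hterm : ∀ p q : S × S, 0 ≤ 1 * s1 p.1 q.1 * s2 q.2 p.2 * (μ q.1 * μ q.2 * k q.1 q.2) :=
    fun p q => mul_nonneg (mul_nonneg (mul_nonneg zero_le_one (hs1.1 _ _)) (hs2.1 _ _))
      (mul_nonneg (mul_nonneg (h.pos _).le (h.pos _).le) (hk.nonneg _ _))
  have hΦ0 : ∀ p, 0 ≤ Φ p := fun p => Finset.sum_nonneg fun q _ => hterm p q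
  have hΦp : ∀ p : S × S, 0 < (A ^ (α + d + β)) p.1 p.2 → 0 < Φ p := fun p hp =>
    Finset.sum_pos' (fun q _ => hterm p q) ⟨p, mem_univ _,
      mul_pos (mul_pos (mul_pos one_pos (hs1.2.1 _)) (hs2.2.1 _))
        (mul_pos (mul_pos (h.pos _) (h.pos _)) (hk.pos _ _ hp))⟩
  have hval : ∀ u v, serK μ (serK μ (serK μ (serK μ ka s1) k) s2) kb u v =
      ∑ p : S × S, μ p.1 * ka u p.1 * (μ p.2 * kb p.2 v) * Φ p := by
    intro u v
    unfold serK
    simp only [hΦ, Fintype.sum_prod_type, Finset.mul_sum, Finset.sum_mul]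
    rw [sum4]
    exact Finset.sum_congr rfl fun v1 _ => Finset.sum_congr rfl fun v2 _ =>
      Finset.sum_congr rfl fun w1 _ => Finset.sum_congr rfl fun w2 _ => by ring
  have hterm2 : ∀ (u v : S) (p : S × S), 0 ≤ μ p.1 * ka u p.1 * (μ p.2 * kb p.2 v) * Φ p :=
    fun u v p => mul_nonneg (mul_nonneg (mul_nonneg (h.pos _).le (hka.nonneg _ _))
      (mul_nonneg (h.pos _).le (hkb.nonneg _ _))) (hΦ0 p)
  have hreach : ∀ {u v : S} {p : S × S}, 0 < (A ^ d) u v → 0 < (A ^ α) u p.1 →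
      0 < (A ^ β) v p.2 → 0 < (A ^ (α + d + β)) p.1 p.2 := fun a1 a2 a3 =>
    pow_add_pos h (pow_add_pos h (pow_pos_symm h a2) a1) a3
  have hpos2 : ∀ {u v : S} {p : S × S}, 0 < (A ^ d) u v → 0 < (A ^ α) u p.1 →
      0 < (A ^ β) v p.2 → 0 < μ p.1 * ka u p.1 * (μ p.2 * kb p.2 v) * Φ p := fun a1 a2 a3 =>
    mul_pos (mul_pos (mul_pos (h.pos _) (hka.pos _ _ a2))
      (mul_pos (h.pos _) (hkb.pos _ _ (pow_pos_symm h a3)))) (hΦp _ (hreach a1 a2 a3))
  have hAα := h.pow_nonneg α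
  have hAβ := h.pow_nonneg β
  have hone : ∀ u v, ∑ p : S × S, (A ^ α) u p.1 * (A ^ β) v p.2 = 1 := by
    intro u v
    rw [Fintype.sum_prod_type]
    simp only [← Finset.mul_sum, h.pow_row, mul_one]
  refine ⟨fun u v => ?_, fun u v huv => ?_, fun b => ?_⟩
  · rw [hval]
    exact Finset.sum_nonneg fun p _ => hterm2 u v p
  · rw [hval]
    obtain ⟨p, hp⟩ : ∃ p : S × S, 0 < (A ^ α) u p.1 * (A ^ β) v p.2 :=
      exists_pos_of_sum (by rw [hone]; exact one_pos)
    exact Finset.sum_pos' (fun p _ => hterm2 u v p) ⟨p, mem_univ _,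
      hpos2 huv (pos_left (hAβ _ _) hp) (pos_right (hAα _ _) hp)⟩
  -- Jensen
  have hJ : ∀ u v, pdl A μ c d b u v * (∑ p : S × S, (A ^ α) u p.1 * (A ^ β) v p.2 *
        (Real.log (ka u p.1) - Real.log (kap A μ α u p.1) + (Real.log (kb p.2 v) -
          Real.log (kap A μ β v p.2)) + Real.log (Φ p))) ≤
      pdl A μ c d b u v *
        Real.log (serK μ (serK μ (serK μ (serK μ ka s1) k) s2) kb u v) := by
    intro u v
    rcases (pdl_nonneg h d b u v).eq_or_lt with h0 | h0
    · rw [← h0, zero_mul, zero_mul]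
    have huv := pdl_pos h h0
    refine mul_le_mul_of_nonneg_left ?_ h0.le
    rw [hval]
    have h2 := gibbs (fun p : S × S => (A ^ α) u p.1 * (A ^ β) v p.2)
      (fun p => μ p.1 * ka u p.1 * (μ p.2 * kb p.2 v) * Φ p)
      (fun p => mul_nonneg (hAα _ _) (hAβ _ _)) (fun p => hterm2 u v p)
      (fun p hp => hpos2 huv (pos_left (hAβ _ _) hp) (pos_right (hAα _ _) hp))
    rw [hone, Real.log_one, one_mul] at h2
    refine le_trans (le_of_eq ?_) h2
    refine Finset.sum_congr rfl fun p _ => ?_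
    rcases (mul_nonneg (hAα u p.1) (hAβ v p.2)).eq_or_lt with hx | hx
    · rw [← hx]; ring
    · have a1 := pos_left (hAβ _ _) hx
      have a2 := pos_right (hAα _ _) hx
      have b1 := hka.pos _ _ a1
      have b2 := hkb.pos _ _ (pow_pos_symm h a2)
      have b3 := hΦp _ (hreach huv a1 a2)
      have b4 := h.pos p.1
      have b5 := h.pos p.2
      unfold kap
      rw [Real.log_mul (mul_pos (mul_pos b4 b1) (mul_pos b5 b2)).ne' b3.ne',
        Real.log_mul (mul_pos b4 b1).ne' (mul_pos b5 b2).ne', Real.log_mul b4.ne' b1.ne',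
        Real.log_mul b5.ne' b2.ne', Real.log_mul a1.ne' a2.ne', Real.log_div a1.ne' b4.ne',
        Real.log_div a2.ne' b5.ne']
      ring
  -- the three terms
  have t1 : ∀ f : S → S → ℝ, ∑ u, ∑ v, pdl A μ c d b u v *
      ∑ p : S × S, (A ^ α) u p.1 * (A ^ β) v p.2 * Real.log (f u p.1) =
      EL (pdl A μ c α b) f := by
    intro f
    unfold EL
    refine Finset.sum_congr rfl fun u _ => ?_
    have e1 : ∀ v, ∑ p : S × S, (A ^ α) u p.1 * (A ^ β) v p.2 * Real.log (f u p.1) =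
        ∑ x, (A ^ α) u x * Real.log (f u x) := by
      intro v
      rw [Fintype.sum_prod_type]
      refine Finset.sum_congr rfl fun x _ => ?_
      dsimp only
      rw [← Finset.sum_mul, ← Finset.mul_sum, h.pow_row, mul_one]
    simp only [e1]
    rw [← Finset.sum_mul, pdl_row h]
    unfold pdl
    split_ifs
    · rw [Finset.mul_sum]
      exact Finset.sum_congr rfl fun x _ => by ring
    · simp
  have t2 : ∀ f : S → S → ℝ, ∑ u, ∑ v, pdl A μ c d b u v *
      ∑ p : S × S, (A ^ α) u p.1 * (A ^ β) v p.2 * Real.log (f v p.2) =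
      EL (pdl A μ c β (xor b (decide (d % 2 = 1)))) f := by
    intro f
    unfold EL
    rw [Finset.sum_comm]
    refine Finset.sum_congr rfl fun v _ => ?_
    have e1 : ∀ u, ∑ p : S × S, (A ^ α) u p.1 * (A ^ β) v p.2 * Real.log (f v p.2) =
        ∑ y, (A ^ β) v y * Real.log (f v y) := by
      intro u
      rw [Fintype.sum_prod_type, Finset.sum_comm]
      refine Finset.sum_congr rfl fun y _ => ?_
      dsimp only
      rw [← Finset.sum_mul, ← Finset.sum_mul, h.pow_row, one_mul]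
    simp only [e1]
    rw [← Finset.sum_mul, pdl_col h]
    unfold pdl
    split_ifs
    · rw [Finset.mul_sum]
      exact Finset.sum_congr rfl fun x _ => by ring
    · simp
  have t3 : ∑ u, ∑ v, pdl A μ c d b u v *
      ∑ p : S × S, (A ^ α) u p.1 * (A ^ β) v p.2 * Real.log (Φ p) =
      ∑ p : S × S, pdl A μ c (α + d + β) (xor b (decide (α % 2 = 1))) p.1 p.2 *
        Real.log (Φ p) := by
    simp only [← pdl_ext h α d β b, Finset.sum_mul, Finset.mul_sum]
    rw [sum3]
    exact Finset.sum_congr rfl fun p _ => Finset.sum_congr rfl fun u _ =>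
      Finset.sum_congr rfl fun v _ => by ring
  -- the mirror inequality
  set b2 := xor b (decide (α % 2 = 1)) with hb2
  set m : S × S → ℝ := fun p => pdl A μ c (α + d + β) b2 p.1 p.2 with hm
  have hm0 : ∀ p, 0 ≤ m p := fun p => pdl_nonneg h _ _ _ _
  have M1 : MI m (fun p q => 1 * s1 p.1 q.1) :=
    hs1.2.2 b2 (S × S) m (fun p => p.1) (fun _ _ => 1) hm0 (fun x => by
      rw [Fintype.sum_prod_type, Finset.sum_comm]
      simp only [Finset.sum_ite_eq', Finset.mem_univ, if_true, hm]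
      exact pdl_row h _ _ _) (fun _ _ => zero_le_one) (fun _ _ => one_pos) (MI_one m)
  have M2 : MI m (fun p q => 1 * s1 p.1 q.1 * s2 q.2 p.2) :=
    hs2.2.2 (xor b2 (decide ((α + d + β) % 2 = 1))) (S × S) m (fun p => p.2)
      (fun p q => 1 * s1 p.1 q.1) hm0 (fun x => by
      rw [Fintype.sum_prod_type]
      simp only [Finset.sum_ite_eq', Finset.mem_univ, if_true, hm]
      exact pdl_col h _ _ _) (fun p q => mul_nonneg zero_le_one (hs1.1 _ _))
      (fun p _ => mul_pos one_pos (hs1.2.1 _)) M1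
  have h3 := M2 Unit (fun _ p => m p) (fun _ q => μ q.1 * μ q.2 * k q.1 q.2) (fun _ p => hm0 p)
    (fun p => by simp) (fun _ q => mul_nonneg (mul_nonneg (h.pos _).le (h.pos _).le)
      (hk.nonneg _ _)) (fun _ q hq => mul_pos (mul_pos (h.pos _) (h.pos _))
      (hk.pos _ _ (pdl_pos h hq)))
  have hsum : ∑ p, m p = 1 := by
    rw [Fintype.sum_prod_type]
    exact pdl_sum h _ _
  have e3 : ∑ p, m p * (Real.log (μ p.1 * μ p.2 * k p.1 p.2) - Real.log (m p) +
      Real.log (∑ q, m q)) = EL (pdl A μ c (α + d + β) b2) k -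
      EL (pdl A μ c (α + d + β) b2) (kap A μ (α + d + β)) := by
    unfold EL
    rw [hsum, Real.log_one, Fintype.sum_prod_type, ← Finset.sum_sub_distrib]
    refine Finset.sum_congr rfl fun x _ => ?_
    rw [← Finset.sum_sub_distrib]
    refine Finset.sum_congr rfl fun y _ => ?_
    simp only [hm]
    rcases (pdl_nonneg h (α + d + β) b2 x y).eq_or_lt with h0 | h0
    · rw [← h0]; ring
    · have a1 := pdl_pos h h0
      have a2 := hk.pos _ _ a1
      have a3 := h.pos x
      have a4 := h.pos y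
      have a5 : pdl A μ c (α + d + β) b2 x y = μ x * (A ^ (α + d + β)) x y := by
        unfold pdl at h0 ⊢
        split_ifs at h0 ⊢ with hc
        · rfl
        · exact absurd h0 (lt_irrefl _)
      rw [a5]
      unfold kap
      rw [Real.log_mul (mul_pos a3 a4).ne' a2.ne', Real.log_mul a3.ne' a4.ne',
        Real.log_mul a3.ne' a1.ne', Real.log_div a1.ne' a4.ne']
      ring
  simp only [Finset.univ_unique, Finset.sum_singleton] at h3
  rw [e3] at h3
  have hfin : (EL (pdl A μ c α b) ka - EL (pdl A μ c α b) (kap A μ α)) +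
      (EL (pdl A μ c β (xor b (decide (d % 2 = 1)))) (fun x y => kb y x) -
        EL (pdl A μ c β (xor b (decide (d % 2 = 1)))) (kap A μ β)) +
      ∑ p, m p * Real.log (Φ p) ≤
      EL (pdl A μ c d b) (serK μ (serK μ (serK μ (serK μ ka s1) k) s2) kb) := by
    have := Finset.sum_le_sum fun u (_ : u ∈ univ) => Finset.sum_le_sum fun v (_ : v ∈ univ) =>
      hJ u v
    refine le_trans (le_of_eq ?_) this
    rw [← t1, ← t1, ← t2, ← t2, ← t3]
    simp only [← Finset.sum_sub_distrib, ← Finset.sum_add_distrib, ← mul_sub, ← mul_add]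
  have q1 := hka.ineq b
  have q2 := (hkb.symm h).ineq (xor b (decide (d % 2 = 1)))
  have q3 := hk.ineq b2
  linarith

end Vale.Agent.P050.Mirror
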