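import Vale.Agent.P050.R4.H345.Mirror

/-!
# P050, series-parallel graphs: centred gadgets satisfy the mirror inequality
-/

namespace Vale.Agent.P050.Mirror

open Finset Matrix Vale.Agent.P050.Ears

variable {S : Type} [Fintype S] [DecidableEq S]

/-- the kernel of the trivial gadget (one vertex) -/
noncomputable def idk (μ : S → ℝ) (x y : S) : ℝ := if x = y then 1 / μ x else 0

/-- series composition of kernels -/
noncomputable def comp (μ : S → ℝ) (a b : S → S → ℝ) (x y : S) : ℝ := ∑ w, μ w * a x w * b w y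

variable {A : Matrix S S ℝ} {μ : S → ℝ} {c : S → Bool}

theorem Mir_idk (h : Rev A μ c) : Mir μ c (idk μ) := by
  refine ⟨fun x y => ?_, fun x => ?_, ?_⟩
  · unfold idk
    split_ifs
    · exact (div_pos one_pos (h.pos x)).le
    · exact le_refl _
  · unfold idk
    rw [if_pos rfl]
    exact div_pos one_pos (h.pos x)
  intro b Ω _ m v G hm hv hG hGp hMI Θ _ P F hP hPm hF hPF
  have h1 := hMI (Θ × S) (fun θ ω => if v ω = θ.2 then P θ.1 ω else 0)
    (fun θ ω => if v ω = θ.2 then F θ.1 ω else 0)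
    (fun θ ω => by split_ifs; exacts [hP _ _, le_refl _])
    (fun ω => by
      rw [Fintype.sum_prod_type, ← hPm ω]
      refine Finset.sum_congr rfl fun θ _ => ?_
      rw [Finset.sum_ite_eq]
      simp)
    (fun θ ω => by split_ifs; exacts [hF _ _, le_refl _])
    (fun θ ω h0 => by
      split_ifs with hx
      · rw [if_pos hx] at h0; exact hPF _ _ h0
      · rw [if_neg hx] at h0; exact absurd h0 (lt_irrefl _))
  -- the law of `v` given `θ`
  set Q : Θ → S → ℝ := fun θ x => ∑ ω, if v ω = x then P θ ω else 0 with hQ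
  have hQ0 : ∀ θ x, 0 ≤ Q θ x := fun θ x => Finset.sum_nonneg fun ω _ => by
    split_ifs; exacts [hP _ _, le_refl _]
  have hPQ : ∀ θ (f : S → ℝ), ∑ ω, P θ ω * f (v ω) = ∑ x, Q θ x * f x :=
    fun θ f => sum_fibre (fun x => rfl) f
  have hQP : ∀ θ, ∑ x, Q θ x = ∑ ω, P θ ω := by
    intro θ
    have := hPQ θ (fun _ => 1)
    simpa using this.symm
  have hQm : ∀ x, ∑ θ, Q θ x = if c x = b then μ x else 0 := by
    intro x
    rw [← hv x, hQ]
    rw [Finset.sum_comm]
    refine Finset.sum_congr rfl fun ω _ => ?_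
    split_ifs
    · exact hPm ω
    · simp
  have hmass : ∑ θ, ∑ ω, P θ ω = 1 := by
    rw [← h.mass b, ← Finset.sum_congr rfl fun θ _ => hQP θ, Finset.sum_comm]
    exact Finset.sum_congr rfl fun x _ => hQm x
  have hPpos : ∀ θ ω, 0 < P θ ω → 0 < Q θ (v ω) := fun θ ω h0 =>
    Finset.sum_pos' (fun ω' _ => by split_ifs; exacts [hP _ _, le_refl _])
      ⟨ω, mem_univ ω, by rw [if_pos rfl]; exact h0⟩
  -- the entropy of `v`
  have h2 := gibbs (fun p : Θ × S => Q p.1 p.2)
    (fun p : Θ × S => (∑ ω, P p.1 ω) * (if c p.2 = b then μ p.2 else 0)) (fun p => hQ0 _ _)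
    (fun p => mul_nonneg (Finset.sum_nonneg fun ω _ => hP _ _)
      (by split_ifs; exacts [(h.pos _).le, le_refl _]))
    (fun p h0 => by
      have a1 : 0 < ∑ ω, P p.1 ω := by
        rw [← hQP]
        exact Finset.sum_pos' (fun x _ => hQ0 _ _) ⟨p.2, mem_univ _, h0⟩
      have a2 : 0 < (if c p.2 = b then μ p.2 else 0) := by
        rw [← hQm]
        exact Finset.sum_pos' (fun x _ => hQ0 _ _) ⟨p.1, mem_univ _, h0⟩
      exact mul_pos a1 a2)
  have e1 : ∑ p : Θ × S, Q p.1 p.2 = 1 := by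
    rw [Fintype.sum_prod_type]
    simp only [hQP]
    exact hmass
  have e2 : ∑ p : Θ × S, (∑ ω, P p.1 ω) * (if c p.2 = b then μ p.2 else 0) = 1 := by
    rw [Fintype.sum_prod_type]
    simp only [← Finset.mul_sum, h.mass b, mul_one]
    exact hmass
  rw [e1, e2, Real.log_one, mul_zero] at h2
  have e3 : ∑ p : Θ × S, Q p.1 p.2 *
      (Real.log ((∑ ω, P p.1 ω) * (if c p.2 = b then μ p.2 else 0)) - Real.log (Q p.1 p.2) + 0) =
      ∑ θ, ∑ ω, P θ ω * (Real.log (∑ ω', P θ ω') + Real.log (μ (v ω)) -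
        Real.log (Q θ (v ω))) := by
    rw [Fintype.sum_prod_type]
    refine Finset.sum_congr rfl fun θ _ => ?_
    rw [hPQ θ (fun x => Real.log (∑ ω', P θ ω') + Real.log (μ x) - Real.log (Q θ x))]
    refine Finset.sum_congr rfl fun x _ => ?_
    rcases (hQ0 θ x).eq_or_lt with h0 | h0
    · simp [← h0]
    · have a1 : 0 < ∑ ω, P θ ω := by
        rw [← hQP]
        exact Finset.sum_pos' (fun x _ => hQ0 _ _) ⟨x, mem_univ _, h0⟩
      have a2 : c x = b := by
        by_contra hne
        have := hQm x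
        rw [if_neg hne] at this
        have h3 := (Finset.sum_eq_zero_iff_of_nonneg fun θ _ => hQ0 θ x).1 this θ (mem_univ _)
        linarith
      rw [if_pos a2, Real.log_mul a1.ne' (h.pos x).ne', add_zero]
  rw [e3] at h2
  -- the value of the mirror inequality with the refined `θ`
  rw [Fintype.sum_prod_type, Fintype.sum_prod_type] at h1
  have e4 : ∀ θ, ∑ x, ∑ ω, (if v ω = x then P θ ω else 0) *
      Real.log (∑ ω', G ω ω' * if v ω' = x then F θ ω' else 0) =
      ∑ ω, P θ ω * (Real.log (∑ ω', G ω ω' * idk μ (v ω) (v ω') * F θ ω') +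
        Real.log (μ (v ω))) := by
    intro θ
    rw [Finset.sum_comm]
    refine Finset.sum_congr rfl fun ω _ => ?_
    rw [Finset.sum_eq_single (v ω)]
    · rw [if_pos rfl]
      rcases (hP θ ω).eq_or_lt with h0 | h0
      · rw [← h0, zero_mul, zero_mul]
      · congr 1
        have hpos : 0 < ∑ ω', G ω ω' * idk μ (v ω) (v ω') * F θ ω' := by
          have hmω : 0 < m ω := by
            rw [← hPm ω]
            exact Finset.sum_pos' (fun θ _ => hP θ ω) ⟨θ, mem_univ _, h0⟩
          refine Finset.sum_pos' (fun ω' _ => mul_nonneg (mul_nonneg (hG _ _) ?_) (hF _ _))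
            ⟨ω, mem_univ _, mul_pos (mul_pos (hGp ω hmω) ?_) (hPF _ _ h0)⟩
          · unfold idk; split_ifs; exacts [(div_pos one_pos (h.pos _)).le, le_refl _]
          · unfold idk; rw [if_pos rfl]; exact div_pos one_pos (h.pos _)
        rw [← Real.log_mul hpos.ne' (h.pos _).ne', Finset.sum_mul]
        congr 1
        refine Finset.sum_congr rfl fun ω' _ => ?_
        unfold idk
        by_cases hx : v ω' = v ω
        · rw [if_pos hx, if_pos hx.symm]
          have := (h.pos (v ω)).ne'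
          field_simp
        · rw [if_neg hx, if_neg (Ne.symm hx)]
          ring
    · intro x _ hx
      rw [if_neg (Ne.symm hx), zero_mul]
    · intro h0; exact absurd (mem_univ _) h0
  have e5 : ∀ θ, ∑ x, ∑ ω, (if v ω = x then P θ ω else 0) *
      (Real.log (if v ω = x then F θ ω else 0) - Real.log (if v ω = x then P θ ω else 0) +
        Real.log (∑ ω', if v ω' = x then P θ ω' else 0)) =
      ∑ ω, P θ ω * (Real.log (F θ ω) - Real.log (P θ ω) + Real.log (Q θ (v ω))) := by
    intro θ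
    rw [Finset.sum_comm]
    refine Finset.sum_congr rfl fun ω _ => ?_
    rw [Finset.sum_eq_single (v ω)]
    · simp only [if_true, hQ]
    · intro x _ hx
      rw [if_neg (Ne.symm hx), zero_mul]
    · intro h0; exact absurd (mem_univ _) h0
  simp only [e4, e5] at h1
  have e6 : ∑ θ, ∑ ω, P θ ω * (Real.log (F θ ω) - Real.log (P θ ω) +
      Real.log (∑ ω', P θ ω')) =
      ∑ θ, ∑ ω, P θ ω * (Real.log (F θ ω) - Real.log (P θ ω) + Real.log (Q θ (v ω))) +
      ∑ θ, ∑ ω, P θ ω * (Real.log (∑ ω', P θ ω') + Real.log (μ (v ω)) -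
        Real.log (Q θ (v ω))) - ∑ θ, ∑ ω, P θ ω * Real.log (μ (v ω)) := by
    rw [← Finset.sum_add_distrib, ← Finset.sum_sub_distrib]
    refine Finset.sum_congr rfl fun θ _ => ?_
    rw [← Finset.sum_add_distrib, ← Finset.sum_sub_distrib]
    exact Finset.sum_congr rfl fun ω _ => by ring
  have e7 : ∑ θ, ∑ ω, P θ ω * (Real.log (∑ ω', G ω ω' * idk μ (v ω) (v ω') * F θ ω') +
        Real.log (μ (v ω))) =
      ∑ θ, ∑ ω, P θ ω * Real.log (∑ ω', G ω ω' * idk μ (v ω) (v ω') * F θ ω') +
      ∑ θ, ∑ ω, P θ ω * Real.log (μ (v ω)) := by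
    rw [← Finset.sum_add_distrib]
    refine Finset.sum_congr rfl fun θ _ => ?_
    rw [← Finset.sum_add_distrib]
    exact Finset.sum_congr rfl fun ω _ => by ring
  rw [e6]
  rw [e7] at h1
  linarith

end Vale.Agent.P050.Mirror
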