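import Vale.Agent.P050.R4.H345.MirSer
import Vale.Agent.P050.R4.H859.Ent

/-!
# P050, series-parallel graphs: centred gadgets satisfy the mirror inequality (series step)
-/

namespace Vale.Agent.P050.Mirror

open Finset Matrix Vale.Agent.P050.Ears Vale.Agent.P050.SP

variable {S : Type} [Fintype S] [DecidableEq S]

/-- the law of the pairs at distance `d`, the first state on the side `b` -/
noncomputable def pdl (A : Matrix S S ℝ) (μ : S → ℝ) (c : S → Bool) (d : ℕ) (b : Bool)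
    (x y : S) : ℝ := if c x = b then μ x * (A ^ d) x y else 0

/-- `a` is tight for the distance `l` -/
structure TK (A : Matrix S S ℝ) (μ : S → ℝ) (c : S → Bool) (l : ℕ) (a : S → S → ℝ) : Prop where
  nonneg : ∀ x y, 0 ≤ a x y
  pos : ∀ x y, 0 < (A ^ l) x y → 0 < a x y
  ineq : ∀ b, EL (pdl A μ c l b) (kap A μ l) ≤ EL (pdl A μ c l b) a

variable {A : Matrix S S ℝ} {μ : S → ℝ} {c : S → Bool}

theorem pos_left {a b : ℝ} (hb : 0 ≤ b) (h : 0 < a * b) : 0 < a := by
  by_contra hc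
  exact absurd h (not_lt.2 (mul_nonpos_of_nonpos_of_nonneg (not_lt.1 hc) hb))

theorem pos_right {a b : ℝ} (ha : 0 ≤ a) (h : 0 < a * b) : 0 < b :=
  pos_left ha (by rwa [mul_comm] at h)

theorem pow_pos_symm (h : Rev A μ c) {l : ℕ} {x y : S} (hxy : 0 < (A ^ l) x y) :
    0 < (A ^ l) y x := by
  have h1 := h.pow_rev l x y
  have h2 : 0 < μ x * (A ^ l) x y := mul_pos (h.pos x) hxy
  rw [h1] at h2
  exact pos_right (h.pos y).le h2

theorem pdl_swap (h : Rev A μ c) (l : ℕ) (b : Bool) (x y : S) :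
    pdl A μ c l b x y = pdl A μ c l (xor b (decide (l % 2 = 1))) y x := by
  unfold pdl
  by_cases hc : c y = xor (c x) (decide (l % 2 = 1))
  · by_cases hb : c x = b
    · rw [if_pos hb, if_pos (by rw [hc, hb]), h.pow_rev]
    · rw [if_neg hb, if_neg]
      rw [hc]
      intro h1
      have h2 : ∀ p q t : Bool, xor p t = xor q t → p = q := by decide
      exact hb (h2 _ _ _ h1)
  · have h0 := h.pow_alt l x y hc
    have h1 : (A ^ l) y x = 0 := by
      have := h.pow_rev l x y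
      rw [h0, mul_zero] at this
      exact (mul_eq_zero.1 this.symm).resolve_left (h.pos y).ne'
    rw [h0, h1, mul_zero, mul_zero, ite_self, ite_self]

theorem EL_swap (h : Rev A μ c) (l : ℕ) (b : Bool) (f : S → S → ℝ) :
    EL (pdl A μ c l b) (fun x y => f y x) =
      EL (pdl A μ c l (xor b (decide (l % 2 = 1)))) f := by
  unfold EL
  rw [Finset.sum_comm]
  refine Finset.sum_congr rfl fun y _ => Finset.sum_congr rfl fun x _ => ?_
  rw [pdl_swap h]

theorem TK.symm (h : Rev A μ c) {l : ℕ} {a : S → S → ℝ} (ha : TK A μ c l a) :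
    TK A μ c l (fun x y => a y x) := by
  refine ⟨fun x y => ha.nonneg y x, fun x y hxy => ha.pos y x (pow_pos_symm h hxy), fun b => ?_⟩
  have h1 := ha.ineq (xor b (decide (l % 2 = 1)))
  rw [← EL_swap h, ← EL_swap h] at h1
  have h2 : (fun x y => kap A μ l y x) = kap A μ l := by
    funext x y
    exact h.kap_symm l y x
  rw [h2] at h1
  exact h1

/-- the mean of the logarithm over the pairs at distance `l` from `v` -/
theorem mean_eq {Ω : Type} [Fintype Ω] {m : Ω → ℝ} {v : Ω → S} {b : Bool}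
    (hv : ∀ x, (∑ ω, if v ω = x then m ω else 0) = if c x = b then μ x else 0) (l : ℕ)
    (f : S → S → ℝ) :
    ∑ ω, m ω * ∑ x, (A ^ l) (v ω) x * Real.log (f (v ω) x) = EL (pdl A μ c l b) f := by
  rw [sum_fibre hv (fun z => ∑ x, (A ^ l) z x * Real.log (f z x))]
  unfold EL pdl
  refine Finset.sum_congr rfl fun z _ => ?_
  rw [Finset.mul_sum]
  refine Finset.sum_congr rfl fun x _ => ?_
  split_ifs <;> ring

theorem Mir.ser (h : Rev A μ c) {l : ℕ} {a b s : S → S → ℝ} (ha : TK A μ c l a)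
    (hb : TK A μ c l b) (hs : Mir μ c s) : Mir μ c (serK μ (serK μ a s) b) := by
  have hKexp : ∀ x y, serK μ (serK μ a s) b x y =
      ∑ p, ∑ q, μ p * a x p * (s p q * (μ q * b q y)) := by
    intro x y
    unfold serK
    rw [Finset.sum_comm]
    refine Finset.sum_congr rfl fun q _ => ?_
    rw [Finset.mul_sum, Finset.sum_mul]
    exact Finset.sum_congr rfl fun p _ => by ring
  have hterm : ∀ x y p q, 0 ≤ μ p * a x p * (s p q * (μ q * b q y)) := fun x y p q =>
    mul_nonneg (mul_nonneg (h.pos _).le (ha.nonneg _ _))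
      (mul_nonneg (hs.1 _ _) (mul_nonneg (h.pos _).le (hb.nonneg _ _)))
  have hK0 : ∀ x y, 0 ≤ serK μ (serK μ a s) b x y := fun x y => by
    rw [hKexp]
    exact Finset.sum_nonneg fun p _ => Finset.sum_nonneg fun q _ => hterm x y p q
  have hKpos : ∀ x, 0 < serK μ (serK μ a s) b x x := by
    intro x
    obtain ⟨p, hp⟩ : ∃ p, 0 < (A ^ l) x p := exists_pos_of_sum (by rw [h.pow_row l x]; exact one_pos)
    rw [hKexp]
    refine Finset.sum_pos' (fun p _ => Finset.sum_nonneg fun q _ => hterm x x p q)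
      ⟨p, mem_univ _, ?_⟩
    refine Finset.sum_pos' (fun q _ => hterm x x p q) ⟨p, mem_univ _, ?_⟩
    exact mul_pos (mul_pos (h.pos _) (ha.pos _ _ hp))
      (mul_pos (hs.2.1 _) (mul_pos (h.pos _) (hb.pos _ _ (pow_pos_symm h hp))))
  refine ⟨hK0, hKpos, ?_⟩
  intro b0 Ω _ m v G hm hv hG hGp hMI
  have hA0 := h.pow_nonneg l
  -- the extended system
  have hMI' := hs.2.2 (xor b0 (decide (l % 2 = 1))) (Ω × S)
    (fun p => m p.1 * (A ^ l) (v p.1) p.2) (fun p => p.2) (fun p q => G p.1 q.1)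
    (fun p => mul_nonneg (hm _) (hA0 _ _))
    (fun x => by
      rw [Fintype.sum_prod_type]
      simp only [Finset.sum_ite_eq', Finset.mem_univ, if_true]
      rw [sum_fibre hv (fun z => (A ^ l) z x)]
      have e1 : ∀ z, (if c z = b0 then μ z else 0) * (A ^ l) z x =
          pdl A μ c l b0 z x := by
        intro z; unfold pdl; split_ifs <;> ring
      simp only [e1, pdl_swap h l b0]
      unfold pdl
      split_ifs
      · rw [← Finset.mul_sum, h.pow_row, mul_one]
      · simp)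
    (fun p q => hG _ _)
    (fun p h0 => hGp _ (by
      rcases (hm p.1).eq_or_lt with h1 | h1
      · rw [← h1, zero_mul] at h0; exact absurd h0 (lt_irrefl _)
      · exact h1))
    (MI_lift m _ (fun ω => by
      dsimp only
      rw [← Finset.mul_sum, h.pow_row, mul_one]) G hMI)
  intro Θ _ P F hP hPm hF hPF
  have hPA : ∀ θ ω x, 0 < P θ ω * (A ^ l) (v ω) x → 0 < P θ ω ∧ 0 < (A ^ l) (v ω) x := by
    intro θ ω x h0
    exact ⟨pos_left (hA0 _ _) h0, pos_right (hP _ _) h0⟩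
  have hmP : ∀ θ ω, 0 < P θ ω → 0 < m ω := fun θ ω h0 => by
    rw [← hPm ω]
    exact Finset.sum_pos' (fun θ _ => hP θ ω) ⟨θ, mem_univ _, h0⟩
  have h1 := hMI' Θ (fun θ p => P θ p.1 * (A ^ l) (v p.1) p.2)
    (fun θ p => F θ p.1 * (μ p.2 * b p.2 (v p.1)))
    (fun θ p => mul_nonneg (hP _ _) (hA0 _ _))
    (fun p => by rw [← Finset.sum_mul, hPm])
    (fun θ p => mul_nonneg (hF _ _) (mul_nonneg (h.pos _).le (hb.nonneg _ _)))
    (fun θ p h0 => by
      obtain ⟨a1, a2⟩ := hPA _ _ _ h0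
      exact mul_pos (hPF _ _ a1) (mul_pos (h.pos _) (hb.pos _ _ (pow_pos_symm h a2))))
  set Φ : Θ → Ω → S → ℝ := fun θ ω x =>
    ∑ q : Ω × S, G ω q.1 * s x q.2 * (F θ q.1 * (μ q.2 * b q.2 (v q.1))) with hΦ
  have hΦ0 : ∀ θ ω x, 0 ≤ Φ θ ω x := fun θ ω x => Finset.sum_nonneg fun q _ =>
    mul_nonneg (mul_nonneg (hG _ _) (hs.1 _ _))
      (mul_nonneg (hF _ _) (mul_nonneg (h.pos _).le (hb.nonneg _ _)))
  have hΦp : ∀ θ ω x, 0 < P θ ω → 0 < (A ^ l) (v ω) x → 0 < Φ θ ω x := fun θ ω x a1 a2 =>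
    Finset.sum_pos' (fun q _ => mul_nonneg (mul_nonneg (hG _ _) (hs.1 _ _))
      (mul_nonneg (hF _ _) (mul_nonneg (h.pos _).le (hb.nonneg _ _))))
      ⟨(ω, x), mem_univ _, mul_pos (mul_pos (hGp _ (hmP _ _ a1)) (hs.2.1 _))
        (mul_pos (hPF _ _ a1) (mul_pos (h.pos _) (hb.pos _ _ (pow_pos_symm h a2))))⟩
  -- the value of the composed kernel
  have hval : ∀ θ ω, ∑ ω', G ω ω' * serK μ (serK μ a s) b (v ω) (v ω') * F θ ω' =
      ∑ x, μ x * a (v ω) x * Φ θ ω x := by
    intro θ ω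
    simp only [hΦ, hKexp, Fintype.sum_prod_type, Finset.mul_sum, Finset.sum_mul]
    rw [Finset.sum_comm]
    refine Finset.sum_congr rfl fun p _ => Finset.sum_congr rfl fun ω' _ =>
      Finset.sum_congr rfl fun q _ => by ring
  -- Jensen for the first leg
  have hJ : ∀ θ ω, P θ ω * (∑ x, (A ^ l) (v ω) x * Real.log (a (v ω) x) -
        ∑ x, (A ^ l) (v ω) x * Real.log (kap A μ l (v ω) x) +
        ∑ x, (A ^ l) (v ω) x * Real.log (Φ θ ω x)) ≤
      P θ ω * Real.log (∑ ω', G ω ω' * serK μ (serK μ a s) b (v ω) (v ω') * F θ ω') := by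
    intro θ ω
    rcases (hP θ ω).eq_or_lt with h0 | h0
    · rw [← h0, zero_mul, zero_mul]
    refine mul_le_mul_of_nonneg_left ?_ h0.le
    have h2 := gibbs (fun x => (A ^ l) (v ω) x) (fun x => μ x * a (v ω) x * Φ θ ω x)
      (fun x => hA0 _ _) (fun x => mul_nonneg (mul_nonneg (h.pos _).le (ha.nonneg _ _))
        (hΦ0 _ _ _)) (fun x hx => mul_pos (mul_pos (h.pos _) (ha.pos _ _ hx))
        (hΦp _ _ _ h0 hx))
    rw [h.pow_row l (v ω), Real.log_one, one_mul] at h2
    rw [hval]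
    refine le_trans (le_of_eq ?_) h2
    rw [← Finset.sum_sub_distrib, ← Finset.sum_add_distrib]
    refine Finset.sum_congr rfl fun x _ => ?_
    rcases (hA0 (v ω) x).eq_or_lt with hx | hx
    · rw [← hx]; ring
    · have b1 := ha.pos _ _ hx
      have b2 := hΦp θ ω x h0 hx
      have b3 := h.pos x
      unfold kap
      rw [Real.log_mul (mul_pos b3 b1).ne' b2.ne', Real.log_mul b3.ne' b1.ne',
        Real.log_div hx.ne' b3.ne']
      ring
  -- the means
  have hmean : ∀ f : S → S → ℝ, ∑ θ, ∑ ω, P θ ω * ∑ x, (A ^ l) (v ω) x * Real.log (f (v ω) x) =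
      EL (pdl A μ c l b0) f := by
    intro f
    rw [← mean_eq hv, Finset.sum_comm]
    refine Finset.sum_congr rfl fun ω _ => ?_
    rw [← Finset.sum_mul, hPm]
  have hR : EL (pdl A μ c l b0) a - EL (pdl A μ c l b0) (kap A μ l) +
      ∑ θ, ∑ ω, P θ ω * ∑ x, (A ^ l) (v ω) x * Real.log (Φ θ ω x) ≤
      ∑ θ, ∑ ω, P θ ω * Real.log (∑ ω', G ω ω' * serK μ (serK μ a s) b (v ω) (v ω') * F θ ω') := by
    rw [← hmean, ← hmean, ← Finset.sum_sub_distrib, ← Finset.sum_add_distrib]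
    refine Finset.sum_le_sum fun θ _ => ?_
    rw [← Finset.sum_sub_distrib, ← Finset.sum_add_distrib]
    refine Finset.sum_le_sum fun ω _ => ?_
    refine le_trans (le_of_eq ?_) (hJ θ ω)
    ring
  have hL : ∑ θ, ∑ p : Ω × S, P θ p.1 * (A ^ l) (v p.1) p.2 *
      (Real.log (F θ p.1 * (μ p.2 * b p.2 (v p.1))) - Real.log (P θ p.1 * (A ^ l) (v p.1) p.2) +
        Real.log (∑ q : Ω × S, P θ q.1 * (A ^ l) (v q.1) q.2)) =
      ∑ θ, ∑ ω, P θ ω * (Real.log (F θ ω) - Real.log (P θ ω) + Real.log (∑ ω', P θ ω')) +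
      (EL (pdl A μ c l b0) (fun x y => b y x) - EL (pdl A μ c l b0) (kap A μ l)) := by
    have e1 : ∀ θ, ∑ q : Ω × S, P θ q.1 * (A ^ l) (v q.1) q.2 = ∑ ω, P θ ω := by
      intro θ
      rw [Fintype.sum_prod_type]
      refine Finset.sum_congr rfl fun ω _ => ?_
      dsimp only
      rw [← Finset.mul_sum, h.pow_row, mul_one]
    rw [← hmean, ← hmean, ← Finset.sum_sub_distrib, ← Finset.sum_add_distrib]
    refine Finset.sum_congr rfl fun θ _ => ?_
    rw [e1 θ, Fintype.sum_prod_type, ← Finset.sum_sub_distrib, ← Finset.sum_add_distrib]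
    refine Finset.sum_congr rfl fun ω _ => ?_
    dsimp only
    rcases (hP θ ω).eq_or_lt with h0 | h0
    · simp [← h0]
    have e2 : ∑ x, P θ ω * (A ^ l) (v ω) x *
        (Real.log (F θ ω * (μ x * b x (v ω))) - Real.log (P θ ω * (A ^ l) (v ω) x) +
          Real.log (∑ ω', P θ ω')) =
        ∑ x, (P θ ω * (A ^ l) (v ω) x * (Real.log (F θ ω) - Real.log (P θ ω) +
          Real.log (∑ ω', P θ ω')) +
        (P θ ω * ((A ^ l) (v ω) x * Real.log (b x (v ω))) -
          P θ ω * ((A ^ l) (v ω) x * Real.log (kap A μ l (v ω) x)))) := by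
      refine Finset.sum_congr rfl fun x _ => ?_
      rcases (hA0 (v ω) x).eq_or_lt with hx | hx
      · rw [← hx]; ring
      · have b1 := hb.pos _ _ (pow_pos_symm h hx)
        have b2 := hPF _ _ h0
        have b3 := h.pos x
        unfold kap
        rw [Real.log_mul b2.ne' (mul_pos b3 b1).ne', Real.log_mul b3.ne' b1.ne',
          Real.log_mul h0.ne' hx.ne', Real.log_div hx.ne' b3.ne']
        ring
    rw [e2, Finset.sum_add_distrib, Finset.sum_sub_distrib, ← Finset.sum_mul, ← Finset.mul_sum,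
      ← Finset.mul_sum, ← Finset.mul_sum, h.pow_row, mul_one]
  have hM : ∑ θ, ∑ p : Ω × S, P θ p.1 * (A ^ l) (v p.1) p.2 *
      Real.log (∑ q : Ω × S, G p.1 q.1 * s p.2 q.2 * (F θ q.1 * (μ q.2 * b q.2 (v q.1)))) =
      ∑ θ, ∑ ω, P θ ω * ∑ x, (A ^ l) (v ω) x * Real.log (Φ θ ω x) := by
    refine Finset.sum_congr rfl fun θ _ => ?_
    rw [Fintype.sum_prod_type]
    refine Finset.sum_congr rfl fun ω _ => ?_
    rw [Finset.mul_sum]
    refine Finset.sum_congr rfl fun x _ => ?_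
    simp only [hΦ]
    ring
  rw [hL, hM] at h1
  have h3 := ha.ineq b0
  have h4 := (hb.symm h).ineq b0
  linarith

end Vale.Agent.P050.Mirror
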