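import Vale.Agent.P050.R3.H115.RevNum

/-!
# P050, series-parallel graphs: the mirror inequality

`MI m G` is an inequality for a nonnegative matrix `G` on `Ω` and the weights `m` of `Ω`;
`Mir μ c s`: multiplication by the kernel `s` preserves `MI`.
-/

namespace Vale.Agent.P050.Mirror

open Finset Matrix Vale.Agent.P050.Ears

theorem exists_pos_of_sum {ι : Type*} [Fintype ι] {p : ι → ℝ} (h0 : 0 < ∑ i, p i) :
    ∃ i, 0 < p i := by
  by_contra hcon
  push Not at hcon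
  exact absurd h0 (not_lt.2 (Finset.sum_nonpos fun i _ => hcon i))

/-- Jensen for the logarithm with weights `p` and values `F / p` -/
theorem gibbs {ι : Type*} [Fintype ι] (p F : ι → ℝ) (hp : ∀ i, 0 ≤ p i) (hF : ∀ i, 0 ≤ F i)
    (hpF : ∀ i, 0 < p i → 0 < F i) :
    ∑ i, p i * (Real.log (F i) - Real.log (p i) + Real.log (∑ j, p j)) ≤
      (∑ i, p i) * Real.log (∑ i, F i) := by
  rcases (Finset.sum_nonneg fun i (_ : i ∈ univ) => hp i).eq_or_lt with h0 | h0
  · rw [← h0, zero_mul]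
    have hz : ∀ i, p i = 0 := fun i =>
      (Finset.sum_eq_zero_iff_of_nonneg fun i _ => hp i).1 h0.symm i (mem_univ i)
    simp [hz]
  · have h1 := H257.log_jensen univ p (fun i => F i / p i) (C := ∑ i, p i) (T := ∑ i, F i) rfl
      (fun i _ => hp i) (fun i _ h => div_pos (hpF i h) h) (Finset.sum_le_sum fun i _ => by
        rcases (hp i).eq_or_lt with h | h
        · rw [← h, zero_mul]; exact hF i
        · rw [mul_div_cancel₀ _ h.ne']) h0
    have h2 : ∑ i, p i * (Real.log (F i) - Real.log (p i) + Real.log (∑ j, p j)) =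
        ∑ i, p i * Real.log (F i / p i) + (∑ i, p i) * Real.log (∑ j, p j) := by
      rw [Finset.sum_mul, ← Finset.sum_add_distrib]
      refine Finset.sum_congr rfl fun i _ => ?_
      rcases (hp i).eq_or_lt with h | h
      · rw [← h]; simp
      · rw [Real.log_div (hpF i h).ne' h.ne']; ring
    rw [h2]
    have hT : 0 < ∑ i, F i := by
      obtain ⟨i, hi⟩ := exists_pos_of_sum h0
      exact Finset.sum_pos' (fun i _ => hF i) ⟨i, mem_univ i, hpF i hi⟩
    rw [Real.log_div hT.ne' h0.ne'] at h1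
    linarith

/-- the mirror inequality for the matrix `G` and the weights `m` -/
def MI {Ω : Type} [Fintype Ω] (m : Ω → ℝ) (G : Ω → Ω → ℝ) : Prop :=
  ∀ (Θ : Type) [Fintype Θ] (P F : Θ → Ω → ℝ), (∀ θ ω, 0 ≤ P θ ω) →
    (∀ ω, ∑ θ, P θ ω = m ω) → (∀ θ ω, 0 ≤ F θ ω) → (∀ θ ω, 0 < P θ ω → 0 < F θ ω) →
    ∑ θ, ∑ ω, P θ ω * (Real.log (F θ ω) - Real.log (P θ ω) + Real.log (∑ ω', P θ ω')) ≤
      ∑ θ, ∑ ω, P θ ω * Real.log (∑ ω', G ω ω' * F θ ω')

theorem MI_one {Ω : Type} [Fintype Ω] (m : Ω → ℝ) : MI m (fun _ _ => 1) := by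
  intro Θ _ P F hP _ hF hPF
  refine Finset.sum_le_sum fun θ _ => ?_
  have := gibbs (P θ) (F θ) (hP θ) (hF θ) (hPF θ)
  simpa [Finset.sum_mul] using this

theorem MI_lift {Ω S : Type} [Fintype Ω] [Fintype S] (m : Ω → ℝ) (m' : Ω × S → ℝ)
    (hm : ∀ ω, ∑ x, m' (ω, x) = m ω) (G : Ω → Ω → ℝ) (h : MI m G) :
    MI m' (fun p q => G p.1 q.1) := by
  intro Θ _ P F hP hm' hF hPF
  have h1 := h Θ (fun θ ω => ∑ x, P θ (ω, x)) (fun θ ω => ∑ x, F θ (ω, x))
    (fun θ ω => Finset.sum_nonneg fun x _ => hP θ _)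
    (fun ω => by
      rw [Finset.sum_comm, ← hm ω]
      exact Finset.sum_congr rfl fun x _ => hm' _)
    (fun θ ω => Finset.sum_nonneg fun x _ => hF θ _)
    (fun θ ω h0 => by
      obtain ⟨x, hx⟩ := exists_pos_of_sum h0
      exact Finset.sum_pos' (fun i _ => hF θ _) ⟨x, mem_univ x, hPF θ _ hx⟩)
  refine le_trans ?_ (le_trans h1 (le_of_eq ?_))
  · refine Finset.sum_le_sum fun θ _ => ?_
    rw [Fintype.sum_prod_type]
    refine Finset.sum_le_sum fun ω _ => ?_
    have h2 := gibbs (fun x => P θ (ω, x)) (fun x => F θ (ω, x)) (fun x => hP θ _)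
      (fun x => hF θ _) (fun x => hPF θ _)
    have e1 : ∑ ω', P θ ω' = ∑ ω', ∑ x, P θ (ω', x) := Fintype.sum_prod_type _
    rw [← e1]
    set T := Real.log (∑ ω', P θ ω') with hT
    have e2 : ∑ x, P θ (ω, x) * (Real.log (F θ (ω, x)) - Real.log (P θ (ω, x)) + T) =
        ∑ x, P θ (ω, x) * (Real.log (F θ (ω, x)) - Real.log (P θ (ω, x)) +
          Real.log (∑ x, P θ (ω, x))) + (∑ x, P θ (ω, x)) * (T - Real.log (∑ x, P θ (ω, x))) := by
      rw [Finset.sum_mul, ← Finset.sum_add_distrib]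
      exact Finset.sum_congr rfl fun x _ => by ring
    rw [e2]
    linarith
  · refine Finset.sum_congr rfl fun θ _ => ?_
    rw [Fintype.sum_prod_type]
    refine Finset.sum_congr rfl fun ω _ => ?_
    rw [Finset.sum_mul]
    refine Finset.sum_congr rfl fun x _ => ?_
    rw [Fintype.sum_prod_type]
    simp only [Finset.mul_sum]

/-- multiplication by the kernel `s` preserves the mirror inequality -/
def Mir {S : Type} [Fintype S] [DecidableEq S] (μ : S → ℝ) (c : S → Bool) (s : S → S → ℝ) :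
    Prop :=
  (∀ x y, 0 ≤ s x y) ∧ (∀ x, 0 < s x x) ∧
  ∀ (b : Bool) (Ω : Type) [Fintype Ω] (m : Ω → ℝ) (v : Ω → S) (G : Ω → Ω → ℝ),
    (∀ ω, 0 ≤ m ω) →
    (∀ x, (∑ ω, if v ω = x then m ω else 0) = if c x = b then μ x else 0) →
    (∀ ω ω', 0 ≤ G ω ω') → (∀ ω, 0 < m ω → 0 < G ω ω) → MI m G →
    MI m (fun ω ω' => G ω ω' * s (v ω) (v ω'))

theorem Mir.mul {S : Type} [Fintype S] [DecidableEq S] {μ : S → ℝ} {c : S → Bool}
    {s t : S → S → ℝ} (hs : Mir μ c s) (ht : Mir μ c t) : Mir μ c (fun x y => s x y * t x y) := by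
  refine ⟨fun x y => mul_nonneg (hs.1 x y) (ht.1 x y), fun x => mul_pos (hs.2.1 x) (ht.2.1 x), ?_⟩
  intro b Ω _ m v G hm hv hG hGp h
  have h1 := ht.2.2 b Ω m v (fun ω ω' => G ω ω' * s (v ω) (v ω')) hm hv
    (fun ω ω' => mul_nonneg (hG _ _) (hs.1 _ _)) (fun ω h0 => mul_pos (hGp ω h0) (hs.2.1 _))
    (hs.2.2 b Ω m v G hm hv hG hGp h)
  simpa only [mul_assoc] using h1

/-- sums over the fibres of `v` -/
theorem sum_fibre {S Ω : Type} [Fintype S] [DecidableEq S] [Fintype Ω] {m : Ω → ℝ} {v : Ω → S}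
    {r : S → ℝ} (hv : ∀ x, (∑ ω, if v ω = x then m ω else 0) = r x) (f : S → ℝ) :
    ∑ ω, m ω * f (v ω) = ∑ x, r x * f x := by
  have e : ∀ ω, m ω * f (v ω) = ∑ x, (if v ω = x then m ω else 0) * f x := by
    intro ω
    rw [Finset.sum_eq_single (v ω)]
    · rw [if_pos rfl]
    · intro x _ hx
      rw [if_neg (Ne.symm hx), zero_mul]
    · intro h; exact absurd (mem_univ _) h
  simp_rw [e]
  rw [Finset.sum_comm]
  refine Finset.sum_congr rfl fun x _ => ?_
  rw [← Finset.sum_mul, hv x]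

end Vale.Agent.P050.Mirror
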