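import Vale.Agent.P050.R4.H153.MfDef
import Vale.Agent.P050.R4.H153.Attach
import Vale.Agent.P050.R4.H345.AptDef

/-!
# P050, frames: prisms

Two copies of a frame, with centred parts between the vertices and their copies. Example: the cube
with four parallel edges replaced by paths of the lengths 2, 4, 6, 8.
-/

namespace Vale.Agent.P050.SP

/-- the prism over a frame -/
theorem MFrame.prism {C : SP → ℕ → Prop} {K : SP → Prop} {V : Type} {M : Multiset (V × SP × V)}
    {R : Set (Set V × Multiset (V × ℕ × V))} {B : Set (Blk V)} (h : MFrame C K 0 M R B)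
    (hR : ∀ v : V, ({v}, 0) ∈ R) (Z : Multiset (V × SP)) (hZ : ∀ q ∈ Z, K q.2) :
    ∃ (R' : Set (Set (V ⊕ V) × Multiset ((V ⊕ V) × ℕ × (V ⊕ V)))) (B' : Set (Blk (V ⊕ V))),
      MFrame C K 0 (M.map (pmap .inl) + M.map (pmap .inr) +
        Z.map fun q => (.inl q.1, q.2, .inr q.1)) R' B' := by
  have h1 := h.weak (R' := R) (B' := {(Set.univ, 0, M)}) (fun r hr => ⟨r, hr, .refl r⟩)
    fun b hb => Or.inr hb
  have h2 := h1.mirrorB (N := V) (U := Set.univ) (E' := 0) (Q := M) (g := fun v => v)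
    (ρ := Sum.inr) (Z := Z) rfl (fun p hp => absurd hp (Multiset.notMem_zero p))
    (fun q _ => ⟨Set.mem_univ _, Set.mem_univ _⟩)
    (fun p hp => absurd hp (Multiset.notMem_zero p)) .nil (fun n => ⟨Set.mem_univ _, hR n⟩)
    (fun n => rfl) (fun v hv => absurd rfl (hv v)) hZ
  rw [Multiset.map_zero] at h2
  exact ⟨_, _, h2⟩

theorem att_adj_inl {V : Type} {H : SimpleGraph V} {e : SP} {u v x y : V} (huv : u ≠ v)
    (h : (att H e u v).Adj (.inl x) (.inl y)) :
    H.Adj x y ∨ direct e ∧ ((x = u ∧ y = v) ∨ (x = v ∧ y = u)) := by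
  have key : ∀ x y : V, x ≠ y →
      ((.inl x, .inl y) : (V ⊕ Inn e) × (V ⊕ Inn e)) ∈ edges e (V := V ⊕ Inn e) (.inl u) (.inl v)
        .inr → direct e ∧ ((x = u ∧ y = v) ∨ (x = v ∧ y = u)) := by
    intro x y hxy hp
    obtain ⟨h4, h5⟩ := edges_at e hp
    have e1 : (.inl x : V ⊕ Inn e) = .inl u ∨ (.inl x : V ⊕ Inn e) = .inl v := by
      rcases h4 with h4 | h4 | ⟨i, h4⟩
      · exact Or.inl h4
      · exact Or.inr h4
      · exact absurd h4 (by simp)
    have e2 : (.inl y : V ⊕ Inn e) = .inl u ∨ (.inl y : V ⊕ Inn e) = .inl v := by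
      rcases h5 with h5 | h5 | ⟨i, h5⟩
      · exact Or.inl h5
      · exact Or.inr h5
      · exact absurd h5 (by simp)
    refine ⟨edges_direct e (inj_att huv)
      (mem_ends hp (edges_ne e (inj_att huv) hp) e1 e2), ?_⟩
    rcases e1 with e1 | e1 <;> rcases e2 with e2 | e2
    · exact absurd (Sum.inl_injective (e1.trans e2.symm)) hxy
    · exact Or.inl ⟨Sum.inl_injective e1, Sum.inl_injective e2⟩
    · exact Or.inr ⟨Sum.inl_injective e1, Sum.inl_injective e2⟩
    · exact absurd (Sum.inl_injective (e1.trans e2.symm)) hxy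
  have hxy : x ≠ y := fun e => h.ne (by rw [e])
  rcases att_adj.1 h with h | ⟨_, h | h⟩
  · obtain ⟨u', v', huv, h2, h3⟩ := (map_inl H _ _).1 h
    rw [← Sum.inl_injective h2, ← Sum.inl_injective h3]
    exact Or.inl huv
  · exact Or.inr (key x y hxy h)
  · obtain ⟨h1, h2⟩ := key y x hxy.symm h
    exact Or.inr ⟨h1, by tauto⟩

/-- all parts of a list may be attached -/
theorem MFrG.allL {C : SP → ℕ → Prop} {K : SP → Prop} {V : Type} {H : SimpleGraph V}
    (l : List (V × SP × V)) (h : MFrG C K H l)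
    (h1 : ∀ q ∈ l, q.1 ≠ q.2.2 ∧ simple q.2.1 ∧ ¬ (direct q.2.1 ∧ H.Adj q.1 q.2.2))
    (h2 : l.Pairwise fun q q' => ¬ (direct q.2.1 ∧ direct q'.2.1 ∧
      ((q'.1 = q.1 ∧ q'.2.2 = q.2.2) ∨ (q'.1 = q.2.2 ∧ q'.2.2 = q.1)))) :
    ∃ (V' : Type) (H' : SimpleGraph V'), MFrG C K H' 0 := by
  induction hn : l.length generalizing V with
  | zero =>
    rw [List.length_eq_zero_iff] at hn
    subst hn
    exact ⟨V, H, h⟩
  | succ n ih =>
    obtain _ | ⟨⟨u, e, v⟩, l⟩ := l
    · exact absurd hn (by simp)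
    obtain ⟨g1, g2, g3⟩ := h1 (u, e, v) List.mem_cons_self
    rw [List.pairwise_cons] at h2
    obtain ⟨p1, p2⟩ := h2
    rw [← Multiset.cons_coe] at h
    have h3 := h.att g1 g2 g3
    rw [Multiset.map_coe] at h3
    refine ih (l.map (pmap Sum.inl)) h3 ?_ ?_ (by simpa using hn)
    · intro q hq
      obtain ⟨p, hp, rfl⟩ := List.mem_map.1 hq
      obtain ⟨k1, k2, k3⟩ := h1 p (List.mem_cons_of_mem _ hp)
      refine ⟨fun e => k1 (Sum.inl_injective e), k2, fun ⟨k4, k5⟩ => ?_⟩
      rcases att_adj_inl g1 k5 with k6 | ⟨k6, k7⟩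
      · exact k3 ⟨k4, k6⟩
      · exact p1 p hp ⟨k6, k4, k7⟩
    · rw [List.pairwise_map]
      refine p2.imp fun {q q'} hq h4 => hq ?_
      obtain ⟨h5, h6, h7⟩ := h4
      refine ⟨h5, h6, ?_⟩
      rcases h7 with ⟨h7, h8⟩ | ⟨h7, h8⟩
      · exact Or.inl ⟨Sum.inl_injective h7, Sum.inl_injective h8⟩
      · exact Or.inr ⟨Sum.inl_injective h7, Sum.inl_injective h8⟩

/-! ### the cycle of length four -/

/-- a new edge at `a`, all vertices recorded -/
theorem MFrame.pen_univ {C : SP → ℕ → Prop} {K : SP → Prop} {V : Type}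
    {L E : Multiset (V × ℕ × V)} {M : Multiset (V × SP × V)} {a : V} {d : ℕ}
    (h : MFrame C K L M {(Set.univ, E)} ∅) (hd : 0 < d) :
    MFrame C K ((Sum.inl a, d, Sum.inr ()) ::ₘ L.map (emap .inl)) (M.map (pmap .inl))
      {(Set.univ, (Sum.inl a, d, Sum.inr ()) ::ₘ E.map (emap .inl))} ∅ := by
  refine (h.pen (Set.mem_singleton _) (Set.mem_univ a) hd).weak ?_
    fun b hb => absurd hb (Set.notMem_empty b)
  rintro r' rfl
  refine ⟨_, Or.inr ⟨Set.univ, E, Set.mem_singleton _, Set.mem_univ a, rfl⟩, ?_⟩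
  have h1 : (Sum.inl '' (Set.univ : Set V) ∪ {Sum.inr ()} : Set (V ⊕ Unit)) = Set.univ := by
    ext x
    rcases x with x | x <;> simp
  rw [h1]
  exact .refl _

theorem edge_der {V : Type} {u v : V} {d : ℕ} (h : u ≠ v) :
    TDer (({u, v} : Set V), {(u, d, v)}) ({u}, 0) := by
  have h1 : TDer (({u, v} : Set V), (u, d, v) ::ₘ 0) ({u, v} \ {v}, 0) :=
    .prune h fun p hp => absurd hp (Multiset.notMem_zero p)
  have h2 : ({u, v} \ {v} : Set V) = {u} := by
    ext x
    simp only [Set.mem_sdiff, Set.mem_insert_iff, Set.mem_singleton_iff]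
    constructor
    · rintro ⟨h3 | h3, h4⟩
      · exact h3
      · exact absurd h3 h4
    · rintro rfl
      exact ⟨.inl rfl, h⟩
  rw [h2] at h1
  exact h1

theorem edge_der' {V : Type} {u v : V} {d : ℕ} (h : u ≠ v) :
    TDer (({u, v} : Set V), {(u, d, v)}) ({v}, 0) := by
  have h1 : TDer (({u, v} : Set V), (u, d, v) ::ₘ 0) ({u, v}, (v, d, u) ::ₘ 0) := .flip
  have h2 := edge_der (d := d) h.symm
  have h3 : ({v, u} : Set V) = {u, v} := Set.pair_comm v u
  rw [h3] at h2
  exact h1.trans h2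

/-- the first edge of a path with two edges -/
theorem path_der {V : Type} {x a b : V} {d d' : ℕ} (hb : x ≠ b) (hab : a ≠ b) :
    TDer (({x, a, b} : Set V), (x, d', b) ::ₘ {(x, d, a)}) ({x, a}, {(x, d, a)}) := by
  have h1 : TDer (({x, a, b} : Set V), (x, d', b) ::ₘ {(x, d, a)})
      ({x, a, b} \ {b}, {(x, d, a)}) := .prune hb fun p hp => by
    rw [Multiset.mem_singleton] at hp
    subst hp
    exact ⟨hb, hab⟩
  have h2 : ({x, a, b} \ {b} : Set V) = {x, a} := by
    ext y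
    simp only [Set.mem_sdiff, Set.mem_insert_iff, Set.mem_singleton_iff]
    constructor
    · rintro ⟨h | h | h, h2⟩
      · exact .inl h
      · exact .inr h
      · exact absurd h h2
    · rintro (rfl | rfl)
      · exact ⟨.inl rfl, hb⟩
      · exact ⟨.inr (.inl rfl), hab⟩
  rw [h2] at h1
  exact h1

/-- the second edge -/
theorem path_der' {V : Type} {x a b : V} {d d' : ℕ} (ha : x ≠ a) (hab : a ≠ b) :
    TDer (({x, a, b} : Set V), (x, d', b) ::ₘ {(x, d, a)}) ({x, b}, {(x, d', b)}) := by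
  have h1 := path_der (d := d') (d' := d) ha hab.symm
  have h2 : ({x, b, a} : Set V) = {x, a, b} := by ext y; simp; tauto
  have h3 : (x, d, a) ::ₘ ({(x, d', b)} : Multiset (V × ℕ × V)) =
      (x, d', b) ::ₘ {(x, d, a)} := by
    rw [← Multiset.cons_zero (x, d', b), ← Multiset.cons_zero (x, d, a), Multiset.cons_swap]
  rw [h2, h3] at h1
  exact h1

namespace Prism

abbrev V3 : Type := (Unit ⊕ Unit) ⊕ Unit
abbrev x : V3 := .inl (.inl ())
abbrev a : V3 := .inl (.inr ())
abbrev b : V3 := .inr ()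

abbrev pE : Multiset (V3 × ℕ × V3) := (x, 1, b) ::ₘ {(x, 1, a)}

/-- the clone of the middle vertex is the new vertex -/
abbrev rho : V3 → V3 ⊕ Unit
  | .inl (.inl ()) => .inr ()
  | v => .inl v

theorem path_frame {C : SP → ℕ → Prop} {K : SP → Prop} :
    MFrame C K pE 0 {(Set.univ, pE)} ∅ := by
  have h1 := (MFrame.point.pen_univ (C := C) (K := K) (a := ()) one_pos).pen_univ
    (a := .inl ()) one_pos
  simpa [emap, pE] using h1

/-- the edges of the cycle -/
abbrev cE : Multiset ((V3 ⊕ Unit) × ℕ × (V3 ⊕ Unit)) :=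
  (.inl x, 1, .inl b) ::ₘ (.inl x, 1, .inl a) ::ₘ (.inr (), 1, .inl b) ::ₘ {(.inr (), 1, .inl a)}

abbrev cR : Set (Set (V3 ⊕ Unit) × Multiset ((V3 ⊕ Unit) × ℕ × (V3 ⊕ Unit))) :=
  {r | (∃ p ∈ cE, r = ({p.1, p.2.2}, {p})) ∨ ∃ v, r = ({v}, 0)}

theorem cycle_frame {C : SP → ℕ → Prop} {K : SP → Prop} :
    MFrame C K cE 0 cR ∅ := by
  have h1 := (path_frame (C := C) (K := K)).clone (N := Unit) (g := fun _ => x) (ρ := rho)
    (Set.mem_singleton _) (fun p _ => ⟨Set.mem_univ _, Set.mem_univ _⟩) (fun n => rfl)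
    (by
      rintro ((v | v) | v) hv
      · exact absurd rfl (hv ())
      · rfl
      · rfl)
  have hL : pE.map (emap (Sum.inl : V3 → V3 ⊕ Unit)) + pE.map (emap rho) = cE := rfl
  rw [hL, Multiset.map_zero] at h1
  refine h1.weak ?_ fun b hb => absurd hb (Set.notMem_empty b)
  -- the two paths
  have r1 : (({.inl x, .inl a, .inl b} : Set (V3 ⊕ Unit)),
      (.inl x, 1, .inl b) ::ₘ ({(.inl x, 1, .inl a)} : Multiset ((V3 ⊕ Unit) × ℕ × (V3 ⊕ Unit))))
      ∈ cloneT {(Set.univ, pE)} (fun _ : Unit => x) rho pE := by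
    refine Or.inl ⟨_, Set.mem_singleton _, Prod.ext ?_ ?_⟩
    · change _ = Sum.inl '' (Set.univ : Set V3)
      ext y
      rcases y with ((y | y) | y) | y <;> simp
    · change _ = pE.map (emap Sum.inl)
      simp [emap, pE]
  have r2 : (({.inr (), .inl a, .inl b} : Set (V3 ⊕ Unit)),
      (.inr (), 1, .inl b) ::ₘ ({(.inr (), 1, .inl a)} : Multiset ((V3 ⊕ Unit) × ℕ × (V3 ⊕ Unit))))
      ∈ cloneT {(Set.univ, pE)} (fun _ : Unit => x) rho pE := by
    refine Or.inr ⟨Set.univ, 0, by simp, fun p _ => ⟨Set.mem_univ _, Set.mem_univ _⟩,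
      fun p hp => absurd hp (Multiset.notMem_zero p), Prod.ext ?_ ?_⟩
    · change _ = rho '' (Set.univ : Set V3)
      ext y
      constructor
      · rintro (rfl | rfl | rfl)
        · exact ⟨x, Set.mem_univ _, rfl⟩
        · exact ⟨a, Set.mem_univ _, rfl⟩
        · exact ⟨b, Set.mem_univ _, rfl⟩
      · rintro ⟨((v | v) | v), _, rfl⟩ <;> simp
    · change _ = (pE + 0).map (emap rho)
      simp [emap, pE]
  rintro r (⟨p, hp, rfl⟩ | ⟨v, rfl⟩)
  · simp only [cE, Multiset.mem_cons, Multiset.mem_singleton] at hp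
    rcases hp with rfl | rfl | rfl | rfl
    · exact ⟨_, r1, path_der' (by simp) (by simp)⟩
    · exact ⟨_, r1, path_der (by simp) (by simp)⟩
    · exact ⟨_, r2, path_der' (by simp) (by simp)⟩
    · exact ⟨_, r2, path_der (by simp) (by simp)⟩
  · rcases v with ((v | v) | v) | v
    · exact ⟨_, r1, (path_der (by simp) (by simp)).trans (edge_der (by simp))⟩
    · exact ⟨_, r1, (path_der (by simp) (by simp)).trans (edge_der' (by simp))⟩
    · exact ⟨_, r1, (path_der' (by simp) (by simp)).trans (edge_der' (by simp))⟩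
    · exact ⟨_, r2, (path_der (by simp) (by simp)).trans (edge_der (by simp))⟩

/-- the parts of the cycle -/
abbrev cM : Multiset ((V3 ⊕ Unit) × SP × (V3 ⊕ Unit)) :=
  (.inr (), .edge, .inl a) ::ₘ (.inr (), .edge, .inl b) ::ₘ (.inl x, .edge, .inl a) ::ₘ
    {(.inl x, .edge, .inl b)}

theorem cycle_parts {C : SP → ℕ → Prop} {K : SP → Prop} (hC : C .edge 1) :
    MFrame C K 0 cM cR ∅ := by
  have hr : ∀ p ∈ cE, ({p.1, p.2.2}, {p}) ∈ cR := fun p hp => Or.inl ⟨p, hp, rfl⟩
  have h1 := (cycle_frame (C := C) (K := K)).real (e := .edge)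
    (hr (.inl x, 1, .inl b) (by simp)) (by simp) hC
  have h2 := h1.real (e := .edge) (hr (.inl x, 1, .inl a) (by simp)) (by simp) hC
  have h3 := h2.real (e := .edge) (hr (.inr (), 1, .inl b) (by simp)) (by simp) hC
  exact h3.real (e := .edge) (L := 0) (hr (.inr (), 1, .inl a) (by simp)) (by simp) hC

theorem cR_one (v : V3 ⊕ Unit) : (({v} : Set (V3 ⊕ Unit)), 0) ∈ cR := Or.inr ⟨v, rfl⟩

/-- the vertices of the cycle -/
abbrev V4 : Type := V3 ⊕ Unit

/-- the parts of the cube whose edges in one direction are replaced by the parts `z i` -/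
abbrev cubeL (z : Fin 4 → SP) : List ((V4 ⊕ V4) × SP × (V4 ⊕ V4)) :=
  [(.inl (.inr ()), .edge, .inl (.inl a)), (.inl (.inr ()), .edge, .inl (.inl b)),
    (.inl (.inl x), .edge, .inl (.inl a)), (.inl (.inl x), .edge, .inl (.inl b)),
    (.inr (.inr ()), .edge, .inr (.inl a)), (.inr (.inr ()), .edge, .inr (.inl b)),
    (.inr (.inl x), .edge, .inr (.inl a)), (.inr (.inl x), .edge, .inr (.inl b)),
    (.inl (.inr ()), z 0, .inr (.inr ())), (.inl (.inl a), z 1, .inr (.inl a)),
    (.inl (.inl x), z 2, .inr (.inl x)), (.inl (.inl b), z 3, .inr (.inl b))]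

/-- the parts between the vertices of the cycle and their copies -/
abbrev cZ (z : Fin 4 → SP) : Multiset (V4 × SP) :=
  (Sum.inr (), z 0) ::ₘ (Sum.inl a, z 1) ::ₘ (Sum.inl x, z 2) ::ₘ {(Sum.inl b, z 3)}

theorem cube_frame {C : SP → ℕ → Prop} {K : SP → Prop} (hC : C .edge 1) {z : Fin 4 → SP}
    (hz : ∀ i, K (z i)) : ∃ R B, MFrame C K (V := V4 ⊕ V4) 0 (cubeL z) R B := by
  obtain ⟨R, B, h⟩ := (cycle_parts (K := K) hC).prism cR_one (cZ z) (by
    intro q hq
    simp only [cZ, Multiset.mem_cons, Multiset.mem_singleton] at hq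
    rcases hq with rfl | rfl | rfl | rfl <;> exact hz _)
  exact ⟨R, B, h⟩

/-- The cube, its edges in one direction replaced by arbitrary centred parts, e.g. by paths of the
lengths 2, 4, 6, 8. -/
theorem cube_graph {C : SP → ℕ → Prop} {K : SP → Prop} (hC : C .edge 1) {z : Fin 4 → SP}
    (hz : ∀ i, K (z i)) (hs : ∀ i, simple (z i)) (hd : ∀ i, ¬ direct (z i)) :
    ∃ (V' : Type) (H' : SimpleGraph V'), MFrG C K H' 0 := by
  obtain ⟨R, B, h⟩ := cube_frame hC hz
  refine MFrG.allL _ (.frame h) ?_ ?_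
  · intro q hq
    simp only [cubeL, List.mem_cons, List.not_mem_nil, or_false] at hq
    rcases hq with rfl | rfl | rfl | rfl | rfl | rfl | rfl | rfl | rfl | rfl | rfl | rfl <;>
      first
        | exact ⟨by simp, trivial, fun h => h.2.elim⟩
        | exact ⟨by simp, hs _, fun h => h.2.elim⟩
  · simp [cubeL, direct, hd]

/-- the path with `n + 1` edges -/
def pth : ℕ → SP
  | 0 => .edge
  | n + 1 => .ser (pth n) .edge

theorem pth_len (n : ℕ) : len (pth n) = n + 1 := by
  induction n with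
  | zero => rfl
  | succ n ih =>
    change len (pth n) + 1 = _
    rw [ih]

theorem pth_simple (n : ℕ) : simple (pth n) := by
  induction n with
  | zero => trivial
  | succ n ih => exact ⟨ih, trivial⟩

theorem pth_tight (n : ℕ) : Apt (pth n) (.dist (len (pth n))) := by
  induction n with
  | zero => exact .edge
  | succ n ih =>
    have h1 : len (pth (n + 1)) = len (pth n) + 1 := rfl
    refine .polyR (p := 1) (q := 0) ih (.side (.bentL .edge)) ?_
    rw [h1, add_zero]

/-- The cube with four parallel edges replaced by paths of the lengths 2, 4, 6, 8. -/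
theorem cube_2468 : ∃ (V' : Type) (H' : SimpleGraph V'),
    MFrG (fun e d => Apt e (.dist d)) (fun e => Apt e .cen) H' 0 :=
  cube_graph (z := fun i => .ser (pth i) (pth i)) .edge
    (fun i => .cmid (pth_tight i) (pth_tight i) rfl) (fun i => ⟨pth_simple i, pth_simple i⟩)
    fun i h => h

end Prism

end Vale.Agent.P050.SP
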