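import Vale.Agent.P050.R4.H345.Bent

/-!
# P050, series-parallel graphs: sides and loads of polygons

`SD A μ c b a n F`, `LD A μ c b a n F`: the kernel `F` between the two bridges from `u` to `z` of
length `n`, at distances `b` and `a` from `z`.
-/

namespace Vale.Agent.P050.SP

open Finset Matrix Vale.Agent.P050.Ears Vale.Agent.P050.Mirror

variable {S : Type} [Fintype S] [DecidableEq S]

/-- the kernel of a side over the point opposite to a corner -/
def SD (A : Matrix S S ℝ) (μ : S → ℝ) (c : S → Bool) (b a n : ℕ) (F : S → S → ℝ) : Prop :=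
  ∀ (k d : ℕ) (t : Bool), k + b = n → d + a = n →
    ∑ u, (if c u = t then μ u else 0) * QB A μ b a (fun w => (A ^ k) u w)
        (fun v => (A ^ d) u v) ≤
      ∑ u, (if c u = t then μ u else 0) * EL (lam A b a (fun w => (A ^ k) u w)
        (fun v => (A ^ d) u v)) F

/-- the kernel of a load over the point opposite to a corner -/
def LD (A : Matrix S S ℝ) (μ : S → ℝ) (c : S → Bool) (b a n : ℕ) (F : S → S → ℝ) : Prop :=
  ∀ (k d : ℕ) (t : Bool), k + b = n → d + a = n →
    0 ≤ ∑ u, (if c u = t then μ u else 0) * EL (lam A b a (fun w => (A ^ k) u w)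
      (fun v => (A ^ d) u v)) F

variable {A : Matrix S S ℝ} {μ : S → ℝ} {c : S → Bool} (h : Rev A μ c)

include h

theorem fam_lam_swap {b a k d : ℕ} (hT : k + b = d + a) (u : S) (F : S → S → ℝ) :
    EL (lam A a b (fun w => (A ^ d) u w) (fun v => (A ^ k) u v)) (fun x y => F y x) =
      EL (lam A b a (fun w => (A ^ k) u w) (fun v => (A ^ d) u v)) F := by
  rw [(cmp_walk (A := A) (μ := μ) (c := c) h hT u).lam_swap]
  exact EL_swap (lam A b a (fun w => (A ^ k) u w) (fun v => (A ^ d) u v)) F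

theorem SD.symm {b a n : ℕ} {F : S → S → ℝ} (hF : SD A μ c b a n F) :
    SD A μ c a b n (fun x y => F y x) := by
  intro d k t hd hk
  have h1 := hF k d t hk hd
  have hT : k + b = d + a := by omega
  simp only [fam_lam_swap h hT, (cmp_walk (A := A) (μ := μ) (c := c) h hT _).QB_swap]
  exact h1

theorem LD.symm {b a n : ℕ} {F : S → S → ℝ} (hF : LD A μ c b a n F) :
    LD A μ c a b n (fun x y => F y x) := by
  intro d k t hd hk
  have h1 := hF k d t hk hd
  have hT : k + b = d + a := by omega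
  simp only [fam_lam_swap h hT]
  exact h1

theorem FQ.sd {b a n : ℕ} {F : S → S → ℝ} (hF : FQ A μ c b a F) : SD A μ c b a n F := by
  intro k d t hk hd
  exact hF.bridge h (by omega) t

theorem QB_fam_nonneg {b a k d : ℕ} (hT : k + b = d + a) (t : Bool) :
    0 ≤ ∑ u, (if c u = t then μ u else 0) * QB A μ b a (fun w => (A ^ k) u w)
      (fun v => (A ^ d) u v) :=
  Finset.sum_nonneg fun u _ => mul_nonneg (fam_nonneg h _ u)
    (QB_nonneg h (cmp_walk (A := A) (μ := μ) (c := c) h hT u))

theorem SD.ld {b a n : ℕ} {F : S → S → ℝ} (hF : SD A μ c b a n F) : LD A μ c b a n F := by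
  intro k d t hk hd
  exact (QB_fam_nonneg h (by omega) t).trans (hF k d t hk hd)

/-- a kernel over the other bend -/
theorem FQ.ld_opp {k d b a : ℕ} {F : S → S → ℝ} (hF : FQ A μ c k d F) (hT : k + b = d + a) :
    LD A μ c b a (k + b) F := by
  intro k' d' t hk hd
  obtain rfl : k' = k := by omega
  obtain rfl : d' = d := by omega
  have e1 := EL_bridge (A := A) (μ := μ) (c := c) h hT t F
  have e2 := hF.bridge h (by omega : b + k' = a + d') (sh t (k' + b))
  have e3 := QB_fam_nonneg (b := k') (a := d') (k := b) (d := a) h (by omega) (sh t (k' + b))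
  simp only [ite_mul, zero_mul] at e2 e3 ⊢
  rw [e1]
  exact e3.trans e2

theorem fam_EL_mul {k d b a : ℕ} {F G : S → S → ℝ} (hT : k + b = d + a)
    (pF : PosK A (a + b) F) (pG : PosK A (a + b) G) (u : S) :
    EL (lam A b a (fun w => (A ^ k) u w) (fun v => (A ^ d) u v)) (fun x y => F x y * G x y) =
      EL (lam A b a (fun w => (A ^ k) u w) (fun v => (A ^ d) u v)) F +
      EL (lam A b a (fun w => (A ^ k) u w) (fun v => (A ^ d) u v)) G := by
  have hc := cmp_walk (A := A) (μ := μ) (c := c) h hT u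
  exact EL_mul (lam_nonneg h hc) (fun x y hp => pF x y (lam_pos h hc hp).2.2)
    (fun x y hp => pG x y (lam_pos h hc hp).2.2)

theorem SD.par {b a n : ℕ} {F G : S → S → ℝ} (hF : SD A μ c b a n F) (hG : LD A μ c b a n G)
    (pF : PosK A (a + b) F) (pG : PosK A (a + b) G) :
    SD A μ c b a n (fun x y => F x y * G x y) := by
  intro k d t hk hd
  have h1 := hF k d t hk hd
  have h2 := hG k d t hk hd
  simp only [fam_EL_mul h (show k + b = d + a by omega) pF pG, mul_add, Finset.sum_add_distrib]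
  linarith

theorem LD.par {b a n : ℕ} {F G : S → S → ℝ} (hF : LD A μ c b a n F) (hG : LD A μ c b a n G)
    (pF : PosK A (a + b) F) (pG : PosK A (a + b) G) :
    LD A μ c b a n (fun x y => F x y * G x y) := by
  intro k d t hk hd
  have h1 := hF k d t hk hd
  have h2 := hG k d t hk hd
  simp only [fam_EL_mul h (show k + b = d + a by omega) pF pG, mul_add, Finset.sum_add_distrib]
  linarith

/-- a tight gadget hung at the first terminal, the increment -/
theorem hang_fam {l b a k d : ℕ} {G : S → S → ℝ} (hT : k + b = d + a)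
    (hG : GoodK A μ c l l G) (pG : PosK A l G) (nG : ∀ x y, 0 ≤ G x y) (t : Bool) :
    0 ≤ ∑ u, (if c u = t then μ u else 0) * EL (lam A b a (fun w => (A ^ k) u w)
      (fun v => (A ^ d) u v)) (fun x _ => ∑ w, μ w * G x w) := by
  have e : ∀ u, EL (lam A b a (fun w => (A ^ k) u w) (fun v => (A ^ d) u v))
      (fun x _ => ∑ w, μ w * G x w) = ∑ x, (A ^ k) u x * Real.log (∑ w, μ w * G x w) := by
    intro u
    unfold EL
    refine Finset.sum_congr rfl fun x _ => ?_
    rw [← Finset.sum_mul, lam_left h (cmp_walk (A := A) (μ := μ) (c := c) h hT u)]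
  simp only [e, Finset.mul_sum]
  rw [Finset.sum_comm]
  have h1 := out_mean h hG pG nG (sh t k)
  refine h1.trans (le_of_eq ?_)
  refine Finset.sum_congr rfl fun x _ => ?_
  rw [← fam_walk h k t x, Finset.sum_mul]
  exact Finset.sum_congr rfl fun u _ => by ring

theorem LD.hang_aux {l b a n : ℕ} {F G : S → S → ℝ} (pF : PosK A (a + b) F)
    (hG : GoodK A μ c l l G) (pG : PosK A l G) (nG : ∀ x y, 0 ≤ G x y)
    (k d : ℕ) (t : Bool) (hk : k + b = n) (hd : d + a = n) :
    ∑ u, (if c u = t then μ u else 0) * EL (lam A b a (fun w => (A ^ k) u w)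
      (fun v => (A ^ d) u v)) F ≤
    ∑ u, (if c u = t then μ u else 0) * EL (lam A b a (fun w => (A ^ k) u w)
      (fun v => (A ^ d) u v)) (fun x y => F x y * ∑ w, μ w * G x w) := by
  have hT : k + b = d + a := by omega
  have h1 := hang_fam (b := b) (a := a) (k := k) (d := d) h hT hG pG nG t
  have p2 : PosK A (a + b) (fun x (_ : S) => ∑ w, μ w * G x w) :=
    fun x _ _ => out_pos h pG nG x
  simp only [fam_EL_mul h hT pF p2, mul_add, Finset.sum_add_distrib]
  linarith

theorem LD.hang {l b a n : ℕ} {F G : S → S → ℝ} (hF : LD A μ c b a n F)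
    (pF : PosK A (a + b) F) (hG : GoodK A μ c l l G) (pG : PosK A l G)
    (nG : ∀ x y, 0 ≤ G x y) : LD A μ c b a n (fun x y => F x y * ∑ w, μ w * G x w) :=
  fun k d t hk hd => (hF k d t hk hd).trans (LD.hang_aux h pF hG pG nG k d t hk hd)

theorem SD.hang {l b a n : ℕ} {F G : S → S → ℝ} (hF : SD A μ c b a n F)
    (pF : PosK A (a + b) F) (hG : GoodK A μ c l l G) (pG : PosK A l G)
    (nG : ∀ x y, 0 ≤ G x y) : SD A μ c b a n (fun x y => F x y * ∑ w, μ w * G x w) :=
  fun k d t hk hd => (hF k d t hk hd).trans (LD.hang_aux h pF hG pG nG k d t hk hd)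

theorem LD.hangR {l b a n : ℕ} {F G : S → S → ℝ} (hF : LD A μ c b a n F)
    (pF : PosK A (a + b) F) (hG : GoodK A μ c l l G) (pG : PosK A l G)
    (nG : ∀ x y, 0 ≤ G x y) : LD A μ c b a n (fun x y => F x y * ∑ w, μ w * G y w) :=
  ((hF.symm h).hang h (by rw [add_comm]; exact PosK.swap h pF) hG pG nG).symm h

theorem SD.hangR {l b a n : ℕ} {F G : S → S → ℝ} (hF : SD A μ c b a n F)
    (pF : PosK A (a + b) F) (hG : GoodK A μ c l l G) (pG : PosK A l G)
    (nG : ∀ x y, 0 ≤ G x y) : SD A μ c b a n (fun x y => F x y * ∑ w, μ w * G y w) :=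
  ((hF.symm h).hang h (by rw [add_comm]; exact PosK.swap h pF) hG pG nG).symm h

omit [DecidableEq S] in
theorem fam_pow [DecidableEq S] (k l : ℕ) (u : S) :
    (fun w => ∑ x, (A ^ k) u x * (A ^ l) x w) = fun w => (A ^ (k + l)) u w := by
  funext w
  rw [pow_add, Matrix.mul_apply]

/-- a chain of a tight kernel and a side -/
theorem SD.serR {l b a n : ℕ} {F G : S → S → ℝ} (hF : GoodK A μ c l l F)
    (hG : SD A μ c b a n G) (pF : PosK A l F) (pG : PosK A (a + b) G)
    (nF : ∀ x y, 0 ≤ F x y) (nG : ∀ x y, 0 ≤ G x y) :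
    SD A μ c (l + b) a n (serK μ F G) := by
  intro k d t hk hd
  have hT : k + (l + b) = d + a := by omega
  have ho := fun u => ser_one h pF pG nF nG (fun w => (A ^ k) u w) (fun v => (A ^ d) u v)
    (cmp_walk (A := A) (μ := μ) (c := c) h hT u)
  simp only [fam_pow h] at ho
  have h1 := hF.fq h S (fun u w => (if c u = t then μ u else 0) * (A ^ k) u w)
    (fun u w => (if c u = t then μ u else 0) * (A ^ (k + l)) u w)
    (fun u => (ho u).1.smul (fam_nonneg h t u)) ⟨sh t k, fam_walk h k t⟩
    ⟨sh t (k + l), fam_walk h (k + l) t⟩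
  simp only [QB_smul h (ho _).1, lam_smul, EL_smul] at h1
  have h2 := hG (k + l) d t (by omega) hd
  have h3 := Finset.sum_le_sum fun u (_ : u ∈ univ) =>
    mul_le_mul_of_nonneg_left (ho u).2.2 (fam_nonneg (A := A) (μ := μ) (c := c) h t u)
  simp only [mul_add, mul_sub, Finset.sum_add_distrib, Finset.sum_sub_distrib] at h3
  linarith

theorem SD.serL {l b a n : ℕ} {F G : S → S → ℝ} (hF : SD A μ c b a n F)
    (hG : GoodK A μ c l l G) (pF : PosK A (a + b) F) (pG : PosK A l G)
    (nF : ∀ x y, 0 ≤ F x y) (nG : ∀ x y, 0 ≤ G x y) :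
    SD A μ c b (l + a) n (serK μ F G) := by
  have h1 := (SD.serR h (hG.symm h) (hF.symm h) (PosK.swap h pG)
    (by rw [add_comm]; exact PosK.swap h pF) (fun x y => nG y x) (fun x y => nF y x)).symm h
  rw [serK_swap] at h1
  exact h1

/-- polygons -/
theorem GoodK.serS {l1 d a b : ℕ} {F G : S → S → ℝ} (hF : GoodK A μ c l1 l1 F)
    (hG : SD A μ c b a (l1 + b) G) (hT : l1 + b = d + a) (pF : PosK A l1 F)
    (pG : PosK A (a + b) G) (nF : ∀ x y, 0 ≤ F x y) (nG : ∀ x y, 0 ≤ G x y) :
    GoodK A μ c (l1 + (a + b)) d (serK μ F G) := by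
  intro t
  have hF1 := hF t
  rw [if_pos rfl, EL_pd h, J_eq h] at hF1
  have hB := hG l1 d t rfl hT.symm
  rw [EL_pd h]
  have key : (∑ x, if c x = t then μ x * ∑ y, (A ^ l1) x y * Real.log (F x y) else 0) -
      (∑ x, if c x = t then μ x * Dd A μ l1 x else 0) +
      (∑ x, if c x = t then μ x * Dd A μ (l1 + b) x else 0) +
      (∑ u, (if c u = t then μ u else 0) * EL (lam A b a (fun w => (A ^ l1) u w)
        (fun v => (A ^ d) u v)) G -
       ∑ u, (if c u = t then μ u else 0) * QB A μ b a (fun w => (A ^ l1) u w)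
        (fun v => (A ^ d) u v)) ≤
      ∑ x, if c x = t then μ x * ∑ y, (A ^ d) x y * Real.log (serK μ F G x y) else 0 := by
    rw [← Finset.sum_sub_distrib, ← Finset.sum_sub_distrib, ← Finset.sum_add_distrib,
      ← Finset.sum_add_distrib]
    refine Finset.sum_le_sum fun x _ => ?_
    split_ifs
    · have := mul_le_mul_of_nonneg_left (ser_pt h pF pG nF nG rfl hT x) (h.pos x).le
      linarith
    · simp
  have h4 : (if d = l1 + (a + b) then J A μ c d t else 0) ≤
      ∑ x, if c x = t then μ x * Dd A μ (l1 + b) x else 0 := by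
    split_ifs with he
    · rw [J_eq h, show l1 + b = d by omega]
    · refine Finset.sum_nonneg fun x _ => ?_
      split_ifs
      · exact mul_nonneg (h.pos x).le (Dd_nonneg h _ x)
      · exact le_rfl
  linarith

theorem GoodK.serS' {l2 d a b : ℕ} {F G : S → S → ℝ} (hF : SD A μ c b a (l2 + a) F)
    (hG : GoodK A μ c l2 l2 G) (hT : l2 + a = d + b) (pF : PosK A (a + b) F)
    (pG : PosK A l2 G) (nF : ∀ x y, 0 ≤ F x y) (nG : ∀ x y, 0 ≤ G x y) :
    GoodK A μ c (l2 + (a + b)) d (serK μ F G) := by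
  have h1 := (GoodK.serS h (hG.symm h) (hF.symm h) hT (PosK.swap h pG)
    (by rw [add_comm]; exact PosK.swap h pF) (fun x y => nG y x) (fun x y => nF y x)).symm h
  rw [serK_swap, add_comm b a] at h1
  exact h1

/-- polygons with two sides -/
theorem SD.fold {d a b : ℕ} {G : S → S → ℝ} (hG : SD A μ c b a b G) (hT : b = d + a)
    (pG : PosK A (a + b) G) (nG : ∀ x y, 0 ≤ G x y) : GoodK A μ c (a + b) d G := by
  have h0 : GoodK A μ c 0 0 (idk μ) := by
    intro t
    rw [if_pos rfl]
    unfold J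
    rw [kap_zero]
  have p0 : PosK A 0 (idk μ) := by
    intro x y hxy
    rw [pow_zero, Matrix.one_apply] at hxy
    unfold idk
    split_ifs with h1
    · exact div_pos one_pos (h.pos x)
    · rw [if_neg h1] at hxy; exact absurd hxy (lt_irrefl _)
  have n0 : ∀ x y, 0 ≤ idk μ x y := by
    intro x y
    unfold idk
    split_ifs
    · exact (div_pos one_pos (h.pos x)).le
    · exact le_rfl
  have h1 := GoodK.serS h h0 (by rw [zero_add]; exact hG) (by omega : 0 + b = d + a) p0 pG n0 nG
  rw [serK_idk h, zero_add] at h1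
  exact h1

theorem SD.fold' {d a b : ℕ} {G : S → S → ℝ} (hG : SD A μ c b a a G) (hT : a = d + b)
    (pG : PosK A (a + b) G) (nG : ∀ x y, 0 ≤ G x y) : GoodK A μ c (a + b) d G := by
  have h1 := (SD.fold h (hG.symm h) hT (by rw [add_comm]; exact PosK.swap h pG)
    (fun x y => nG y x)).symm h
  rw [add_comm] at h1
  exact h1

end Vale.Agent.P050.SP
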