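import Vale.Agent.P050.R4.H345.Star
import Vale.Agent.P050.R4.H987.Star3

/-!
# P050, series-parallel graphs: longer loads over the bend of a polygon
-/

namespace Vale.Agent.P050.SP

open Finset Matrix Vale.Agent.P050.Ears Vale.Agent.P050.Mirror

variable {S : Type} [Fintype S] [DecidableEq S]
variable {A : Matrix S S ℝ} {μ : S → ℝ} {c : S → Bool} (h : Rev A μ c)

include h

/-- the law of the second point given `z` -/
theorem RR_left {b a l1 d : ℕ} (hT : l1 + b = d + a) (u y : S) (hy : (A ^ d) u y ≠ 0) :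
    ∑ x, (A ^ l1) u x * RR A b a (l1 + b) u x y = 1 := by
  have h1 := lam_right h (cmp_walk (A := A) (μ := μ) (c := c) h hT u) y
  simp only [lam_walk] at h1
  have h2 : (A ^ d) u y * ∑ x, (A ^ l1) u x * RR A b a (l1 + b) u x y = (A ^ d) u y * 1 := by
    rw [mul_one, Finset.mul_sum]
    refine Eq.trans ?_ h1
    exact Finset.sum_congr rfl fun x _ => by ring
  exact mul_left_cancel₀ hy h2

/-- Two bridges from `z` to a common end; the second point `r` is moved by `s` steps towards `z`,
along a tight kernel. -/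
theorem ext_gen {b a s l1 e : ℕ} {F G : S → S → ℝ} (hT : b + l1 = (a + s) + e)
    (pF : PosK A (b + (a + s)) F) (pG : PosK A s G) (nF : ∀ x y, 0 ≤ F x y)
    (nG : ∀ x y, 0 ≤ G x y) (z : S) :
    EL (lam A l1 e (fun w => (A ^ b) z w) (fun v => (A ^ (a + s)) z v)) F -
      (∑ x, ∑ y, (A ^ b) z x * (A ^ (a + s)) z y *
        (RR A l1 e (b + l1) z x y * Real.log (RR A l1 e (b + l1) z x y))) +
      (∑ x, ∑ y, (A ^ b) z x * (A ^ a) z y *
        (RR A l1 (e + s) (b + l1) z x y * Real.log (RR A l1 (e + s) (b + l1) z x y))) +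
      ∑ y, (A ^ a) z y * ∑ r, (A ^ s) y r * (Real.log (G r y) - Real.log (kap A μ s y r)) ≤
      EL (lam A l1 (e + s) (fun w => (A ^ b) z w) (fun v => (A ^ a) z v)) (serK μ F G) := by
  have hR := RR_nonneg h (A := A)
  -- for each pair of points
  have key : ∀ x y, (A ^ b) z x * (A ^ a) z y *
      (∑ r, (A ^ s) y r * (RR A l1 e (b + l1) z x r *
        ((Real.log (F x r) - Real.log (RR A l1 e (b + l1) z x r)) +
          (Real.log (G r y) - Real.log (kap A μ s y r))))) +
      (A ^ b) z x * (A ^ a) z y * (RR A l1 (e + s) (b + l1) z x y *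
        Real.log (RR A l1 (e + s) (b + l1) z x y)) ≤
      (A ^ b) z x * (A ^ a) z y * (RR A l1 (e + s) (b + l1) z x y *
        Real.log (serK μ F G x y)) := by
    intro x y
    rcases (h.pow_nonneg b z x).eq_or_lt with h1 | h1
    · rw [← h1]; simp
    rcases (h.pow_nonneg a z y).eq_or_lt with h2 | h2
    · rw [← h2]; simp
    have hkp : ∀ r, 0 < (A ^ s) y r → 0 < F x r := by
      intro r h3
      refine pF x r ?_
      rw [pow_add, Matrix.mul_apply]
      refine Finset.sum_pos' (fun w _ => mul_nonneg (h.pow_nonneg _ _ _) (h.pow_nonneg _ _ _))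
        ⟨z, mem_univ z, mul_pos ?_ ?_⟩
      · have h4 := h.pow_rev b x z
        have h5 : 0 < μ x * (A ^ b) x z := by rw [h4]; exact mul_pos (h.pos z) h1
        exact (mul_pos_iff_of_pos_left (h.pos x)).1 h5
      · rw [pow_add, Matrix.mul_apply]
        exact Finset.sum_pos'
          (fun w _ => mul_nonneg (h.pow_nonneg _ _ _) (h.pow_nonneg _ _ _))
          ⟨y, mem_univ y, mul_pos h2 h3⟩
    have hgp : ∀ r, 0 < (A ^ s) y r → 0 < G r y := fun r h3 => PosK.swap h pG y r h3
    have g := gibbs (univ : Finset S) (fun r => (A ^ s) y r * RR A l1 e (b + l1) z x r)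
      (fun r => μ r * F x r * G r y)
      (fun r _ => mul_nonneg (h.pow_nonneg _ _ _) (hR _ _ _ _ _ _))
      (fun r _ => mul_nonneg (mul_nonneg (h.pos r).le (nF _ _)) (nG _ _))
      (fun r _ hp => by
        have h3 : 0 < (A ^ s) y r := by
          refine lt_of_le_of_ne (h.pow_nonneg _ _ _) fun h0 => ?_
          rw [← h0, zero_mul] at hp
          exact lt_irrefl _ hp
        exact mul_pos (mul_pos (h.pos r) (hkp r h3)) (hgp r h3))
    rw [← RR_step] at g
    have e1 : ∑ r, (A ^ s) y r * RR A l1 e (b + l1) z x r *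
        (Real.log (μ r * F x r * G r y) -
          Real.log ((A ^ s) y r * RR A l1 e (b + l1) z x r)) =
        ∑ r, (A ^ s) y r * (RR A l1 e (b + l1) z x r *
        ((Real.log (F x r) - Real.log (RR A l1 e (b + l1) z x r)) +
          (Real.log (G r y) - Real.log (kap A μ s y r)))) := by
      refine Finset.sum_congr rfl fun r _ => ?_
      rcases (h.pow_nonneg s y r).eq_or_lt with h3 | h3
      · rw [← h3]; simp
      by_cases h4 : RR A l1 e (b + l1) z x r = 0
      · rw [h4]; simp
      unfold kap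
      rw [Real.log_mul (mul_pos (h.pos r) (hkp r h3)).ne' (hgp r h3).ne',
        Real.log_mul (h.pos r).ne' (hkp r h3).ne', Real.log_mul h3.ne' h4,
        Real.log_div h3.ne' (h.pos r).ne']
      ring
    rw [e1] at g
    have h6 := mul_le_mul_of_nonneg_left g (mul_pos h1 h2).le
    rw [mul_sub, mul_sub] at h6
    have h7 : serK μ F G x y = ∑ r, μ r * F x r * G r y := rfl
    rw [h7]
    linarith
  have hs := Finset.sum_le_sum fun x (_ : x ∈ univ) =>
    Finset.sum_le_sum fun y (_ : y ∈ univ) => key x y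
  simp only [Finset.sum_add_distrib] at hs
  have e2 : ∀ f : S → S → ℝ, ∑ x, ∑ y, (A ^ b) z x * (A ^ a) z y * (∑ r, (A ^ s) y r * f x r) =
      ∑ x, ∑ r, (A ^ b) z x * (A ^ (a + s)) z r * f x r := by
    intro f
    refine Finset.sum_congr rfl fun x _ => ?_
    simp only [Finset.mul_sum]
    rw [Finset.sum_comm]
    refine Finset.sum_congr rfl fun r _ => ?_
    rw [pow_add, Matrix.mul_apply, Finset.mul_sum, Finset.sum_mul]
    exact Finset.sum_congr rfl fun y _ => by ring
  -- the part of `G`
  have e5 : ∑ x, ∑ y, (A ^ b) z x * (A ^ a) z y * (∑ r, (A ^ s) y r *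
      (RR A l1 e (b + l1) z x r * (Real.log (G r y) - Real.log (kap A μ s y r)))) =
      ∑ y, (A ^ a) z y * ∑ r, (A ^ s) y r * (Real.log (G r y) - Real.log (kap A μ s y r)) := by
    rw [Finset.sum_comm]
    refine Finset.sum_congr rfl fun y _ => ?_
    simp only [Finset.mul_sum]
    rw [Finset.sum_comm]
    refine Finset.sum_congr rfl fun r _ => ?_
    by_cases h0 : (A ^ a) z y * (A ^ s) y r = 0
    · have t1 : ∀ x, (A ^ b) z x * (A ^ a) z y * ((A ^ s) y r * (RR A l1 e (b + l1) z x r *
          (Real.log (G r y) - Real.log (kap A μ s y r)))) = 0 := by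
        intro x
        rw [show (A ^ b) z x * (A ^ a) z y * ((A ^ s) y r * (RR A l1 e (b + l1) z x r *
          (Real.log (G r y) - Real.log (kap A μ s y r)))) = ((A ^ a) z y * (A ^ s) y r) *
          ((A ^ b) z x * (RR A l1 e (b + l1) z x r *
          (Real.log (G r y) - Real.log (kap A μ s y r)))) by ring, h0, zero_mul]
      simp only [t1, Finset.sum_const_zero]
      rw [← mul_assoc, h0, zero_mul]
    · have h1 : (A ^ (a + s)) z r ≠ 0 := by
        have h2 : 0 < (A ^ a) z y * (A ^ s) y r :=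
          lt_of_le_of_ne (mul_nonneg (h.pow_nonneg _ _ _) (h.pow_nonneg _ _ _)) (Ne.symm h0)
        rw [pow_add, Matrix.mul_apply]
        exact (Finset.sum_pos' (f := fun w => (A ^ a) z w * (A ^ s) w r)
          (fun w _ => mul_nonneg (h.pow_nonneg _ _ _) (h.pow_nonneg _ _ _))
          ⟨y, mem_univ y, h2⟩).ne'
      have h3 := RR_left (b := l1) (a := e) (l1 := b) (d := a + s) h hT z r h1
      calc _ = (∑ x, (A ^ b) z x * RR A l1 e (b + l1) z x r) * ((A ^ a) z y * ((A ^ s) y r *
            (Real.log (G r y) - Real.log (kap A μ s y r)))) := by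
            rw [Finset.sum_mul]
            exact Finset.sum_congr rfl fun x _ => by ring
        _ = _ := by rw [h3, one_mul]
  have e4 : ∑ x, ∑ y, (A ^ b) z x * (A ^ a) z y * (∑ r, (A ^ s) y r * (RR A l1 e (b + l1) z x r *
        ((Real.log (F x r) - Real.log (RR A l1 e (b + l1) z x r)) +
          (Real.log (G r y) - Real.log (kap A μ s y r))))) =
      ∑ x, ∑ y, (A ^ b) z x * (A ^ a) z y * (∑ r, (A ^ s) y r * (RR A l1 e (b + l1) z x r *
        (Real.log (F x r) - Real.log (RR A l1 e (b + l1) z x r)))) +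
      ∑ x, ∑ y, (A ^ b) z x * (A ^ a) z y * (∑ r, (A ^ s) y r * (RR A l1 e (b + l1) z x r *
        (Real.log (G r y) - Real.log (kap A μ s y r)))) := by
    rw [← Finset.sum_add_distrib]
    refine Finset.sum_congr rfl fun x _ => ?_
    rw [← Finset.sum_add_distrib]
    refine Finset.sum_congr rfl fun y _ => ?_
    rw [← mul_add, ← Finset.sum_add_distrib]
    congr 1
    exact Finset.sum_congr rfl fun r _ => by ring
  rw [e4, e5, e2 (fun x r => RR A l1 e (b + l1) z x r *
    (Real.log (F x r) - Real.log (RR A l1 e (b + l1) z x r)))] at hs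
  unfold EL
  simp only [lam_walk]
  have e3 : ∑ x, ∑ r, (A ^ b) z x * (A ^ (a + s)) z r * (RR A l1 e (b + l1) z x r *
      (Real.log (F x r) - Real.log (RR A l1 e (b + l1) z x r))) =
      ∑ x, ∑ r, (A ^ b) z x * (A ^ (a + s)) z r * RR A l1 e (b + l1) z x r *
        Real.log (F x r) -
      ∑ x, ∑ r, (A ^ b) z x * (A ^ (a + s)) z r * (RR A l1 e (b + l1) z x r *
        Real.log (RR A l1 e (b + l1) z x r)) := by
    rw [← Finset.sum_sub_distrib]
    refine Finset.sum_congr rfl fun x _ => ?_
    rw [← Finset.sum_sub_distrib]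
    exact Finset.sum_congr rfl fun r _ => by ring
  rw [e3] at hs
  simp only [mul_assoc] at hs ⊢
  linarith

/-- the part of the tight kernel, on the average -/
theorem ext_mean {a s : ℕ} {G : S → S → ℝ} (hG : GoodK A μ c s s G) (pG : PosK A s G)
    (t : Bool) :
    0 ≤ ∑ z, (if c z = t then μ z else 0) * ∑ y, (A ^ a) z y *
      ∑ r, (A ^ s) y r * (Real.log (G r y) - Real.log (kap A μ s y r)) := by
  have h1 := (hG.symm h) (sh t a)
  rw [if_pos rfl, EL_pd h] at h1
  unfold J at h1
  rw [EL_pd h] at h1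
  have h2 : ∑ z, (if c z = t then μ z else 0) * ∑ y, (A ^ a) z y *
      ∑ r, (A ^ s) y r * (Real.log (G r y) - Real.log (kap A μ s y r)) =
      ∑ y, (∑ z, (if c z = t then μ z else 0) * (A ^ a) z y) *
        ∑ r, (A ^ s) y r * (Real.log (G r y) - Real.log (kap A μ s y r)) := by
    simp only [Finset.mul_sum, Finset.sum_mul]
    rw [Finset.sum_comm]
    refine Finset.sum_congr rfl fun y _ => ?_
    rw [Finset.sum_comm]
    refine Finset.sum_congr rfl fun r _ => ?_
    exact Finset.sum_congr rfl fun z _ => by ring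
  rw [h2]
  simp only [fam_walk h]
  have h3 : ∑ y, (if c y = sh t a then μ y else 0) *
        ∑ r, (A ^ s) y r * (Real.log (G r y) - Real.log (kap A μ s y r)) =
      (∑ y, if c y = sh t a then μ y * ∑ r, (A ^ s) y r * Real.log (G r y) else 0) -
      ∑ y, if c y = sh t a then μ y * ∑ r, (A ^ s) y r * Real.log (kap A μ s y r) else 0 := by
    rw [← Finset.sum_sub_distrib]
    refine Finset.sum_congr rfl fun y _ => ?_
    have e1 : ∑ r, (A ^ s) y r * (Real.log (G r y) - Real.log (kap A μ s y r)) =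
        ∑ r, (A ^ s) y r * Real.log (G r y) - ∑ r, (A ^ s) y r * Real.log (kap A μ s y r) := by
      rw [← Finset.sum_sub_distrib]
      exact Finset.sum_congr rfl fun r _ => by ring
    rw [e1]
    split_ifs <;> ring
  rw [h3]
  linarith

/-- **Longer loads.** `F` is a side of length `b + (a + s)`, `G` is tight of length `s`. -/
theorem LD.wideR {b a s n : ℕ} {F G : S → S → ℝ} (hn : n % 2 = 0)
    (hF : SD A μ c b (a + s) n F) (hG : GoodK A μ c s s G) (hle : b + (a + s) ≤ n)
    (pF : PosK A (b + (a + s)) F) (pG : PosK A s G) (nF : ∀ x y, 0 ≤ F x y)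
    (nG : ∀ x y, 0 ≤ G x y) : LD A μ c b a n (serK μ F G) := by
  intro l1 d t hk hd
  obtain ⟨δ, hδ⟩ : ∃ δ, d = b + δ + s := ⟨d - b - s, by omega⟩
  have hT : l1 + b = d + a := by omega
  have hT2 : l1 + b = (b + δ) + (a + s) := by omega
  have hT3 : b + l1 = (a + s) + (b + δ) := by omega
  have ht : sh t (l1 + b) = t := by
    unfold sh
    have : ¬ (l1 + b) % 2 = 1 := by omega
    simp [this]
  have hit : ∀ (u : S) (f : ℝ), (if c u = t then μ u * f else 0) =
      (if c u = t then μ u else 0) * f := by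
    intro u f
    split_ifs <;> simp
  -- seen from the other end
  have b1 := EL_bridge (A := A) (μ := μ) (c := c) h hT t (serK μ F G)
  have b2 := EL_bridge (A := A) (μ := μ) (c := c) h hT2 t F
  rw [ht] at b1 b2
  simp only [hit] at b1 b2
  rw [b1]
  -- the extension step
  have s1 := Finset.sum_le_sum fun z (_ : z ∈ univ) => mul_le_mul_of_nonneg_left
    (ext_gen (l1 := l1) (e := b + δ) h hT3 pF pG nF nG z)
    (fam_nonneg (A := A) (μ := μ) (c := c) h t z)
  simp only [mul_add, mul_sub, Finset.sum_add_distrib, Finset.sum_sub_distrib] at s1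
  have s5 := ext_mean (a := a) h hG pG t
  simp only [mul_sub, Finset.sum_sub_distrib] at s5
  have s6 : 0 ≤ ∑ z, (if c z = t then μ z else 0) * (∑ x, ∑ y, (A ^ b) z x * (A ^ a) z y *
      (RR A l1 (b + δ + s) (b + l1) z x y * Real.log (RR A l1 (b + δ + s) (b + l1) z x y))) :=
    Finset.sum_nonneg fun z _ => mul_nonneg (fam_nonneg h t z)
      (info_nonneg h (A := A) (μ := μ) (c := c) (b := l1) (a := b + δ + s) (l1 := b) (d := a)
        (by omega) z)
  have s7 : ∑ z, (if c z = t then μ z else 0) * (∑ x, ∑ y, (A ^ b) z x * (A ^ (a + s)) z y *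
      (RR A l1 (b + δ) (b + l1) z x y * Real.log (RR A l1 (b + δ) (b + l1) z x y))) =
      Psi A μ c b l1 (a + s) (b + δ) t := rfl
  have s8 : Psi A μ c l1 b (b + δ) (a + s) t ≤ ∑ u, (if c u = t then μ u else 0) *
      EL (lam A b (a + s) (fun w => (A ^ l1) u w) (fun v => (A ^ (b + δ)) u v)) F := by
    refine le_trans ?_ (hF l1 (b + δ) t hk (by omega))
    unfold Psi
    refine Finset.sum_le_sum fun u _ => mul_le_mul_of_nonneg_left ?_ (fam_nonneg h t u)
    rw [QB_walk h hT2 u]
    have := Dd_nonneg h (l1 + b) u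
    linarith
  have s4 := Psi_swap h (A := A) (μ := μ) (c := c) (l1 := l1) (b := b) (δ := δ) (by omega) t
  rw [show l1 - δ = a + s by omega] at s4
  rw [← hδ] at s1 s6
  linarith

theorem LD.wideL {b a s n : ℕ} {F G : S → S → ℝ} (hn : n % 2 = 0)
    (hF : GoodK A μ c s s F) (hG : SD A μ c (b + s) a n G) (hle : a + (b + s) ≤ n)
    (pF : PosK A s F) (pG : PosK A (a + (b + s)) G) (nF : ∀ x y, 0 ≤ F x y)
    (nG : ∀ x y, 0 ≤ G x y) : LD A μ c b a n (serK μ F G) := by
  have h1 := (LD.wideR h hn (hG.symm h) (hF.symm h) hle (PosK.swap h pG) (PosK.swap h pF)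
    (fun x y => nG y x) (fun x y => nF y x)).symm h
  rw [serK_swap] at h1
  exact h1

end Vale.Agent.P050.SP
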